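import Vale.Agent.P247.MathlibUsed
import Vale.Agent.P247.Stmt

set_option linter.all false

section

section

open scoped ContDiff

namespace Vale.Agent.P247

/-- The universal cover `ℝ⁴` of the torus `T⁴ = ℝ⁴ / ℤ⁴`, with coordinates `x 0, x 1, x 2, x 3`. -/
abbrev R4 : Type := Fin 4 → ℝ

/-- The standard basis vectors of `ℝ⁴`. -/
def e (i : Fin 4) : R4 := Pi.single i 1

/-- Differential `k`-forms on `ℝ⁴` (no regularity). -/
abbrev Form (k : ℕ) : Type := R4 → R4 [⋀^Fin k]→L[ℝ] ℝ

/-- Smooth `k`-forms on `T⁴`: smooth forms on `ℝ⁴` invariant under translation by `ℤ⁴`. -/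
def IsTorusForm {k : ℕ} (w : Form k) : Prop :=
  ContDiff ℝ ∞ w ∧ ∀ (n : Fin 4 → ℤ) (x : R4), w (fun i => x i + n i) = w x

/-- The number `c` such that `a ∧ b = c dx₀ ∧ dx₁ ∧ dx₂ ∧ dx₃` for two-covectors `a`, `b`. -/
def wedge (a b : R4 [⋀^Fin 2]→L[ℝ] ℝ) : ℝ :=
  a ![e 0, e 1] * b ![e 2, e 3] - a ![e 0, e 2] * b ![e 1, e 3]
    + a ![e 0, e 3] * b ![e 1, e 2] + a ![e 1, e 2] * b ![e 0, e 3]
    - a ![e 1, e 3] * b ![e 0, e 2] + a ![e 2, e 3] * b ![e 0, e 1]

/-- A hypersymplectic structure on `T⁴` (oriented by `dx₀ ∧ dx₁ ∧ dx₂ ∧ dx₃`): three closed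
two-forms with `ωᵢ ∧ ωⱼ = Qᵢⱼ dx₀ ∧ dx₁ ∧ dx₂ ∧ dx₃` and `Q` positive definite everywhere. -/
structure IsHypersymplectic (w : Fin 3 → Form 2) : Prop where
  torus : ∀ i, IsTorusForm (w i)
  closed : ∀ i x, extDeriv (w i) x = 0
  posDef : ∀ x, (Matrix.of fun i j => wedge (w i x) (w j x)).PosDef

/-- The Gram matrix is the identity: `∫_{T⁴} ωᵢ ∧ ωⱼ = δᵢⱼ`. -/
def IsNormalized (w : Fin 3 → Form 2) : Prop :=
  ∀ i j, ∫ x in Set.Icc (0 : R4) 1, wedge (w i x) (w j x) = if i = j then 1 else 0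

/-- A hyperkaehler triple: closed forms with `ωᵢ ∧ ωⱼ = 2 δᵢⱼ μ`, `μ = m dx₀ ∧ dx₁ ∧ dx₂ ∧ dx₃`
a positive volume form. -/
structure IsHyperkahlerTriple (w : Fin 3 → Form 2) : Prop where
  torus : ∀ i, IsTorusForm (w i)
  closed : ∀ i x, extDeriv (w i) x = 0
  orthogonal : ∃ m : R4 → ℝ, (∀ x, 0 < m x) ∧
    ∀ x i j, wedge (w i x) (w j x) = if i = j then 2 * m x else 0

/-- Two two-forms on `T⁴` differ by the exterior derivative of a one-form on `T⁴`. -/
def Cohomologous (u v : Form 2) : Prop :=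
  ∃ a : Form 1, IsTorusForm a ∧ ∀ x, u x - v x = extDeriv a x

/-- `γ t`, `0 ≤ t ≤ 1`, is a cohomologous deformation of `w`: smooth in `(t, x)`, starting at `w`,
hypersymplectic with fixed cohomology classes. -/
structure IsCohomologousDeformation (w : Fin 3 → Form 2) (γ : ℝ → Fin 3 → Form 2) : Prop where
  smooth : ∀ i, ContDiff ℝ ∞ fun p : ℝ × R4 => γ p.1 i p.2
  start : γ 0 = w
  hypersymplectic : ∀ t ∈ Set.Icc (0 : ℝ) 1, IsHypersymplectic (γ t)
  cohomologous : ∀ t ∈ Set.Icc (0 : ℝ) 1, ∀ i, Cohomologous (γ t i) (w i)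

/-- A diffeomorphism of `T⁴`, given by a lift to `ℝ⁴` and a lift of its inverse. -/
structure TorusDiffeo where
  toFun : R4 → R4
  invFun : R4 → R4
  smooth_toFun : ContDiff ℝ ∞ toFun
  smooth_invFun : ContDiff ℝ ∞ invFun
  left_inv : ∀ x, invFun (toFun x) = x
  right_inv : ∀ x, toFun (invFun x) = x
  equivariant : ∀ n : Fin 4 → ℤ, ∃ m : Fin 4 → ℤ, ∀ x : R4,
    toFun (fun i => x i + n i) = fun i => toFun x i + m i
  equivariant_inv : ∀ n : Fin 4 → ℤ, ∃ m : Fin 4 → ℤ, ∀ x : R4,
    invFun (fun i => x i + n i) = fun i => invFun x i + m i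

/-- The two-form `w` vanishes on the fibres of the torus fibration `T⁴ → T²` given by the first two
coordinates of the diffeomorphism `Φ`. -/
def VanishesOnFibres (Φ : TorusDiffeo) (w : Form 2) : Prop :=
  ∀ x u v : R4, (fderiv ℝ Φ.toFun x u) 0 = 0 → (fderiv ℝ Φ.toFun x u) 1 = 0 →
    (fderiv ℝ Φ.toFun x v) 0 = 0 → (fderiv ℝ Φ.toFun x v) 1 = 0 → w x ![u, v] = 0

end Vale.Agent.P247
end
end

section

section

namespace Vale.Agent.P247

/-- Constant two-forms on `ℝ⁴` in coordinates, order `(01, 02, 03, 12, 13, 23)`. -/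
abbrev V6 : Type := Fin 6 → ℝ

/-- The wedge pairing in coordinates. -/
def B (a b : V6) : ℝ :=
  a 0 * b 5 - a 1 * b 4 + a 2 * b 3 + a 3 * b 2 - a 4 * b 1 + a 5 * b 0

/-- `dx₀ ∧ dx₁` in coordinates. -/
def nu : V6 := ![1, 0, 0, 0, 0, 0]

/-- The partial derivative of a function on `ℝ⁴`. -/
noncomputable def pd (i : Fin 4) (f : R4 → ℝ) (x : R4) : ℝ := fderiv ℝ f x (e i)

/-- Coordinates of a two-covector. -/
def coord (a : R4 [⋀^Fin 2]→L[ℝ] ℝ) : V6 :=
  ![a ![e 0, e 1], a ![e 0, e 2], a ![e 0, e 3], a ![e 1, e 2], a ![e 1, e 3], a ![e 2, e 3]]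

theorem wedge_eq_B (a b : R4 [⋀^Fin 2]→L[ℝ] ℝ) : wedge a b = B (coord a) (coord b) := rfl

theorem B_comm (a b : V6) : B a b = B b a := by simp only [B]; ring

theorem B_add_left (a b c : V6) : B (a + b) c = B a c + B b c := by
  simp only [B, Pi.add_apply]; ring

theorem B_add_right (a b c : V6) : B a (b + c) = B a b + B a c := by
  simp only [B, Pi.add_apply]; ring

theorem B_smul_left (t : ℝ) (a b : V6) : B (t • a) b = t * B a b := by
  simp only [B, Pi.smul_apply, smul_eq_mul]; ring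

theorem B_smul_right (t : ℝ) (a b : V6) : B a (t • b) = t * B a b := by
  simp only [B, Pi.smul_apply, smul_eq_mul]; ring

theorem B_sub_left (a b c : V6) : B (a - b) c = B a c - B b c := by
  simp only [B, Pi.sub_apply]; ring

theorem B_sub_right (a b c : V6) : B a (b - c) = B a b - B a c := by
  simp only [B, Pi.sub_apply]; ring

@[simp] theorem B_zero_left (a : V6) : B 0 a = 0 := by simp [B]

@[simp] theorem B_zero_right (a : V6) : B a 0 = 0 := by simp [B]

@[simp] theorem B_nu (a : V6) : B nu a = a 5 := by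
  simp [B, nu]

@[simp] theorem B_nu_right (a : V6) : B a nu = a 5 := by
  rw [B_comm, B_nu]

@[simp] theorem nu_five : nu 5 = 0 := rfl

end Vale.Agent.P247
end
end

section

section

namespace Vale.Agent.P247

/-- The Gram determinant of a pair. -/
def gd (u v : V6) : ℝ := B u u * B v v - B u v ^ 2

/-- The Gram matrix of `u, v` is positive definite. -/
structure PairPos (u v : V6) : Prop where
  pos : 0 < B u u
  det : 0 < gd u v

/-- The polarised Gram determinant of `u, v, ·`. -/
def DB (u v f h : V6) : ℝ :=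
  B f h * gd u v - (B v v * (B f u * B h u) - B u v * (B f u * B h v + B f v * B h u)
    + B u u * (B f v * B h v))

/-- The Gram determinant of `u, v, f`. -/
def Dl (u v f : V6) : ℝ := DB u v f f

theorem DB_comm (u v f h : V6) : DB u v f h = DB u v h f := by
  simp only [DB, B_comm f h]; ring

theorem DB_add_left (u v f f' h : V6) : DB u v (f + f') h = DB u v f h + DB u v f' h := by
  simp only [DB, B_add_left]; ring

theorem DB_smul_left (u v : V6) (t : ℝ) (f h : V6) : DB u v (t • f) h = t * DB u v f h := by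
  simp only [DB, B_smul_left]; ring

theorem DB_add_right (u v f h h' : V6) : DB u v f (h + h') = DB u v f h + DB u v f h' := by
  simp only [DB, B_add_left, B_add_right]; ring

theorem DB_smul_right (u v : V6) (t : ℝ) (f h : V6) : DB u v f (t • h) = t * DB u v f h := by
  simp only [DB, B_smul_left, B_smul_right]; ring

theorem Dl_add (u v f h : V6) : Dl u v (f + h) = Dl u v f + 2 * DB u v f h + Dl u v h := by
  simp only [Dl, DB_add_left, DB_add_right, DB_comm u v h f]; ring

theorem Dl_smul (u v : V6) (t : ℝ) (f : V6) : Dl u v (t • f) = t ^ 2 * Dl u v f := by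
  simp only [Dl, DB_smul_left, DB_smul_right]; ring

theorem PairPos.comb_pos {u v : V6} (h : PairPos u v) {a b : ℝ} (hab : a ≠ 0 ∨ b ≠ 0) :
    0 < B (a • u + b • v) (a • u + b • v) := by
  have h1 := h.pos
  have h2 := h.det
  unfold gd at h2
  have key : B u u * B (a • u + b • v) (a • u + b • v)
      = (a * B u u + b * B u v) ^ 2 + b ^ 2 * (B u u * B v v - B u v ^ 2) := by
    simp only [B_add_left, B_add_right, B_smul_left, B_smul_right, B_comm v u]; ring
  have h3 : 0 < B u u * B (a • u + b • v) (a • u + b • v) := by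
    rw [key]
    by_cases hb : b = 0
    · have ha : a ≠ 0 := by
        rcases hab with h | h
        · exact h
        · exact absurd hb h
      subst hb
      have : 0 < (a * B u u) ^ 2 := by (clear * - ha h1; positivity)
      simpa only [zero_mul, add_zero, ne_eq, OfNat.ofNat_ne_zero, not_false_eq_true, zero_pow, gt_iff_lt] using this
    · have : 0 < b ^ 2 * (B u u * B v v - B u v ^ 2) := by (clear * - hb h2; positivity)
      have h4 := sq_nonneg (a * B u u + b * B u v)
      linarith only [this, h4]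
  exact (pos_iff_pos_of_mul_pos h3).mp h1

/-- The form on `ν^⊥ / ν` has signature `(2, 2)`. -/
theorem B_self_of_five (z : V6) (h5 : z 5 = 0) (h1 : z 2 + z 3 = 0) (h2 : z 1 - z 4 = 0) :
    B z z ≤ 0 := by
  have h3 : z 3 = - z 2 := by linarith only [h1]
  have h4 : z 4 = z 1 := by linarith
  simp only [B, h5, h3, h4]
  nlinarith only [sq_nonneg (z 2)]

theorem nonpos_of_orth {u v f : V6} (hu : u 5 = 0) (hv : v 5 = 0) (h : PairPos u v)
    (hf : f 5 = 0) (hfu : B f u = 0) (hfv : B f v = 0) : B f f ≤ 0 := by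
  by_contra hc
  push Not at hc
  have hdet : (!![u 2 + u 3, v 2 + v 3, f 2 + f 3; u 1 - u 4, v 1 - v 4, f 1 - f 4; 0, 0, 0] :
      Matrix (Fin 3) (Fin 3) ℝ).det = 0 := by
    simp [Matrix.det_fin_three]
  obtain ⟨c, hc0, hc1⟩ := Matrix.exists_mulVec_eq_zero_iff.mpr hdet
  have e0 := congrFun hc1 0
  have e1 := congrFun hc1 1
  simp only [Matrix.mulVec, dotProduct, Fin.isValue, Matrix.of_apply, Matrix.cons_val', Matrix.cons_val_fin_one, Matrix.cons_val_zero, Fin.sum_univ_three, Matrix.cons_val_one, Matrix.cons_val, Pi.zero_apply] at e0 e1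
  set z : V6 := c 0 • u + c 1 • v + c 2 • f with hz
  have hz5 : z 5 = 0 := by simp [hz, hu, hv, hf]
  have hz1 : z 2 + z 3 = 0 := by
    simp only [hz, Pi.add_apply, Pi.smul_apply, smul_eq_mul]; linarith
  have hz2 : z 1 - z 4 = 0 := by
    simp only [hz, Pi.add_apply, Pi.smul_apply, smul_eq_mul]; linarith only [e1]
  have hneg := B_self_of_five z hz5 hz1 hz2
  have hBz : B z z = B (c 0 • u + c 1 • v) (c 0 • u + c 1 • v) + (c 2) ^ 2 * B f f := by
    rw [hz]
    simp only [B_add_left, B_add_right, B_smul_left, B_smul_right, B_comm u f, B_comm v f, hfu, hfv]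
    ring
  by_cases h01 : c 0 ≠ 0 ∨ c 1 ≠ 0
  · have := h.comb_pos h01
    have h2 : 0 ≤ (c 2) ^ 2 * B f f := by (clear * - hc; positivity)
    linarith only [hneg, hBz, this, h2]
  · push Not at h01
    have h2 : c 2 ≠ 0 := by
      intro h2
      apply hc0
      funext i
      fin_cases i <;> simp [h01.1, h01.2, h2]
    have : 0 < (c 2) ^ 2 * B f f := by (clear * - h2 hc; positivity)
    rw [hBz, h01.1, h01.2] at hneg
    simp only [zero_smul, add_zero, B_zero_right, Fin.isValue, zero_add] at hneg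
    linarith only [this, hneg]

/-- Lorentzian property: the Gram determinant of `u, v, f` is nonpositive for `f` in `ν^⊥`. -/
theorem Dl_nonpos {u v f : V6} (hu : u 5 = 0) (hv : v 5 = 0) (h : PairPos u v)
    (hf : f 5 = 0) : Dl u v f ≤ 0 := by
  set p := B v v * B f u - B u v * B f v with hp
  set q := B u u * B f v - B u v * B f u with hq
  set z : V6 := gd u v • f - p • u - q • v with hz
  have hzu : B z u = 0 := by
    rw [hz]; simp only [B_sub_left, B_smul_left, hp, hq, gd, B_comm v u]; ring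
  have hzv : B z v = 0 := by
    rw [hz]; simp only [B_sub_left, B_smul_left, hp, hq, gd]; ring
  have hz5 : z 5 = 0 := by simp [hz, hu, hv, hf]
  have h1 := nonpos_of_orth hu hv h hz5 hzu hzv
  have h2 : B z z = gd u v * Dl u v f := by
    rw [hz]
    simp only [B_sub_left, B_sub_right, B_smul_left, B_smul_right, hp, hq, gd, Dl, DB, B_comm v u,
      B_comm u f, B_comm v f]
    ring
  rw [h2] at h1
  have h3 := h.det
  by_contra hc
  push Not at hc
  have := mul_pos h3 hc
  linarith only [h1, this]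

end Vale.Agent.P247
end
end

section

section

namespace Vale.Agent.P247

/-- The open convex cone of two-covectors completing the pair `u, v` to a definite triple. -/
def Cone (u v : V6) : Set V6 := {f | 0 < f 5 ∧ 0 < Dl u v f}

/-- Null vectors orthogonal to `u, v`, normalised against `ν`. -/
def Null1 (u v : V6) : Set V6 := {X | B X u = 0 ∧ B X v = 0 ∧ B X X = 0 ∧ X 5 = 1}

theorem B_sub_smul_nu (z : V6) (s : ℝ) : B (z - s • nu) (z - s • nu) = B z z - 2 * s * z 5 := by
  simp only [B_sub_left, B_sub_right, B_smul_left, B_smul_right, B_nu, B_nu_right, Pi.sub_apply,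
    Pi.smul_apply, smul_eq_mul, nu_five]
  ring

section
variable {u v : V6}

theorem Dl_sub (u v f h : V6) : Dl u v (f - h) = Dl u v f - 2 * DB u v f h + Dl u v h := by
  have : f - h = f + (-1 : ℝ) • h := by simp [sub_eq_add_neg]
  rw [this, Dl_add, Dl_smul, DB_smul_right]; ring

theorem DB_nu (hu : u 5 = 0) (hv : v 5 = 0) (f : V6) : DB u v f nu = gd u v * f 5 := by
  simp [DB, hu, hv]; ring

theorem Dl_nu (hu : u 5 = 0) (hv : v 5 = 0) : Dl u v nu = 0 := by
  simp [Dl, DB_nu hu hv]

theorem Dl_add_nu (hu : u 5 = 0) (hv : v 5 = 0) (f : V6) (t : ℝ) :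
    Dl u v (f + t • nu) = Dl u v f + 2 * t * gd u v * f 5 := by
  rw [Dl_add, Dl_smul, DB_smul_right, DB_nu hu hv, Dl_nu hu hv]; ring

/-- Reverse Cauchy–Schwarz in the form we use it. -/
theorem DB_pos (hu : u 5 = 0) (hv : v 5 = 0) (h : PairPos u v) {f k : V6}
    (hf : 0 < f 5) (hf' : 0 ≤ Dl u v f) (hk : k ∈ Cone u v) : 0 < DB u v f k := by
  obtain ⟨hk1, hk2⟩ := hk
  have h5 : (k 5 • f - f 5 • k) 5 = 0 := by simp only [Fin.isValue, Pi.sub_apply, Pi.smul_apply, smul_eq_mul]; ring
  have h1 := Dl_nonpos hu hv h h5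
  rw [Dl_sub, Dl_smul, Dl_smul, DB_smul_left, DB_smul_right] at h1
  have h2 : 0 < (f 5) ^ 2 * Dl u v k := by (clear * - hf hk2; positivity)
  have h3 : 0 ≤ (k 5) ^ 2 * Dl u v f := by (clear * - hk1 hf'; positivity)
  have h4 : 0 < 2 * (k 5 * f 5) * DB u v f k := by linarith
  have h5 : 0 < 2 * (k 5 * f 5) := by (clear * - hk1 hf; positivity)
  exact (pos_iff_pos_of_mul_pos h4).mp h5

theorem add_mem_cone (hu : u 5 = 0) (hv : v 5 = 0) (h : PairPos u v) {f k : V6}
    (hf : 0 < f 5) (hf' : 0 ≤ Dl u v f) (hk : k ∈ Cone u v) : f + k ∈ Cone u v := by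
  have h1 := DB_pos hu hv h hf hf' hk
  obtain ⟨hk1, hk2⟩ := hk
  refine ⟨by simp; linarith, ?_⟩
  rw [Dl_add]; linarith only [hf', h1, hk2]

theorem smul_mem_cone {f : V6} {t : ℝ} (ht : 0 < t) (hf : f ∈ Cone u v) : t • f ∈ Cone u v := by
  obtain ⟨h1, h2⟩ := hf
  refine ⟨by simp only [Fin.isValue, Pi.smul_apply, smul_eq_mul]; positivity, ?_⟩
  rw [Dl_smul]; positivity

theorem add_nu_mem_cone (hu : u 5 = 0) (hv : v 5 = 0) (h : PairPos u v) {f : V6} {t : ℝ}
    (ht : 0 ≤ t) (hf : f ∈ Cone u v) : f + t • nu ∈ Cone u v := by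
  obtain ⟨h1, h2⟩ := hf
  have h3 := h.det
  refine ⟨by simpa using h1, ?_⟩
  rw [Dl_add_nu hu hv]; (clear * - h2 ht h3 h1; positivity)

theorem convex_cone (hu : u 5 = 0) (hv : v 5 = 0) (h : PairPos u v) : Convex ℝ (Cone u v) := by
  intro f hf k hk a b ha hb hab
  rcases eq_or_lt_of_le ha with ha0 | ha0
  · subst ha0
    have : b = 1 := by linarith
    subst this
    simpa using hk
  rcases eq_or_lt_of_le hb with hb0 | hb0
  · subst hb0
    have : a = 1 := by linarith only [hab]
    subst this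
    simpa using hf
  · have h1 := smul_mem_cone ha0 hf
    exact add_mem_cone hu hv h h1.1 h1.2.le (smul_mem_cone hb0 hk)

/-- Adding multiples of `u` and `v` does not change the Gram determinant. -/
theorem Dl_add_pair (f : V6) (a b : ℝ) : Dl u v (f + a • u + b • v) = Dl u v f := by
  simp only [Dl, DB, gd, B_add_left, B_add_right, B_smul_left, B_smul_right, B_comm v u,
    B_comm u f, B_comm v f]
  ring

theorem add_pair_mem_cone (hu : u 5 = 0) (hv : v 5 = 0) {f : V6} (hf : f ∈ Cone u v) (a b : ℝ) :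
    f + a • u + b • v ∈ Cone u v := by
  refine ⟨by simpa [hu, hv] using hf.1, ?_⟩
  rw [Dl_add_pair]; exact hf.2

theorem B_pos_of_mem_cone (hu : u 5 = 0) (hv : v 5 = 0) (h : PairPos u v) {X f : V6}
    (hX : X ∈ Null1 u v) (hf : f ∈ Cone u v) : 0 < B X f := by
  obtain ⟨hX1, hX2, hX3, hX4⟩ := hX
  have h0 : 0 ≤ Dl u v X := by simp [Dl, DB, hX1, hX2, hX3]
  have h1 := DB_pos hu hv h (by rw [hX4]; norm_num) h0 hf
  have h2 : DB u v X f = gd u v * B X f := by simp [DB, hX1, hX2]; ring
  rw [h2] at h1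
  exact (pos_iff_pos_of_mul_pos h1).mp h.det

theorem mem_cone_of_B_pos (hu : u 5 = 0) (hv : v 5 = 0) (h : PairPos u v) {f : V6}
    (hf : 0 < f 5) (hX : ∀ X ∈ Null1 u v, 0 < B X f) : f ∈ Cone u v := by
  refine ⟨hf, ?_⟩
  have hg := h.det
  have hg0 : gd u v ≠ 0 := ne_of_gt hg
  have hf0 : f 5 ≠ 0 := ne_of_gt hf
  set p := (B v v * B f u - B u v * B f v) / gd u v with hp
  set q := (B u u * B f v - B u v * B f u) / gd u v with hq
  set D := Dl u v f / gd u v with hD
  set z : V6 := f - p • u - q • v with hz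
  set X : V6 := (1 / f 5) • (z - (D / (2 * f 5)) • nu) with hXdef
  have hzu : B z u = 0 := by
    rw [hz]; simp only [B_sub_left, B_smul_left, hp, hq, B_comm v u]
    field_simp
    simp only [gd]; ring
  have hzv : B z v = 0 := by
    rw [hz]; simp only [B_sub_left, B_smul_left, hp, hq]
    field_simp
    simp only [gd]; ring
  have hz5 : z 5 = f 5 := by simp [hz, hu, hv]
  have hzf : B z f = D := by
    rw [hz, hD]; simp only [B_sub_left, B_smul_left, hp, hq, B_comm v f, B_comm u f, Dl, DB]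
    field_simp
    simp only [gd]; ring
  have hzz : B z z = D := by
    have : B z z = B z f - p * B z u - q * B z v := by
      conv_lhs => rw [show B z z = B z (f - p • u - q • v) from by rw [hz]]
      simp only [B_sub_right, B_smul_right]
    rw [this, hzf, hzu, hzv]; ring
  have hXmem : X ∈ Null1 u v := by
    refine ⟨?_, ?_, ?_, ?_⟩
    · rw [hXdef, B_smul_left, B_sub_left, hzu, B_smul_left, B_nu, hu]; ring
    · rw [hXdef, B_smul_left, B_sub_left, hzv, B_smul_left, B_nu, hv]; ring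
    · rw [hXdef, B_smul_left, B_smul_right, B_sub_smul_nu, hzz, hz5]
      field_simp
      ring
    · simp only [hXdef, Fin.isValue, one_div, Pi.smul_apply, Pi.sub_apply, hz5, nu_five, smul_eq_mul, mul_zero, sub_zero]; field_simp
  have h1 := hX X hXmem
  have h2 : B X f = D / (2 * f 5) := by
    rw [hXdef, B_smul_left, B_sub_left, hzf, B_smul_left, B_nu]
    field_simp
    ring
  rw [h2] at h1
  have h3 : 0 < D := by
    have : D = D / (2 * f 5) * (2 * f 5) := by field_simp
    rw [this]; (clear * - h1 hf; positivity)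
  have h4 : Dl u v f = D * gd u v := by rw [hD]; (clear * - hg0; field_simp)
  rw [h4]; (clear * - h3 hg; positivity)

end

end Vale.Agent.P247
end
end

section

section

open MeasureTheory Set
open scoped ContDiff

namespace Vale.Agent.P247

/-- 2-covectors on `R^4` -/
abbrev Form2 : Type := R4 [⋀^Fin 2]→L[ℝ] ℝ

/-- 1-covectors on `R^4` -/
abbrev Form1 : Type := R4 [⋀^Fin 1]→L[ℝ] ℝ

/-- The component `α(e_i, e_j)` of a 2-covector on `R^4`. -/
def comp (α : R4 [⋀^Fin 2]→L[ℝ] ℝ) (i j : Fin 4) : ℝ := α ![e i, e j]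

theorem wedge_def (α β : Form2) : wedge α β =
    comp α 0 1 * comp β 2 3 - comp α 0 2 * comp β 1 3 + comp α 0 3 * comp β 1 2
    + comp α 1 2 * comp β 0 3 - comp α 1 3 * comp β 0 2 + comp α 2 3 * comp β 0 1 := rfl

@[simp] theorem comp_add (α β : Form2) (i j : Fin 4) :
    comp (α + β) i j = comp α i j + comp β i j := rfl

@[simp] theorem comp_sub (α β : Form2) (i j : Fin 4) :
    comp (α - β) i j = comp α i j - comp β i j := rfl

@[simp] theorem comp_smul (c : ℝ) (α : Form2) (i j : Fin 4) :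
    comp (c • α) i j = c * comp α i j := rfl

theorem apply_swap (α : Form2) (u v : R4) : α ![v, u] = -α ![u, v] := by
  have h := α.toAlternatingMap.map_swap ![u, v] (i := 0) (j := 1) (by decide)
  have e : (![u, v] ∘ Equiv.swap (0 : Fin 2) 1) = ![v, u] := by
    funext i
    fin_cases i <;> simp
  rw [e] at h
  exact h

theorem apply_self (α : Form2) (u : R4) : α ![u, u] = 0 :=
  α.map_eq_zero_of_eq _ (i := 0) (j := 1) (by simp) (by decide)

theorem comp_swap (α : Form2) (i j : Fin 4) : comp α j i = -comp α i j :=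
  apply_swap α _ _

@[simp] theorem comp_self (α : Form2) (i : Fin 4) : comp α i i = 0 :=
  apply_self α _

theorem vec_eq_sum (u : R4) : u = ∑ i, u i • e i := by
  funext j
  simp [e, Finset.sum_apply, Pi.single_apply]

theorem apply_eq (α : Form2) (u v : R4) :
    α ![u, v] = ∑ i, ∑ j, u i * v j * comp α i j := by
  have h1 : ∀ v : R4, α ![u, v] = ∑ i, u i * α ![e i, v] := by
    intro v
    have : α ![u, v] = (α.curryLeft u) ![v] := rfl
    rw [this]
    conv_lhs => rw [vec_eq_sum u]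
    rw [map_sum, ContinuousAlternatingMap.sum_apply]
    refine Finset.sum_congr rfl fun i _ => ?_
    rw [map_smul]
    rfl
  have h2 : ∀ u v : R4, α ![u, v] = ∑ j, v j * α ![u, e j] := by
    intro u v
    have : α ![u, v] = ((α.curryLeft u).curryLeft v) ![] := rfl
    rw [this]
    conv_lhs => rw [vec_eq_sum v]
    rw [map_sum, ContinuousAlternatingMap.sum_apply]
    refine Finset.sum_congr rfl fun i _ => ?_
    rw [map_smul]
    rfl
  rw [h1]
  refine Finset.sum_congr rfl fun i _ => ?_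
  rw [h2, Finset.mul_sum]
  refine Finset.sum_congr rfl fun j _ => ?_
  simp only [comp]
  ring

theorem form2_ext {α β : Form2} (h : ∀ i j, comp α i j = comp β i j) : α = β := by
  ext v
  have hv : v = ![v 0, v 1] := by
    funext i
    fin_cases i <;> rfl
  rw [hv, apply_eq, apply_eq]
  simp only [h]

theorem wedge_comm (α β : Form2) : wedge α β = wedge β α := by
  simp only [wedge_def]; ring

theorem wedge_add_left (α α' β : Form2) : wedge (α + α') β = wedge α β + wedge α' β := by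
  simp only [wedge_def, comp_add]; ring

theorem wedge_add_right (α β β' : Form2) : wedge α (β + β') = wedge α β + wedge α β' := by
  simp only [wedge_def, comp_add]; ring

theorem wedge_sub_left (α α' β : Form2) : wedge (α - α') β = wedge α β - wedge α' β := by
  simp only [wedge_def, comp_sub]; ring

theorem wedge_smul_left (c : ℝ) (α β : Form2) : wedge (c • α) β = c * wedge α β := by
  simp only [wedge_def, comp_smul]; ring

theorem wedge_smul_right (c : ℝ) (α β : Form2) : wedge α (c • β) = c * wedge α β := by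
  simp only [wedge_def, comp_smul]; ring

/-- `wedge` as a bilinear map -/
noncomputable def wedgeL : Form2 →ₗ[ℝ] Form2 →ₗ[ℝ] ℝ :=
  LinearMap.mk₂ ℝ wedge wedge_add_left (fun c α β => by rw [wedge_smul_left, smul_eq_mul])
    wedge_add_right (fun c α β => by rw [wedge_smul_right, smul_eq_mul])

theorem wedgeL_apply (α β : Form2) : wedgeL α β = wedge α β := rfl

theorem wedge_sum_left {ι : Type*} (s : Finset ι) (f : ι → Form2) (β : Form2) :
    wedge (∑ k ∈ s, f k) β = ∑ k ∈ s, wedge (f k) β := by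
  rw [← wedgeL_apply, map_sum, LinearMap.sum_apply]; rfl

theorem wedge_sum_right {ι : Type*} (s : Finset ι) (f : ι → Form2) (β : Form2) :
    wedge β (∑ k ∈ s, f k) = ∑ k ∈ s, wedge β (f k) := by
  rw [wedge_comm, wedge_sum_left]
  exact Finset.sum_congr rfl fun k _ => wedge_comm _ _

/-- entries of the matrix of a linear map of `R4` -/
theorem pullback_comp (α : Form2) (P : R4 →L[ℝ] R4) (i j : Fin 4) :
    comp (α.compContinuousLinearMap P) i j =
      ∑ a, ∑ b, (P (e i)) a * (P (e j)) b * comp α a b := by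
  have : comp (α.compContinuousLinearMap P) i j =
      α ![P (e i), P (e j)] := by
    simp only [comp, ContinuousAlternatingMap.compContinuousLinearMap_apply]
    congr 1
    funext k
    fin_cases k <;> rfl
  rw [this, apply_eq]

theorem pullback_apply (α : Form2) (P : R4 →L[ℝ] R4) (u v : R4) :
    (α.compContinuousLinearMap P) ![u, v] = α ![P u, P v] := by
  simp only [ContinuousAlternatingMap.compContinuousLinearMap_apply]
  congr 1
  funext k
  fin_cases k <;> rfl

theorem det_eq_matrix (P : R4 →L[ℝ] R4) :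
    P.det = (Matrix.of fun a i => (P (e i)) a : Matrix (Fin 4) (Fin 4) ℝ).det := by
  rw [ContinuousLinearMap.det, ← LinearMap.det_toMatrix']
  congr 1

theorem wedge_pullback_aux (p : Matrix (Fin 4) (Fin 4) ℝ)
    (a01 a02 a03 a12 a13 a23 b01 b02 b03 b12 b13 b23 : ℝ)
    (A : Fin 4 → Fin 4 → ℝ) (B : Fin 4 → Fin 4 → ℝ)
    (hA : ∀ i j, A i j = a01 * (p 0 i * p 1 j - p 1 i * p 0 j)
     + a02 * (p 0 i * p 2 j - p 2 i * p 0 j)
     + a03 * (p 0 i * p 3 j - p 3 i * p 0 j) + a12 * (p 1 i * p 2 j - p 2 i * p 1 j)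
     + a13 * (p 1 i * p 3 j - p 3 i * p 1 j) + a23 * (p 2 i * p 3 j - p 3 i * p 2 j))
    (hB : ∀ i j, B i j = b01 * (p 0 i * p 1 j - p 1 i * p 0 j)
     + b02 * (p 0 i * p 2 j - p 2 i * p 0 j)
     + b03 * (p 0 i * p 3 j - p 3 i * p 0 j) + b12 * (p 1 i * p 2 j - p 2 i * p 1 j)
     + b13 * (p 1 i * p 3 j - p 3 i * p 1 j) + b23 * (p 2 i * p 3 j - p 3 i * p 2 j)) :
    A 0 1 * B 2 3 - A 0 2 * B 1 3 + A 0 3 * B 1 2 + A 1 2 * B 0 3 - A 1 3 * B 0 2
      + A 2 3 * B 0 1
     = p.det * (a01 * b23 - a02 * b13 + a03 * b12 + a12 * b03 - a13 * b02 + a23 * b01) := by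
  simp only [hA, hB]
  rw [Matrix.det_succ_row_zero]
  simp only [Fin.isValue, Nat.succ_eq_add_one, Nat.reduceAdd, Matrix.det_fin_three, Matrix.submatrix_apply, Fin.succ_zero_eq_one, Fin.succAbove, Fin.castSucc_zero, Fin.succ_one_eq_two, Fin.castSucc_one, Fin.reduceSucc, Fin.reduceCastSucc, Fin.sum_univ_succ, Fin.coe_ofNat_eq_mod, Nat.zero_mod, pow_zero, one_mul, lt_self_iff_false, ↓reduceIte, not_lt_zero, Fin.val_succ, Fin.succ_pos, zero_add, pow_one, neg_mul, Fin.lt_one_iff, Fin.reduceEq, even_two, Even.neg_pow, one_pow, Fin.reduceLT, Finset.univ_unique, Fin.default_eq_zero, Fin.val_eq_zero, Finset.sum_singleton]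
  ring

theorem pullback_comp' (α : Form2) (P : R4 →L[ℝ] R4) (i j : Fin 4) :
    comp (α.compContinuousLinearMap P) i j =
      comp α 0 1 * ((P (e i)) 0 * (P (e j)) 1
          - (P (e i)) 1 * (P (e j)) 0)
      + comp α 0 2 * ((P (e i)) 0 * (P (e j)) 2
          - (P (e i)) 2 * (P (e j)) 0)
      + comp α 0 3 * ((P (e i)) 0 * (P (e j)) 3
          - (P (e i)) 3 * (P (e j)) 0)
      + comp α 1 2 * ((P (e i)) 1 * (P (e j)) 2
          - (P (e i)) 2 * (P (e j)) 1)
      + comp α 1 3 * ((P (e i)) 1 * (P (e j)) 3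
          - (P (e i)) 3 * (P (e j)) 1)
      + comp α 2 3 * ((P (e i)) 2 * (P (e j)) 3
          - (P (e i)) 3 * (P (e j)) 2) := by
  rw [pullback_comp]
  simp only [Fin.sum_univ_four, comp_self, comp_swap α 0 1, comp_swap α 0 2, comp_swap α 0 3,
    comp_swap α 1 2, comp_swap α 1 3, comp_swap α 2 3]
  ring

theorem wedge_pullback (α β : Form2) (P : R4 →L[ℝ] R4) :
    wedge (α.compContinuousLinearMap P) (β.compContinuousLinearMap P) = P.det * wedge α β := by
  rw [det_eq_matrix]
  exact wedge_pullback_aux (Matrix.of fun a i => (P (e i)) a)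
    _ _ _ _ _ _ _ _ _ _ _ _ (fun i j => comp (α.compContinuousLinearMap P) i j)
    (fun i j => comp (β.compContinuousLinearMap P) i j) (pullback_comp' α P) (pullback_comp' β P)

end Vale.Agent.P247
end
end

section

section

open MeasureTheory Set Filter Topology
open scoped ContDiff

namespace Vale.Agent.P247

/-- weighted mean of `f` along the segment from `x` to `x + ξ` -/
noncomputable def wavg {E F : Type} [NormedAddCommGroup E] [NormedSpace ℝ E]
    [NormedAddCommGroup F] [NormedSpace ℝ F] (ρ : ℝ → ℝ) (ξ : E) (f : E → F) (x : E) : F :=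
  ∫ s in (0 : ℝ)..1, ρ s • f (x + s • ξ)

section

variable {E F : Type} [NormedAddCommGroup E] [NormedSpace ℝ E]
  [NormedAddCommGroup F] [NormedSpace ℝ F]

theorem wavg_continuous {ρ : ℝ → ℝ} (hρ : Continuous ρ) (ξ : E) {f : E → F}
    (hf : Continuous f) : Continuous (wavg ρ ξ f) := by
  unfold wavg
  apply intervalIntegral.continuous_parametric_intervalIntegral_of_continuous'
  fun_prop

variable [FiniteDimensional ℝ E]

theorem wavg_hasFDerivAt {ρ : ℝ → ℝ} (hρ : Continuous ρ) (ξ : E) {f : E → F}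
    (hf : ContDiff ℝ 1 f) (x : E) :
    HasFDerivAt (wavg ρ ξ f) (wavg ρ ξ (fderiv ℝ f) x) x := by
  have : ProperSpace E := FiniteDimensional.proper ℝ E
  have hfc : Continuous f := hf.continuous
  have hf' : Continuous (fderiv ℝ f) := hf.continuous_fderiv (by norm_num)
  -- bound
  have hcomp : IsCompact ((Metric.closedBall x 1) ×ˢ (Icc (0:ℝ) 1)) :=
    (isCompact_closedBall x 1).prod isCompact_Icc
  have hcont : Continuous (fun p : E × ℝ => ρ p.2 • fderiv ℝ f (p.1 + p.2 • ξ)) := by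
    fun_prop
  obtain ⟨C, hC⟩ := hcomp.exists_bound_of_continuousOn hcont.continuousOn
  unfold wavg
  refine intervalIntegral.hasFDerivAt_integral_of_dominated_of_fderiv_le
    (F := fun x s => ρ s • f (x + s • ξ))
    (F' := fun x s => ρ s • fderiv ℝ f (x + s • ξ)) (bound := fun _ => C)
    (Metric.ball_mem_nhds x one_pos) ?_ ?_ ?_ ?_ ?_ ?_
  · refine Eventually.of_forall fun y => ?_
    exact (by fun_prop : Continuous fun s : ℝ => ρ s • f (y + s • ξ)).aestronglyMeasurable
  · exact (by fun_prop : Continuous fun s : ℝ => ρ s • f (x + s • ξ)).intervalIntegrable _ _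
  · exact (by fun_prop : Continuous fun s : ℝ => ρ s • fderiv ℝ f (x + s • ξ)).aestronglyMeasurable
  · refine Eventually.of_forall fun s hs y hy => ?_
    rw [uIoc_of_le zero_le_one] at hs
    exact hC (y, s) ⟨Metric.ball_subset_closedBall hy, ⟨hs.1.le, hs.2⟩⟩
  · exact intervalIntegrable_const
  · refine Eventually.of_forall fun s _ y _ => ?_
    have h1 : HasFDerivAt f (fderiv ℝ f (y + s • ξ)) (y + s • ξ) :=
      (hf.differentiable (by norm_num) _).hasFDerivAt
    have h2 : HasFDerivAt (fun y : E => y + s • ξ) (ContinuousLinearMap.id ℝ E) y :=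
      (hasFDerivAt_id y).add_const _
    have h3 : HasFDerivAt (fun y : E => f (y + s • ξ)) (fderiv ℝ f (y + s • ξ)) y := by
      have := h1.comp y h2
      simpa [Function.comp_def] using this
    exact h3.const_smul (ρ s)

theorem fderiv_wavg {ρ : ℝ → ℝ} (hρ : Continuous ρ) (ξ : E) {f : E → F}
    (hf : ContDiff ℝ 1 f) : fderiv ℝ (wavg ρ ξ f) = wavg ρ ξ (fderiv ℝ f) :=
  funext fun x => (wavg_hasFDerivAt hρ ξ hf x).fderiv

theorem wavg_contDiff_nat {ρ : ℝ → ℝ} (hρ : Continuous ρ) (ξ : E) (n : ℕ) :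
    ∀ {F : Type} [NormedAddCommGroup F] [NormedSpace ℝ F] {f : E → F},
      ContDiff ℝ n f → ContDiff ℝ n (wavg ρ ξ f) := by
  induction n with
  | zero =>
    intro F _ _ f hf
    rw [Nat.cast_zero, contDiff_zero] at hf ⊢
    exact wavg_continuous hρ ξ hf
  | succ n ih =>
    intro F _ _ f hf
    have h1 : ContDiff ℝ 1 f := hf.of_le (by
      norm_cast
      exact Nat.le_add_left 1 n)
    rw [Nat.cast_succ, contDiff_succ_iff_fderiv] at hf ⊢
    refine ⟨fun x => (wavg_hasFDerivAt hρ ξ h1 x).differentiableAt, ?_, ?_⟩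
    · intro h
      exact absurd h (by simp)
    · rw [fderiv_wavg hρ ξ h1]
      exact ih hf.2.2

theorem wavg_contDiff {ρ : ℝ → ℝ} (hρ : Continuous ρ) (ξ : E) {f : E → F}
    (hf : ContDiff ℝ ∞ f) : ContDiff ℝ ∞ (wavg ρ ξ f) := by
  rw [contDiff_infty] at hf ⊢
  exact fun n => wavg_contDiff_nat hρ ξ n (hf n)

end

end Vale.Agent.P247
end
end

section

section

open MeasureTheory Set Filter Topology
open scoped ContDiff

namespace Vale.Agent.P247

/-- the real vector of an integer vector -/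
def iv (n : Fin 4 → ℤ) : R4 := fun i => (n i : ℝ)

/-- smooth `Z^4`-periodic maps -/
def SP {F : Type} [NormedAddCommGroup F] [NormedSpace ℝ F] (f : R4 → F) : Prop :=
  ContDiff ℝ ∞ f ∧ ∀ (n : Fin 4 → ℤ) (x : R4), f (fun i => x i + n i) = f x

section SP

variable {F G H : Type} [NormedAddCommGroup F] [NormedSpace ℝ F]
  [NormedAddCommGroup G] [NormedSpace ℝ G] [NormedAddCommGroup H] [NormedSpace ℝ H]

theorem SP.contDiff_one {f : R4 → F} (h : SP f) : ContDiff ℝ 1 f :=
  h.1.of_le (by exact_mod_cast le_top)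

theorem SP.continuous {f : R4 → F} (h : SP f) : Continuous f := h.1.continuous

theorem SP.differentiable {f : R4 → F} (h : SP f) : Differentiable ℝ f :=
  h.contDiff_one.differentiable (by norm_num)

theorem SP.per {f : R4 → F} (h : SP f) (n : Fin 4 → ℤ) (x : R4) : f (x + iv n) = f x := h.2 n x

theorem SP.const (c : F) : SP (fun _ : R4 => c) := ⟨contDiff_const, fun _ _ => rfl⟩

theorem SP.add {f g : R4 → F} (hf : SP f) (hg : SP g) : SP (fun x => f x + g x) :=
  ⟨hf.1.add hg.1, fun n x => by simp only [hf.2 n x, hg.2 n x]⟩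

theorem SP.sub {f g : R4 → F} (hf : SP f) (hg : SP g) : SP (fun x => f x - g x) :=
  ⟨hf.1.sub hg.1, fun n x => by simp only [hf.2 n x, hg.2 n x]⟩

theorem SP.neg {f : R4 → F} (hf : SP f) : SP (fun x => -f x) :=
  ⟨hf.1.neg, fun n x => by simp only [hf.2 n x]⟩

theorem SP.const_smul {f : R4 → F} (c : ℝ) (hf : SP f) : SP (fun x => c • f x) :=
  ⟨hf.1.const_smul c, fun n x => by simp only [hf.2 n x]⟩

theorem SP.smul {c : R4 → ℝ} {f : R4 → F} (hc : SP c) (hf : SP f) : SP (fun x => c x • f x) :=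
  ⟨hc.1.smul hf.1, fun n x => by simp only [hc.2 n x, hf.2 n x]⟩

theorem SP.mul {c d : R4 → ℝ} (hc : SP c) (hd : SP d) : SP (fun x => c x * d x) :=
  ⟨hc.1.mul hd.1, fun n x => by simp only [hc.2 n x, hd.2 n x]⟩

theorem SP.sum {ι : Type*} {s : Finset ι} {f : ι → R4 → F} (hf : ∀ i ∈ s, SP (f i)) :
    SP (fun x => ∑ i ∈ s, f i x) :=
  ⟨ContDiff.sum fun i hi => (hf i hi).1, fun n x =>
    Finset.sum_congr rfl fun i hi => (hf i hi).2 n x⟩

theorem SP.clm (L : F →L[ℝ] G) {f : R4 → F} (hf : SP f) : SP (fun x => L (f x)) :=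
  ⟨L.contDiff.comp hf.1, fun n x => by simp only [hf.2 n x]⟩

theorem SP.fderiv {f : R4 → F} (hf : SP f) : SP (fderiv ℝ f) := by
  refine ⟨hf.1.fderiv_right (by norm_cast), fun n x => ?_⟩
  have h : (fun y => f (y + iv n)) = f := funext fun y => hf.2 n y
  calc _root_.fderiv ℝ f (x + iv n)
      = _root_.fderiv ℝ (fun y => f (y + iv n)) x := by
        rw [fderiv_comp_add_right]
    _ = _root_.fderiv ℝ f x := by rw [h]

theorem SP.wavg {ρ : ℝ → ℝ} (hρ : Continuous ρ) (ξ : R4) {f : R4 → F} (hf : SP f) :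
    SP (wavg ρ ξ f) := by
  refine ⟨wavg_contDiff hρ ξ hf.1, fun n x => ?_⟩
  simp only [Vale.Agent.P247.wavg]
  refine intervalIntegral.integral_congr fun s _ => ?_
  have h1 : f ((x + iv n) + s • ξ) = f (x + s • ξ) := by
    have : (x + iv n) + s • ξ = (x + s • ξ) + iv n := by abel
    rw [this]
    exact hf.2 n _
  exact congrArg (fun v => ρ s • v) h1

end SP

section wavg

variable {F G : Type} [NormedAddCommGroup F] [NormedSpace ℝ F]
  [NormedAddCommGroup G] [NormedSpace ℝ G]

/-- the mean of `f` along the segment `[x, x + ξ]` -/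
noncomputable def av (ξ : R4) (f : R4 → F) : R4 → F := wavg (fun _ => 1) ξ f

/-- homotopy operator for `av` -/
noncomputable def hop (ξ : R4) (f : R4 → F) : R4 → F := wavg (fun s => 1 - s) ξ f

theorem av_apply (ξ : R4) (f : R4 → F) (x : R4) :
    av ξ f x = ∫ s in (0 : ℝ)..1, f (x + s • ξ) := by
  simp only [av, wavg, one_smul]

theorem SP.av (ξ : R4) {f : R4 → F} (hf : SP f) : SP (av ξ f) := hf.wavg continuous_const ξ

theorem SP.hop (ξ : R4) {f : R4 → F} (hf : SP f) : SP (hop ξ f) :=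
  hf.wavg (by fun_prop) ξ

theorem wavg_clm [CompleteSpace F] [CompleteSpace G] {ρ : ℝ → ℝ} (hρ : Continuous ρ) (ξ : R4) {f : R4 → F}
    (hf : Continuous f) (L : F →L[ℝ] G) (x : R4) :
    wavg ρ ξ (fun y => L (f y)) x = L (wavg ρ ξ f x) := by
  simp only [wavg]
  rw [← ContinuousLinearMap.intervalIntegral_comp_comm L]
  · simp
  · exact (by fun_prop : Continuous fun s : ℝ => ρ s • f (x + s • ξ)).intervalIntegrable _ _

theorem wavg_add {ρ : ℝ → ℝ} (hρ : Continuous ρ) (ξ : R4) {f g : R4 → F}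
    (hf : Continuous f) (hg : Continuous g) (x : R4) :
    wavg ρ ξ (fun y => f y + g y) x = wavg ρ ξ f x + wavg ρ ξ g x := by
  simp only [wavg, smul_add]
  rw [intervalIntegral.integral_add]
  · exact (by fun_prop : Continuous fun s : ℝ => ρ s • f (x + s • ξ)).intervalIntegrable _ _
  · exact (by fun_prop : Continuous fun s : ℝ => ρ s • g (x + s • ξ)).intervalIntegrable _ _

theorem wavg_sub {ρ : ℝ → ℝ} (hρ : Continuous ρ) (ξ : R4) {f g : R4 → F}
    (hf : Continuous f) (hg : Continuous g) (x : R4) :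
    wavg ρ ξ (fun y => f y - g y) x = wavg ρ ξ f x - wavg ρ ξ g x := by
  simp only [wavg, smul_sub]
  rw [intervalIntegral.integral_sub]
  · exact (by fun_prop : Continuous fun s : ℝ => ρ s • f (x + s • ξ)).intervalIntegrable _ _
  · exact (by fun_prop : Continuous fun s : ℝ => ρ s • g (x + s • ξ)).intervalIntegrable _ _

theorem av_const (ξ : R4) (c : F) (x : R4) [CompleteSpace F] : av ξ (fun _ => c) x = c := by
  simp only [av_apply, intervalIntegral.integral_const, sub_zero, one_smul]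

/-- the homotopy formula -/
theorem hop_fderiv {f : R4 → F} [CompleteSpace F] (hf : ContDiff ℝ 1 f) (ξ x : R4) :
    hop ξ (fun y => fderiv ℝ f y ξ) x = av ξ f x - f x := by
  rw [av_apply]
  simp only [hop, wavg]
  have hc0 : Continuous f := hf.continuous
  have hc : Continuous (fderiv ℝ f) := hf.continuous_fderiv (by norm_num)
  have hd : ∀ s ∈ uIcc (0 : ℝ) 1, HasDerivAt (fun s : ℝ => (1 - s) • f (x + s • ξ))
      ((1 - s) • fderiv ℝ f (x + s • ξ) ξ - f (x + s • ξ)) s := by
    intro s _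
    have h1 : HasFDerivAt f (fderiv ℝ f (x + s • ξ)) (x + s • ξ) :=
      (hf.differentiable (by norm_num) _).hasFDerivAt
    have h2 : HasDerivAt (fun s : ℝ => x + s • ξ) ξ s := by
      simpa only [hasDerivAt_const_add_iff, id_eq, one_smul] using ((hasDerivAt_id s).smul_const ξ).const_add x
    have h3 := h1.comp_hasDerivAt s h2
    have h4 : HasDerivAt (fun s : ℝ => 1 - s) (-1) s := by
      simpa only [id_eq] using (hasDerivAt_id s).const_sub 1
    have h5 := h4.smul h3
    refine h5.congr_deriv ?_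
    simp only [sub_eq_add_neg, Function.comp_apply, neg_smul, one_smul]
  have hi := intervalIntegral.integral_eq_sub_of_hasDerivAt hd
    ((by (clear * - hf hc0; fun_prop) : Continuous fun s : ℝ =>
      (1 - s) • fderiv ℝ f (x + s • ξ) ξ - f (x + s • ξ)).intervalIntegrable _ _)
  rw [intervalIntegral.integral_sub] at hi
  · simp only [sub_self, zero_smul, zero_sub, sub_zero, one_smul, add_zero] at hi
    rw [sub_eq_iff_eq_add] at hi
    rw [hi]
    abel
  · exact (by fun_prop : Continuous fun s : ℝ =>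
      (1 - s) • fderiv ℝ f (x + s • ξ) ξ).intervalIntegrable _ _
  · exact (by fun_prop : Continuous fun s : ℝ => f (x + s • ξ)).intervalIntegrable _ _

/-- invariance of the mean over a closed orbit -/
theorem av_invariant {f : R4 → F} (hf : SP f) (n : Fin 4 → ℤ) (x : R4) (r : ℝ) :
    av (iv n) f (x + r • iv n) = av (iv n) f x := by
  rw [av_apply, av_apply]
  let g : ℝ → F := fun s => f (x + s • iv n)
  have hg : Function.Periodic g 1 := fun s => by
    simp only [g]
    rw [add_smul, one_smul, ← add_assoc, hf.per]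
  have h1 : ∀ s : ℝ, f (x + r • iv n + s • iv n) = g (r + s) := fun s => by
    simp only [g]
    rw [add_smul, add_assoc]
  simp only [h1]
  rw [intervalIntegral.integral_comp_add_left g r]
  have := hg.intervalIntegral_add_eq r 0
  simpa only [add_zero, zero_add] using this

theorem av_invariant_of {f : R4 → F} {η : R4} (h : ∀ x (r : ℝ), f (x + r • η) = f x) (ξ x : R4)
    (r : ℝ) : av ξ f (x + r • η) = av ξ f x := by
  rw [av_apply, av_apply]
  refine intervalIntegral.integral_congr fun s _ => ?_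
  have : x + r • η + s • ξ = (x + s • ξ) + r • η := by abel
  simp only [this, h]

theorem av_pos {f : R4 → ℝ} (hf : Continuous f) (h : ∀ x, 0 < f x) (ξ x : R4) :
    0 < av ξ f x := by
  rw [av_apply]
  exact intervalIntegral.intervalIntegral_pos_of_pos
    ((by fun_prop : Continuous fun s : ℝ => f (x + s • ξ)).intervalIntegrable _ _)
    (fun s => h _) one_pos

theorem fderiv_av {f : R4 → F} (hf : ContDiff ℝ 1 f) (ξ : R4) :
    fderiv ℝ (av ξ f) = av ξ (fderiv ℝ f) := fderiv_wavg continuous_const ξ hf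

theorem fderiv_av_apply {f : R4 → F} [CompleteSpace F] (hf : ContDiff ℝ 1 f) (ξ x v : R4) :
    fderiv ℝ (av ξ f) x v = av ξ (fun y => fderiv ℝ f y v) x := by
  have hc : Continuous (fderiv ℝ f) := hf.continuous_fderiv (by norm_num)
  rw [fderiv_av hf]
  exact (wavg_clm continuous_const ξ hc (ContinuousLinearMap.apply ℝ F v) x).symm

end wavg

section cartan

variable {k : ℕ}

theorem extDeriv_eq_clm (α : R4 → R4 [⋀^Fin k]→L[ℝ] ℝ) (x : R4) :
    extDeriv α x =
      ContinuousAlternatingMap.alternatizeUncurryFinCLM ℝ R4 ℝ (fderiv ℝ α x) := rfl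

/-- Cartan's formula for a constant vector field -/
theorem extDeriv_curryLeft {α : R4 → R4 [⋀^Fin (k + 1)]→L[ℝ] ℝ} {x : R4}
    (hα : DifferentiableAt ℝ α x) (ξ : R4) :
    extDeriv (fun y => (α y).curryLeft ξ) x =
      fderiv ℝ α x ξ - (extDeriv α x).curryLeft ξ := by
  have hL : fderiv ℝ (fun y => (α y).curryLeft ξ) x =
      ((ContinuousLinearMap.apply ℝ (R4 [⋀^Fin k]→L[ℝ] ℝ) ξ).comp
        (ContinuousAlternatingMap.curryLeftLI
          (𝕜 := ℝ) (E := R4) (F := ℝ) (n := k)).toContinuousLinearMap).comp (fderiv ℝ α x) := by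
    have := ((ContinuousLinearMap.apply ℝ (R4 [⋀^Fin k]→L[ℝ] ℝ) ξ).comp
        (ContinuousAlternatingMap.curryLeftLI
          (𝕜 := ℝ) (E := R4) (F := ℝ) (n := k)).toContinuousLinearMap).hasFDerivAt.comp x
          hα.hasFDerivAt
    exact this.fderiv
  ext v
  have h0 : Fin.removeNth (0 : Fin (k + 1 + 1)) (Matrix.vecCons ξ v) = v := by
    funext i
    simp [Fin.removeNth, Matrix.vecCons]
  have h1 : ∀ i : Fin (k + 1), Fin.removeNth i.succ (Matrix.vecCons ξ v) =
      Matrix.vecCons ξ (Fin.removeNth i v) := by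
    intro i
    funext j
    refine Fin.cases ?_ (fun j => ?_) j
    · simp [Fin.removeNth]
    · simp [Fin.removeNth, Matrix.vecCons]
  have hR : extDeriv α x (Matrix.vecCons ξ v) = fderiv ℝ α x ξ v +
      ∑ i : Fin (k + 1), (-1) ^ (i.succ : ℕ) •
        (fderiv ℝ α x (v i)) (Matrix.vecCons ξ (Fin.removeNth i v)) := by
    rw [extDeriv, ContinuousAlternatingMap.alternatizeUncurryFin_apply, Fin.sum_univ_succ, h0]
    congr 1
    · simp
    · refine Finset.sum_congr rfl fun i _ => ?_
      rw [h1 i]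
      rfl
  rw [ContinuousAlternatingMap.sub_apply, ContinuousAlternatingMap.curryLeft_apply_apply, hR,
    extDeriv, ContinuousAlternatingMap.alternatizeUncurryFin_apply, hL,
    sub_add_eq_sub_sub, sub_self, zero_sub, ← Finset.sum_neg_distrib]
  refine Finset.sum_congr rfl fun i _ => ?_
  rw [Fin.val_succ, pow_succ]
  simp only [Int.reduceNeg, ContinuousLinearMap.comp_apply, LinearIsometry.coe_toContinuousLinearMap, ContinuousAlternatingMap.curryLeftLI_apply, ContinuousLinearMap.apply_apply, ContinuousAlternatingMap.curryLeft_apply_apply, zsmul_eq_mul, Int.cast_pow, Int.cast_neg, Int.cast_one, mul_neg, mul_one, neg_smul, neg_neg]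

end cartan

end Vale.Agent.P247
end
end

section

section

open MeasureTheory Set Filter Topology
open scoped ContDiff

namespace Vale.Agent.P247

theorem e_eq_iv (k : Fin 4) : e k = iv (Pi.single k 1) := by
  funext i
  simp [e, iv, Pi.single_apply]

section

variable {F G : Type} [NormedAddCommGroup F] [NormedSpace ℝ F]
  [NormedAddCommGroup G] [NormedSpace ℝ G]

/-- iterated mean over the four coordinate circles, as a function -/
noncomputable def M (f : R4 → F) : R4 → F := av (e 3) (av (e 2) (av (e 1) (av (e 0) f)))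

/-- the mean of a periodic function -/
noncomputable def mean (f : R4 → F) : F := M f 0

theorem av_e_invariant {f : R4 → F} (hf : SP f) (k : Fin 4) (x : R4) (r : ℝ) :
    av (e k) f (x + r • e k) = av (e k) f x := by
  rw [e_eq_iv]
  exact av_invariant hf _ x r

theorem M_invariant {f : R4 → F} (hf : SP f) (k : Fin 4) (x : R4) (r : ℝ) :
    M f (x + r • e k) = M f x := by
  have h0 : ∀ x (r : ℝ), av (e 0) f (x + r • e 0) = av (e 0) f x := av_e_invariant hf 0
  have h1 : ∀ x (r : ℝ), av (e 1) (av (e 0) f) (x + r • e 1) = av (e 1) (av (e 0) f) x :=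
    av_e_invariant (hf.av _) 1
  have h2 : ∀ x (r : ℝ), av (e 2) (av (e 1) (av (e 0) f)) (x + r • e 2) =
      av (e 2) (av (e 1) (av (e 0) f)) x := av_e_invariant ((hf.av _).av _) 2
  fin_cases k
  · exact av_invariant_of (fun x r => av_invariant_of (fun x r =>
      av_invariant_of h0 _ x r) _ x r) _ x r
  · exact av_invariant_of (fun x r => av_invariant_of h1 _ x r) _ x r
  · exact av_invariant_of h2 _ x r
  · exact av_e_invariant (((hf.av _).av _).av _) 3 x r

theorem const_of_invariant {f : R4 → F} (h : ∀ (k : Fin 4) (x : R4) (r : ℝ),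
    f (x + r • e k) = f x) (x : R4) : f x = f 0 := by
  have hx : x = 0 + x 0 • e 0 + x 1 • e 1 + x 2 • e 2 + x 3 • e 3 := by
    funext i
    fin_cases i <;> simp [e]
  rw [hx, h, h, h, h]

theorem M_apply {f : R4 → F} (hf : SP f) (x : R4) : M f x = mean f :=
  const_of_invariant (M_invariant hf) x

theorem mean_const [CompleteSpace F] (c : F) : mean (fun _ : R4 => c) = c := by
  have h : ∀ ξ : R4, av ξ (fun _ : R4 => c) = fun _ => c := fun ξ => funext fun x =>
    av_const ξ c x
  simp only [mean, M, h]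

theorem av_clm [CompleteSpace F] [CompleteSpace G] (ξ : R4) {f : R4 → F} (hf : Continuous f)
    (L : F →L[ℝ] G) : av ξ (fun y => L (f y)) = fun x => L (av ξ f x) :=
  funext fun x => wavg_clm continuous_const ξ hf L x

theorem mean_clm [CompleteSpace F] [CompleteSpace G] {f : R4 → F} (hf : SP f)
    (L : F →L[ℝ] G) : mean (fun y => L (f y)) = L (mean f) := by
  simp only [mean, M]
  rw [av_clm _ hf.continuous, av_clm _ (hf.av _).continuous,
    av_clm _ ((hf.av _).av _).continuous, av_clm _ (((hf.av _).av _).av _).continuous]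

theorem av_add (ξ : R4) {f g : R4 → F} (hf : Continuous f) (hg : Continuous g) :
    av ξ (fun y => f y + g y) = fun x => av ξ f x + av ξ g x :=
  funext fun x => wavg_add continuous_const ξ hf hg x

theorem av_sub (ξ : R4) {f g : R4 → F} (hf : Continuous f) (hg : Continuous g) :
    av ξ (fun y => f y - g y) = fun x => av ξ f x - av ξ g x :=
  funext fun x => wavg_sub continuous_const ξ hf hg x

theorem mean_add {f g : R4 → F} (hf : SP f) (hg : SP g) :
    mean (fun y => f y + g y) = mean f + mean g := by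
  simp only [mean, M]
  rw [av_add _ hf.continuous hg.continuous, av_add _ (hf.av _).continuous (hg.av _).continuous,
    av_add _ ((hf.av _).av _).continuous ((hg.av _).av _).continuous,
    av_add _ (((hf.av _).av _).av _).continuous (((hg.av _).av _).av _).continuous]

theorem mean_sub {f g : R4 → F} (hf : SP f) (hg : SP g) :
    mean (fun y => f y - g y) = mean f - mean g := by
  simp only [mean, M]
  rw [av_sub _ hf.continuous hg.continuous, av_sub _ (hf.av _).continuous (hg.av _).continuous,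
    av_sub _ ((hf.av _).av _).continuous ((hg.av _).av _).continuous,
    av_sub _ (((hf.av _).av _).av _).continuous (((hg.av _).av _).av _).continuous]

theorem mean_smul [CompleteSpace F] {f : R4 → F} (c : ℝ) (hf : SP f) :
    mean (fun y => c • f y) = c • mean f :=
  mean_clm hf (c • ContinuousLinearMap.id ℝ F)

theorem mean_pos {f : R4 → ℝ} (hf : SP f) (h : ∀ x, 0 < f x) : 0 < mean f :=
  av_pos (((hf.av _).av _).av _).continuous (fun x =>
    av_pos ((hf.av _).av _).continuous (fun x =>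
      av_pos (hf.av _).continuous (fun x => av_pos hf.continuous h _ x) _ x) _ x) _ 0

/-- partial derivatives -/
noncomputable def pdv (k : Fin 4) (f : R4 → F) (x : R4) : F := fderiv ℝ f x (e k)

theorem SP.pdv {f : R4 → F} (hf : SP f) (k : Fin 4) : SP (pdv k f) :=
  hf.fderiv.clm (ContinuousLinearMap.apply ℝ F (e k))

theorem SP.pd {f : R4 → ℝ} (hf : SP f) (k : Fin 4) : SP (pd k f) := hf.pdv k

theorem av_pdv [CompleteSpace F] {f : R4 → F} (hf : SP f) (ξ : R4) (k : Fin 4) :
    av ξ (pdv k f) = pdv k (av ξ f) :=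
  funext fun x => (fderiv_av_apply hf.contDiff_one ξ x (e k)).symm

theorem mean_pdv [CompleteSpace F] {f : R4 → F} (hf : SP f) (k : Fin 4) :
    mean (pdv k f) = 0 := by
  simp only [mean, M]
  rw [av_pdv hf, av_pdv (hf.av _), av_pdv ((hf.av _).av _), av_pdv (((hf.av _).av _).av _)]
  have : av (e 3) (av (e 2) (av (e 1) (av (e 0) f))) = fun _ => mean f :=
    funext fun x => M_apply hf x
  rw [this]
  simp [pdv]

theorem mean_pd {f : R4 → ℝ} (hf : SP f) (k : Fin 4) : mean (pd k f) = 0 := mean_pdv hf k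

end

section integral

theorem integral_pd {f : R4 → ℝ} (hf : SP f) (k : Fin 4) :
    ∫ x in Icc (0 : R4) 1, pd k f x = 0 := by
  have h := integral_divergence_of_hasFDerivAt_off_countable' (n := 3) (E := ℝ) (0 : R4) 1
    zero_le_one (fun i x => if i = k then f x else 0)
    (fun i x => if i = k then fderiv ℝ f x else 0) ∅ countable_empty
    (fun i => by
      by_cases h : i = k
      · simpa only [Nat.reduceAdd, h, ↓reduceIte] using hf.continuous.continuousOn
      · simpa only [Nat.reduceAdd, h, ↓reduceIte] using continuousOn_const)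
    (fun x _ i => by
      by_cases h : i = k
      · simpa [h] using (hf.differentiable x).hasFDerivAt
      · simpa [h] using hasFDerivAt_const (0 : ℝ) x)
    (by
      have : (fun x => ∑ i, (if i = k then fderiv ℝ f x else 0) (Pi.single i 1)) =
          pd k f := by
        funext x
        rw [Finset.sum_eq_single k]
        · simp [pd, e]
        · intro b _ hb
          simp [hb]
        · simp only [Finset.mem_univ, not_true_eq_false, ↓reduceIte, IsEmpty.forall_iff]
      rw [this]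
      exact (hf.pd k).continuous.integrableOn_Icc)
  have e1 : ∀ x : R4, ∑ i, (if i = k then fderiv ℝ f x else 0) (Pi.single i 1) = pd k f x := by
    intro x
    rw [Finset.sum_eq_single k]
    · simp [pd, e]
    · intro b _ hb
      simp [hb]
    · simp only [Finset.mem_univ, not_true_eq_false, ↓reduceIte, IsEmpty.forall_iff]
  simp only [e1] at h
  rw [h]
  refine Finset.sum_eq_zero fun i _ => ?_
  by_cases hi : i = k
  · subst hi
    rw [sub_eq_zero]
    refine setIntegral_congr_fun measurableSet_Icc fun y _ => ?_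
    simp only [if_true]
    have : (Fin.insertNth i ((1 : R4) i) y : R4) =
        (Fin.insertNth i ((0 : R4) i) y : R4) + iv (Pi.single i 1) := by
      funext j
      rcases Fin.eq_self_or_eq_succAbove i j with rfl | ⟨m, rfl⟩
      · simp [iv]
      · simp [iv]
    rw [this, hf.per]
  · simp only [Nat.reduceAdd, Pi.zero_comp, Pi.one_comp, hi, ↓reduceIte, integral_zero, sub_self]

theorem integral_sub_av {f : R4 → ℝ} (hf : SP f) (k : Fin 4) :
    ∫ x in Icc (0 : R4) 1, f x = ∫ x in Icc (0 : R4) 1, av (e k) f x := by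
  have h1 : ∀ x, pd k (hop (e k) f) x = av (e k) f x - f x := by
    intro x
    rw [← hop_fderiv hf.contDiff_one (e k) x]
    have hc : Continuous (fderiv ℝ f) := hf.fderiv.continuous
    rw [pd, hop, fderiv_wavg (by fun_prop) _ hf.contDiff_one]
    exact (wavg_clm (by fun_prop) (e k) hc (ContinuousLinearMap.apply ℝ ℝ (e k)) x).symm
  have h2 := integral_pd (hf.hop (e k)) k
  simp only [h1] at h2
  rw [integral_sub (hf.av _).continuous.integrableOn_Icc hf.continuous.integrableOn_Icc,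
    sub_eq_zero] at h2
  exact h2.symm

/-- the integral over the unit cube is the mean -/
theorem integral_eq_mean {f : R4 → ℝ} (hf : SP f) : ∫ x in Icc (0 : R4) 1, f x = mean f := by
  rw [integral_sub_av hf 0, integral_sub_av (hf.av _) 1, integral_sub_av ((hf.av _).av _) 2,
    integral_sub_av (((hf.av _).av _).av _) 3]
  have : ∀ x, av (e 3) (av (e 2) (av (e 1) (av (e 0) f))) x = mean f := M_apply hf
  simp only [this]
  rw [setIntegral_const, Measure.real, Real.volume_Icc_pi]
  simp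

end integral

end Vale.Agent.P247
end
end

section

section

open MeasureTheory Set Filter Topology
open scoped ContDiff

namespace Vale.Agent.P247

theorem two_le_infty : (2 : WithTop ℕ∞) ≤ ∞ := by
  have h : ((2 : ℕ∞) : WithTop ℕ∞) ≤ ((⊤ : ℕ∞) : WithTop ℕ∞) := WithTop.coe_le_coe.2 le_top
  exact h

section

variable {k : ℕ}

/-- closed smooth periodic forms -/
def SPC (α : R4 → R4 [⋀^Fin k]→L[ℝ] ℝ) : Prop := SP α ∧ ∀ x, extDeriv α x = 0

/-- exact forms on the torus -/
def Exact (α : R4 → R4 [⋀^Fin (k + 1)]→L[ℝ] ℝ) : Prop :=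
  ∃ η : R4 → R4 [⋀^Fin k]→L[ℝ] ℝ, SP η ∧ ∀ x, α x = extDeriv η x

theorem extDeriv_fun_sub' {α β : R4 → R4 [⋀^Fin k]→L[ℝ] ℝ} (hα : SP α) (hβ : SP β) (x : R4) :
    extDeriv (fun y => α y - β y) x = extDeriv α x - extDeriv β x := by
  rw [extDeriv_eq_clm, extDeriv_eq_clm, extDeriv_eq_clm,
    fderiv_fun_sub (hα.differentiable x) (hβ.differentiable x), map_sub]

theorem extDeriv_fun_add' {α β : R4 → R4 [⋀^Fin k]→L[ℝ] ℝ} (hα : SP α) (hβ : SP β) (x : R4) :
    extDeriv (fun y => α y + β y) x = extDeriv α x + extDeriv β x := by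
  rw [extDeriv_eq_clm, extDeriv_eq_clm, extDeriv_eq_clm,
    fderiv_fun_add (hα.differentiable x) (hβ.differentiable x), map_add]

theorem extDeriv_fun_smul' {α : R4 → R4 [⋀^Fin k]→L[ℝ] ℝ} (c : ℝ) (hα : SP α) (x : R4) :
    extDeriv (fun y => c • α y) x = c • extDeriv α x := by
  rw [extDeriv_eq_clm, extDeriv_eq_clm, fderiv_fun_const_smul (hα.differentiable x), map_smul]

theorem extDeriv_const' (c : R4 [⋀^Fin k]→L[ℝ] ℝ) (x : R4) :
    extDeriv (fun _ : R4 => c) x = 0 := by
  rw [extDeriv_eq_clm, fderiv_fun_const]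
  exact map_zero _

theorem SPC.const (c : R4 [⋀^Fin k]→L[ℝ] ℝ) : SPC (fun _ : R4 => c) :=
  ⟨SP.const c, extDeriv_const' c⟩

theorem SPC.add {α β : R4 → R4 [⋀^Fin k]→L[ℝ] ℝ} (hα : SPC α) (hβ : SPC β) :
    SPC (fun x => α x + β x) :=
  ⟨hα.1.add hβ.1, fun x => by rw [extDeriv_fun_add' hα.1 hβ.1, hα.2, hβ.2, add_zero]⟩

theorem SPC.sub {α β : R4 → R4 [⋀^Fin k]→L[ℝ] ℝ} (hα : SPC α) (hβ : SPC β) :
    SPC (fun x => α x - β x) :=
  ⟨hα.1.sub hβ.1, fun x => by rw [extDeriv_fun_sub' hα.1 hβ.1, hα.2, hβ.2, sub_zero]⟩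

theorem SPC.smul {α : R4 → R4 [⋀^Fin k]→L[ℝ] ℝ} (c : ℝ) (hα : SPC α) :
    SPC (fun x => c • α x) :=
  ⟨hα.1.const_smul c, fun x => by rw [extDeriv_fun_smul' c hα.1, hα.2, smul_zero]⟩

theorem SPC.sum {ι : Type*} {s : Finset ι} {f : ι → R4 → R4 [⋀^Fin k]→L[ℝ] ℝ}
    (hf : ∀ i ∈ s, SPC (f i)) : SPC (fun x => ∑ i ∈ s, f i x) := by
  classical
  induction s using Finset.induction_on with
  | empty => simpa using SPC.const (0 : R4 [⋀^Fin k]→L[ℝ] ℝ)
  | insert a s ha ih =>
    simp only [Finset.sum_insert ha]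
    exact (hf a (Finset.mem_insert_self a s)).add
      (ih fun i hi => hf i (Finset.mem_insert_of_mem hi))

theorem Exact.zero : Exact (fun _ : R4 => (0 : R4 [⋀^Fin (k + 1)]→L[ℝ] ℝ)) :=
  ⟨fun _ => 0, SP.const 0, fun x => (extDeriv_const' 0 x).symm⟩

theorem Exact.add {α β : R4 → R4 [⋀^Fin (k + 1)]→L[ℝ] ℝ} (hα : Exact α) (hβ : Exact β) :
    Exact (fun x => α x + β x) := by
  obtain ⟨a, ha, ha'⟩ := hα
  obtain ⟨b, hb, hb'⟩ := hβ
  exact ⟨fun x => a x + b x, ha.add hb, fun x => by
    simp only [extDeriv_fun_add' ha hb, ha' x, hb' x]⟩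

theorem Exact.sub {α β : R4 → R4 [⋀^Fin (k + 1)]→L[ℝ] ℝ} (hα : Exact α) (hβ : Exact β) :
    Exact (fun x => α x - β x) := by
  obtain ⟨a, ha, ha'⟩ := hα
  obtain ⟨b, hb, hb'⟩ := hβ
  exact ⟨fun x => a x - b x, ha.sub hb, fun x => by
    simp only [extDeriv_fun_sub' ha hb, ha' x, hb' x]⟩

theorem Exact.smul {α : R4 → R4 [⋀^Fin (k + 1)]→L[ℝ] ℝ} (c : ℝ) (hα : Exact α) :
    Exact (fun x => c • α x) := by
  obtain ⟨a, ha, ha'⟩ := hα
  exact ⟨fun x => c • a x, ha.const_smul c, fun x => by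
    simp only [extDeriv_fun_smul' c ha, ha' x]⟩

theorem Exact.congr {α β : R4 → R4 [⋀^Fin (k + 1)]→L[ℝ] ℝ} (hα : Exact α)
    (h : ∀ x, β x = α x) : Exact β := by
  obtain ⟨a, ha, ha'⟩ := hα
  exact ⟨a, ha, fun x => by rw [h, ha']⟩

theorem Exact.sum {ι : Type*} {s : Finset ι} {f : ι → R4 → R4 [⋀^Fin (k + 1)]→L[ℝ] ℝ}
    (hf : ∀ i ∈ s, Exact (f i)) : Exact (fun x => ∑ i ∈ s, f i x) := by
  classical
  induction s using Finset.induction_on with
  | empty => simpa using Exact.zero (k := k)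
  | insert a s ha ih =>
    simp only [Finset.sum_insert ha]
    exact (hf a (Finset.mem_insert_self a s)).add
      (ih fun i hi => hf i (Finset.mem_insert_of_mem hi))

/-- averaging preserves closed forms -/
theorem SPC.av {α : R4 → R4 [⋀^Fin k]→L[ℝ] ℝ} (hα : SPC α) (ξ : R4) : SPC (av ξ α) := by
  refine ⟨hα.1.av ξ, fun x => ?_⟩
  have hc : Continuous (fderiv ℝ α) := hα.1.fderiv.continuous
  rw [extDeriv_eq_clm, fderiv_av hα.1.contDiff_one]
  have := wavg_clm (F := R4 →L[ℝ] R4 [⋀^Fin k]→L[ℝ] ℝ) (G := R4 [⋀^Fin (k + 1)]→L[ℝ] ℝ)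
    (ρ := fun _ => 1) continuous_const ξ hc
    (ContinuousAlternatingMap.alternatizeUncurryFinCLM ℝ R4 ℝ (n := k)) x
  rw [Vale.Agent.P247.av, ← this]
  have h0 : (fun y => ContinuousAlternatingMap.alternatizeUncurryFinCLM ℝ R4 ℝ
      (fderiv ℝ α y)) = fun _ => 0 := funext fun y => hα.2 y
  rw [h0]
  simp [wavg]

/-- the explicit primitive of `av ξ α - α` -/
noncomputable def prim (ξ : R4) (α : R4 → R4 [⋀^Fin (k + 1)]→L[ℝ] ℝ) :
    R4 → R4 [⋀^Fin k]→L[ℝ] ℝ := hop ξ (fun y => (α y).curryLeft ξ)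

theorem SP.iota {α : R4 → R4 [⋀^Fin (k + 1)]→L[ℝ] ℝ} (hα : SP α) (ξ : R4) :
    SP (fun y => (α y).curryLeft ξ) :=
  hα.clm ((ContinuousLinearMap.apply ℝ (R4 [⋀^Fin k]→L[ℝ] ℝ) ξ).comp
        (ContinuousAlternatingMap.curryLeftLI
          (𝕜 := ℝ) (E := R4) (F := ℝ) (n := k)).toContinuousLinearMap)

theorem SP.prim {α : R4 → R4 [⋀^Fin (k + 1)]→L[ℝ] ℝ} (hα : SP α) (ξ : R4) :
    SP (prim ξ α) := (hα.iota ξ).hop ξ

theorem extDeriv_prim {α : R4 → R4 [⋀^Fin (k + 1)]→L[ℝ] ℝ} (hα : SPC α) (ξ x : R4) :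
    extDeriv (prim ξ α) x = av ξ α x - α x := by
  have hS : SP (fun y => (α y).curryLeft ξ) := hα.1.iota ξ
  rw [extDeriv_eq_clm, prim, hop, fderiv_wavg (by fun_prop) ξ hS.contDiff_one]
  have h1 := wavg_clm (ρ := fun s => 1 - s) (by fun_prop) ξ hS.fderiv.continuous
    (ContinuousAlternatingMap.alternatizeUncurryFinCLM ℝ R4 ℝ (n := k)) x
  rw [← h1]
  rw [← hop_fderiv hα.1.contDiff_one ξ x, hop]
  congr 1
  funext y
  rw [← extDeriv_eq_clm, extDeriv_curryLeft (hα.1.differentiable y), hα.2 y]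
  simp

/-- averaging a closed form along a constant vector field changes it by an exact form -/
theorem av_sub_exact {α : R4 → R4 [⋀^Fin (k + 1)]→L[ℝ] ℝ} (hα : SPC α) (ξ : R4) :
    Exact (fun x => av ξ α x - α x) :=
  ⟨prim ξ α, hα.1.prim ξ, fun x => (extDeriv_prim hα ξ x).symm⟩

/-- the de Rham theorem for the torus: a closed form is its mean plus an exact form -/
theorem sub_mean_exact {α : R4 → R4 [⋀^Fin (k + 1)]→L[ℝ] ℝ} (hα : SPC α) :
    Exact (fun x => α x - mean α) := by
  have h0 := av_sub_exact hα (e 0)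
  have h1 := av_sub_exact (hα.av (e 0)) (e 1)
  have h2 := av_sub_exact ((hα.av (e 0)).av (e 1)) (e 2)
  have h3 := av_sub_exact (((hα.av (e 0)).av (e 1)).av (e 2)) (e 3)
  refine ((((h0.add h1).add h2).add h3).smul (-1)).congr fun x => ?_
  rw [← M_apply hα.1 x, M]
  module

theorem mean_exact {α : R4 → R4 [⋀^Fin (k + 1)]→L[ℝ] ℝ} (hα : Exact α) : mean α = 0 := by
  obtain ⟨η, hη, h⟩ := hα
  have he : α = fun x => ContinuousAlternatingMap.alternatizeUncurryFinCLM ℝ R4 ℝ (n := k)
      (fderiv ℝ η x) := funext fun x => by rw [h, extDeriv_eq_clm]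
  rw [he, mean_clm hη.fderiv]
  have h0 : mean (fderiv ℝ η) = 0 := by
    ext1 v
    have h1 := mean_clm hη.fderiv (ContinuousLinearMap.apply ℝ (R4 [⋀^Fin k]→L[ℝ] ℝ) v)
    simp only [ContinuousLinearMap.apply_apply] at h1
    rw [← h1, vec_eq_sum v]
    have h2 : (fun y => fderiv ℝ η y (∑ i, v i • e i)) =
        fun y => v 0 • pdv 0 η y + v 1 • pdv 1 η y + v 2 • pdv 2 η y + v 3 • pdv 3 η y := by
      funext y
      simp only [Fin.sum_univ_four, Fin.isValue, map_add, map_smul, pdv]
    rw [h2, mean_add ((((hη.pdv 0).const_smul _).add ((hη.pdv 1).const_smul _)).add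
      ((hη.pdv 2).const_smul _)) ((hη.pdv 3).const_smul _),
      mean_add (((hη.pdv 0).const_smul _).add ((hη.pdv 1).const_smul _)) ((hη.pdv 2).const_smul _),
      mean_add ((hη.pdv 0).const_smul _) ((hη.pdv 1).const_smul _),
      mean_smul _ (hη.pdv 0), mean_smul _ (hη.pdv 1), mean_smul _ (hη.pdv 2), mean_smul _ (hη.pdv 3),
      mean_pdv hη, mean_pdv hη, mean_pdv hη, mean_pdv hη]
    simp
  rw [h0, map_zero]

theorem exact_closed {α : R4 → R4 [⋀^Fin (k + 1)]→L[ℝ] ℝ} (hα : Exact α) : SPC α := by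
  obtain ⟨η, hη, h⟩ := hα
  have he : α = extDeriv η := funext h
  constructor
  · have : α = fun x => ContinuousAlternatingMap.alternatizeUncurryFinCLM ℝ R4 ℝ (n := k)
      (fderiv ℝ η x) := funext fun x => by rw [h, extDeriv_eq_clm]
    rw [this]
    exact hη.fderiv.clm _
  · intro x
    rw [he, extDeriv_extDeriv hη.1 (by
      simp only [minSmoothness_of_isRCLikeNormedField]
      exact two_le_infty)]
    rfl

end

/-- values of a 1-form-valued derivative -/
theorem extDeriv_one_apply (η : R4 → Form1) (x u v : R4) :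
    extDeriv η x ![u, v] = fderiv ℝ η x u ![v] - fderiv ℝ η x v ![u] := by
  rw [extDeriv, ContinuousAlternatingMap.alternatizeUncurryFin_apply, Fin.sum_univ_two]
  have h0 : Fin.removeNth (0 : Fin 2) ![u, v] = ![v] := by
    funext i; fin_cases i; rfl
  have h1 : Fin.removeNth (1 : Fin 2) ![u, v] = ![u] := by
    funext i; fin_cases i; rfl
  rw [h0, h1]
  simp [sub_eq_add_neg]

theorem extDeriv_two_apply (β : R4 → Form2) (x u v w : R4) :
    extDeriv β x ![u, v, w] =
      fderiv ℝ β x u ![v, w] - fderiv ℝ β x v ![u, w] + fderiv ℝ β x w ![u, v] := by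
  rw [extDeriv, ContinuousAlternatingMap.alternatizeUncurryFin_apply, Fin.sum_univ_three]
  have h0 : Fin.removeNth (0 : Fin 3) ![u, v, w] = ![v, w] := by
    funext i; fin_cases i <;> rfl
  have h1 : Fin.removeNth (1 : Fin 3) ![u, v, w] = ![u, w] := by
    funext i; fin_cases i <;> rfl
  have h2 : Fin.removeNth (2 : Fin 3) ![u, v, w] = ![u, v] := by
    funext i; fin_cases i <;> rfl
  rw [h0, h1, h2]
  simp only [Int.reduceNeg, Nat.reduceAdd, Fin.isValue, Fin.coe_ofNat_eq_mod, Nat.zero_mod, pow_zero, Matrix.cons_val_zero, Nat.succ_eq_add_one, one_smul, Nat.one_mod, pow_one, Matrix.cons_val_one, neg_smul, Nat.mod_succ, even_two, Even.neg_pow, one_pow, Matrix.cons_val, sub_eq_add_neg]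

/-- evaluation of `k`-covectors at fixed vectors, as a continuous linear map -/
noncomputable def evalL {k : ℕ} (v : Fin k → R4) : (R4 [⋀^Fin k]→L[ℝ] ℝ) →L[ℝ] ℝ :=
  ContinuousAlternatingMap.apply ℝ R4 ℝ v

theorem fderiv_eval {k : ℕ} {α : R4 → R4 [⋀^Fin k]→L[ℝ] ℝ} (hα : SP α) (v : Fin k → R4)
    (x u : R4) : fderiv ℝ (fun y => α y v) x u = fderiv ℝ α x u v := by
  have := ((evalL v).hasFDerivAt.comp x (hα.differentiable x).hasFDerivAt).fderiv
  have h2 : (evalL v ∘ α) = fun y => α y v := rfl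
  rw [h2] at this
  rw [this]
  rfl

theorem SP.eval {k : ℕ} {α : R4 → R4 [⋀^Fin k]→L[ℝ] ℝ} (hα : SP α) (v : Fin k → R4) :
    SP (fun x => α x v) := hα.clm (evalL v)

theorem SP.comp2 {α : R4 → Form2} (hα : SP α) (i j : Fin 4) : SP (fun x => comp (α x) i j) :=
  hα.eval _

theorem SP.wedge {α β : R4 → Form2} (hα : SP α) (hβ : SP β) :
    SP (fun x => wedge (α x) (β x)) := by
  simp only [wedge_def]
  exact ((((((hα.comp2 0 1).mul (hβ.comp2 2 3)).sub ((hα.comp2 0 2).mul (hβ.comp2 1 3))).add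
    ((hα.comp2 0 3).mul (hβ.comp2 1 2))).add ((hα.comp2 1 2).mul (hβ.comp2 0 3))).sub
    ((hα.comp2 1 3).mul (hβ.comp2 0 2))).add ((hα.comp2 2 3).mul (hβ.comp2 0 1))

theorem pd_mul {f g : R4 → ℝ} (hf : SP f) (hg : SP g) (k : Fin 4) (x : R4) :
    pd k (fun y => f y * g y) x = pd k f x * g x + f x * pd k g x := by
  simp only [pd]
  rw [fderiv_fun_mul (hf.differentiable x) (hg.differentiable x)]
  simp
  ring

theorem pd_add {f g : R4 → ℝ} (hf : SP f) (hg : SP g) (k : Fin 4) (x : R4) :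
    pd k (fun y => f y + g y) x = pd k f x + pd k g x := by
  simp only [pd]
  rw [fderiv_fun_add (hf.differentiable x) (hg.differentiable x)]
  simp

theorem pd_sub {f g : R4 → ℝ} (hf : SP f) (hg : SP g) (k : Fin 4) (x : R4) :
    pd k (fun y => f y - g y) x = pd k f x - pd k g x := by
  simp only [pd]
  rw [fderiv_fun_sub (hf.differentiable x) (hg.differentiable x)]
  simp

theorem comp_extDeriv {η : R4 → Form1} (hη : SP η) (x : R4) (i j : Fin 4) :
    comp (extDeriv η x) i j = pd i (fun y => η y ![e j]) x - pd j (fun y => η y ![e i]) x := by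
  rw [comp]
  have := extDeriv_one_apply η x (e i) (e j)
  rw [this]
  simp only [pd]
  rw [fderiv_eval hη, fderiv_eval hη]

theorem closed_comp {β : R4 → Form2} (hβ : SPC β) (x : R4) (i j k : Fin 4) :
    pd i (fun y => comp (β y) j k) x - pd j (fun y => comp (β y) i k) x
      + pd k (fun y => comp (β y) i j) x = 0 := by
  have h := congrArg (fun (γ : R4 [⋀^Fin 3]→L[ℝ] ℝ) => γ ![e i, e j, e k]) (hβ.2 x)
  simp only [extDeriv_two_apply] at h
  simp only [pd, comp]
  rw [fderiv_eval hβ.1, fderiv_eval hβ.1, fderiv_eval hβ.1]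
  exact h

/-- Stokes: the wedge product of an exact and a closed form has mean zero -/
theorem mean_wedge_exact {α β : R4 → Form2} (hα : Exact α) (hβ : SPC β) :
    mean (fun x => wedge (α x) (β x)) = 0 := by
  obtain ⟨η, hη, h⟩ := hα
  set a : Fin 4 → R4 → ℝ := fun i x => η x ![e i] with ha
  set b : Fin 4 → Fin 4 → R4 → ℝ := fun i j x => comp (β x) i j with hb
  have sa : ∀ i, SP (a i) := fun i => hη.eval _
  have sb : ∀ i j, SP (b i j) := fun i j => hβ.1.comp2 i j
  have hcl : ∀ i j k x, pd i (b j k) x - pd j (b i k) x + pd k (b i j) x = 0 :=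
    fun i j k x => closed_comp hβ x i j k
  set F0 : R4 → ℝ := fun x => a 1 x * b 2 3 x - a 2 x * b 1 3 x + a 3 x * b 1 2 x with hF0
  set F1 : R4 → ℝ := fun x => a 0 x * b 2 3 x - a 2 x * b 0 3 x + a 3 x * b 0 2 x with hF1
  set F2 : R4 → ℝ := fun x => a 0 x * b 1 3 x - a 1 x * b 0 3 x + a 3 x * b 0 1 x with hF2
  set F3 : R4 → ℝ := fun x => a 0 x * b 1 2 x - a 1 x * b 0 2 x + a 2 x * b 0 1 x with hF3
  have s0 : SP F0 := (((sa 1).mul (sb 2 3)).sub ((sa 2).mul (sb 1 3))).add ((sa 3).mul (sb 1 2))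
  have s1 : SP F1 := (((sa 0).mul (sb 2 3)).sub ((sa 2).mul (sb 0 3))).add ((sa 3).mul (sb 0 2))
  have s2 : SP F2 := (((sa 0).mul (sb 1 3)).sub ((sa 1).mul (sb 0 3))).add ((sa 3).mul (sb 0 1))
  have s3 : SP F3 := (((sa 0).mul (sb 1 2)).sub ((sa 1).mul (sb 0 2))).add ((sa 2).mul (sb 0 1))
  have expand : ∀ (i j l : Fin 4) (p q r s t u : Fin 4) (k : Fin 4) (x : R4),
      pd k (fun x => a i x * b p q x - a j x * b r s x + a l x * b t u x) x =
        pd k (a i) x * b p q x + a i x * pd k (b p q) x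
        - (pd k (a j) x * b r s x + a j x * pd k (b r s) x)
        + (pd k (a l) x * b t u x + a l x * pd k (b t u) x) := by
    intro i j l p q r s t u k x
    rw [pd_add (((sa i).mul (sb p q)).sub ((sa j).mul (sb r s))) ((sa l).mul (sb t u)),
      pd_sub ((sa i).mul (sb p q)) ((sa j).mul (sb r s)), pd_mul (sa i) (sb p q),
      pd_mul (sa j) (sb r s), pd_mul (sa l) (sb t u)]
  have key : (fun x => wedge (α x) (β x)) =
      fun x => ((pd 0 F0 x - pd 1 F1 x) + pd 2 F2 x) - pd 3 F3 x := by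
    funext x
    rw [hF0, hF1, hF2, hF3, expand, expand, expand, expand]
    simp only [wedge_def, h, comp_extDeriv hη]
    change (pd 0 (a 1) x - pd 1 (a 0) x) * b 2 3 x - (pd 0 (a 2) x - pd 2 (a 0) x) * b 1 3 x
      + (pd 0 (a 3) x - pd 3 (a 0) x) * b 1 2 x + (pd 1 (a 2) x - pd 2 (a 1) x) * b 0 3 x
      - (pd 1 (a 3) x - pd 3 (a 1) x) * b 0 2 x + (pd 2 (a 3) x - pd 3 (a 2) x) * b 0 1 x = _
    linear_combination (-a 0 x) * hcl 1 2 3 x * (-1) - (a 1 x) * hcl 0 2 3 x
      + (a 2 x) * hcl 0 1 3 x - (a 3 x) * hcl 0 1 2 x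
  rw [key, mean_sub (((s0.pd 0).sub (s1.pd 1)).add (s2.pd 2)) (s3.pd 3),
    mean_add ((s0.pd 0).sub (s1.pd 1)) (s2.pd 2), mean_sub (s0.pd 0) (s1.pd 1),
    mean_pd s0, mean_pd s1, mean_pd s2, mean_pd s3]
  simp

/-- the cup product on `H^2(T^4)` in terms of means -/
theorem mean_wedge {α β : R4 → Form2} (hα : SPC α) (hβ : SPC β) :
    mean (fun x => wedge (α x) (β x)) = wedge (mean α) (mean β) := by
  have ca := sub_mean_exact hα
  have cb := sub_mean_exact hβ
  have hb0 : SPC (fun _ : R4 => mean β) := SPC.const _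
  have ha0 : SPC (fun _ : R4 => mean α) := SPC.const _
  have he : (fun x => wedge (α x) (β x)) = fun x =>
      (wedge (α x - mean α) (β x) + wedge (β x - mean β) (mean α)) +
        wedge (mean α) (mean β) := by
    funext x
    rw [wedge_sub_left, wedge_sub_left, wedge_comm (β x) (mean α), wedge_comm (mean β) (mean α)]
    ring
  rw [he, mean_add (((exact_closed ca).1.wedge hβ.1).add ((exact_closed cb).1.wedge ha0.1))
    (SP.const _), mean_add ((exact_closed ca).1.wedge hβ.1) ((exact_closed cb).1.wedge ha0.1),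
    mean_wedge_exact ca hβ, mean_wedge_exact cb ha0, mean_const]
  simp

end Vale.Agent.P247
end
end

section

section

open MeasureTheory Set Filter Topology
open scoped ContDiff

namespace Vale.Agent.P247

/-- the coordinate 1-covector `dx_i` -/
noncomputable def dx1 (i : Fin 4) : Form1 :=
  ContinuousAlternatingMap.ofSubsingleton ℝ R4 ℝ 0 (ContinuousLinearMap.proj i)

theorem dx1_apply (i : Fin 4) (v : R4) : dx1 i ![v] = v i := rfl

theorem dx1_e (i j : Fin 4) : dx1 i ![e j] = if i = j then 1 else 0 := by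
  rw [dx1_apply, e, Pi.single_apply]

/-- the coordinate 2-covector `dx_i ∧ dx_j` -/
noncomputable def dx2 (i j : Fin 4) : Form2 :=
  ContinuousAlternatingMap.alternatizeUncurryFin
    ((ContinuousLinearMap.proj i : R4 →L[ℝ] ℝ).smulRight (dx1 j))

theorem dx2_apply (i j : Fin 4) (u v : R4) : dx2 i j ![u, v] = u i * v j - v i * u j := by
  rw [dx2, ContinuousAlternatingMap.alternatizeUncurryFin_apply, Fin.sum_univ_two]
  have h0 : Fin.removeNth (0 : Fin 2) ![u, v] = ![v] := by
    funext i; fin_cases i; rfl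
  have h1 : Fin.removeNth (1 : Fin 2) ![u, v] = ![u] := by
    funext i; fin_cases i; rfl
  rw [h0, h1]
  simp only [Int.reduceNeg, Nat.reduceAdd, Fin.isValue, Fin.coe_ofNat_eq_mod, Nat.zero_mod, pow_zero, Matrix.cons_val_zero, ContinuousLinearMap.smulRight_apply, ContinuousLinearMap.proj_apply, ContinuousAlternatingMap.coe_smul, Pi.smul_apply, dx1_apply, smul_eq_mul, one_smul, Nat.mod_succ, pow_one, Matrix.cons_val_one, Matrix.cons_val_fin_one, neg_smul, sub_eq_add_neg]

theorem comp_dx2 (i j k l : Fin 4) : comp (dx2 i j) k l =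
    (if k = i then 1 else 0) * (if l = j then 1 else 0)
      - (if l = i then 1 else 0) * (if k = j then 1 else 0) := by
  rw [comp, dx2_apply]
  simp only [e, Pi.single_apply, eq_comm]

theorem form1_apply (α : Form1) (u : R4) : α ![u] = ∑ i, u i * α ![e i] := by
  have : α ![u] = (α.curryLeft u) ![] := rfl
  rw [this]
  conv_lhs => rw [vec_eq_sum u]
  rw [map_sum, ContinuousAlternatingMap.sum_apply]
  refine Finset.sum_congr rfl fun i _ => ?_
  rw [map_smul]
  rfl

theorem form1_ext {α β : Form1} (h : ∀ i, α ![e i] = β ![e i]) : α = β := by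
  ext v
  have hv : v = ![v 0] := by
    funext i
    fin_cases i; rfl
  rw [hv, form1_apply, form1_apply]
  simp only [h]

theorem coord_eq_comp (α : Form2) : coord α =
    ![comp α 0 1, comp α 0 2, comp α 0 3, comp α 1 2, comp α 1 3, comp α 2 3] := rfl

theorem coord_inj {α β : Form2} (h : coord α = coord β) : α = β := by
  have h0 := congrFun h 0
  have h1 := congrFun h 1
  have h2 := congrFun h 2
  have h3 := congrFun h 3
  have h4 := congrFun h 4
  have h5 := congrFun h 5
  simp only [coord_eq_comp] at h0 h1 h2 h3 h4 h5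
  change comp α 0 1 = comp β 0 1 at h0
  change comp α 0 2 = comp β 0 2 at h1
  change comp α 0 3 = comp β 0 3 at h2
  change comp α 1 2 = comp β 1 2 at h3
  change comp α 1 3 = comp β 1 3 at h4
  change comp α 2 3 = comp β 2 3 at h5
  refine form2_ext fun i j => ?_
  fin_cases i <;> fin_cases j <;>
    simp [h0, h1, h2, h3, h4, h5, comp_swap α 0 1, comp_swap α 0 2, comp_swap α 0 3,
      comp_swap α 1 2, comp_swap α 1 3, comp_swap α 2 3, comp_swap β 0 1, comp_swap β 0 2,
      comp_swap β 0 3, comp_swap β 1 2, comp_swap β 1 3, comp_swap β 2 3]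

/-- the 2-covector with given coordinates -/
noncomputable def ofCoord : V6 →L[ℝ] Form2 :=
  (ContinuousLinearMap.proj 0 : V6 →L[ℝ] ℝ).smulRight (dx2 0 1)
  + (ContinuousLinearMap.proj 1 : V6 →L[ℝ] ℝ).smulRight (dx2 0 2)
  + (ContinuousLinearMap.proj 2 : V6 →L[ℝ] ℝ).smulRight (dx2 0 3)
  + (ContinuousLinearMap.proj 3 : V6 →L[ℝ] ℝ).smulRight (dx2 1 2)
  + (ContinuousLinearMap.proj 4 : V6 →L[ℝ] ℝ).smulRight (dx2 1 3)
  + (ContinuousLinearMap.proj 5 : V6 →L[ℝ] ℝ).smulRight (dx2 2 3)

theorem ofCoord_apply (v : V6) : ofCoord v = v 0 • dx2 0 1 + v 1 • dx2 0 2 + v 2 • dx2 0 3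
    + v 3 • dx2 1 2 + v 4 • dx2 1 3 + v 5 • dx2 2 3 := rfl

@[simp] theorem coord_ofCoord (v : V6) : coord (ofCoord v) = v := by
  rw [coord_eq_comp, ofCoord_apply]
  funext k
  fin_cases k <;> simp [comp_dx2]

@[simp] theorem ofCoord_coord (α : Form2) : ofCoord (coord α) = α :=
  coord_inj (coord_ofCoord _)

/-- coordinates as a continuous linear map -/
noncomputable def coordL : Form2 →L[ℝ] V6 :=
  ContinuousLinearMap.pi ![evalL ![e 0, e 1], evalL ![e 0, e 2], evalL ![e 0, e 3],
    evalL ![e 1, e 2], evalL ![e 1, e 3], evalL ![e 2, e 3]]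

theorem coordL_apply (α : Form2) : coordL α = coord α := by
  funext k
  fin_cases k <;> rfl

theorem coord_add (α β : Form2) : coord (α + β) = coord α + coord β := by
  simp only [← coordL_apply, map_add]

theorem coord_sub (α β : Form2) : coord (α - β) = coord α - coord β := by
  simp only [← coordL_apply, map_sub]

theorem coord_smul (c : ℝ) (α : Form2) : coord (c • α) = c • coord α := by
  simp only [← coordL_apply, map_smul]

theorem SP.coord {w : Form 2} (hw : SP w) : SP (fun x => coord (w x)) := by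
  simpa only [coordL_apply] using hw.clm coordL

theorem SP.ofCoord {f : R4 → V6} (hf : SP f) : SP (fun x => ofCoord (f x)) :=
  hf.clm Vale.Agent.P247.ofCoord

theorem SP.proj {f : R4 → V6} (hf : SP f) (k : Fin 6) : SP (fun x => f x k) :=
  hf.clm (ContinuousLinearMap.proj k : V6 →L[ℝ] ℝ)

theorem SP.ofCoord' {f : Fin 6 → R4 → ℝ} (hf : ∀ k, SP (f k)) :
    SP (fun x => ((fun k => f k x : V6))) :=
  ⟨contDiff_pi.2 fun k => (hf k).1, fun n x => funext fun k => (hf k).2 n x⟩

/-- the 1-form with given coefficients -/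
noncomputable def mk1 (f : Fin 4 → R4 → ℝ) : Form 1 := fun x =>
  f 0 x • dx1 0 + f 1 x • dx1 1 + f 2 x • dx1 2 + f 3 x • dx1 3

theorem mk1_e (f : Fin 4 → R4 → ℝ) (x : R4) (i : Fin 4) : mk1 f x ![e i] = f i x := by
  simp only [mk1, ContinuousAlternatingMap.add_apply, ContinuousAlternatingMap.smul_apply,
    dx1_e]
  fin_cases i <;> simp

theorem SP.mk1 {f : Fin 4 → R4 → ℝ} (hf : ∀ i, SP (f i)) : SP (mk1 f) :=
  ((((hf 0).smul (SP.const _)).add ((hf 1).smul (SP.const _))).add
    ((hf 2).smul (SP.const _))).add ((hf 3).smul (SP.const _))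

theorem comp_extDeriv_mk1 {f : Fin 4 → R4 → ℝ} (hf : ∀ i, SP (f i)) (x : R4) (i j : Fin 4) :
    comp (extDeriv (mk1 f) x) i j = pd i (f j) x - pd j (f i) x := by
  rw [comp_extDeriv (SP.mk1 hf)]
  simp only [mk1_e]

theorem form1_eq_mk1 (a : Form 1) : a = mk1 (fun i x => a x ![e i]) := by
  funext x
  exact form1_ext fun i => (mk1_e (fun i x => a x ![e i]) x i).symm

/-- the coordinates of `da` -/
noncomputable def dcoord (f : Fin 4 → R4 → ℝ) (x : R4) : V6 :=
  ![pd 0 (f 1) x - pd 1 (f 0) x, pd 0 (f 2) x - pd 2 (f 0) x, pd 0 (f 3) x - pd 3 (f 0) x,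
    pd 1 (f 2) x - pd 2 (f 1) x, pd 1 (f 3) x - pd 3 (f 1) x, pd 2 (f 3) x - pd 3 (f 2) x]

theorem coord_extDeriv_mk1 {f : Fin 4 → R4 → ℝ} (hf : ∀ i, SP (f i)) (x : R4) :
    coord (extDeriv (mk1 f) x) = dcoord f x := by
  rw [coord_eq_comp]
  simp only [comp_extDeriv_mk1 hf]
  rfl

end Vale.Agent.P247
end
end

section

section

open MeasureTheory Set Filter Topology
open scoped ContDiff

namespace Vale.Agent.P247

section

variable {F : Type} [NormedAddCommGroup F] [NormedSpace ℝ F]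

theorem hop_invariant_of {f : R4 → F} {η : R4} (h : ∀ x (r : ℝ), f (x + r • η) = f x)
    (ξ x : R4) (r : ℝ) : hop ξ f (x + r • η) = hop ξ f x := by
  simp only [hop, wavg]
  refine intervalIntegral.integral_congr fun s _ => ?_
  have : x + r • η + s • ξ = (x + s • ξ) + r • η := by abel
  simp only [this, h]

end

/-- a function depends only on the first two coordinates -/
def Basic {F : Type*} (f : R4 → F) : Prop :=
  ∀ (x : R4) (r : ℝ), f (x + r • e 2) = f x ∧ f (x + r • e 3) = f x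

theorem Basic.pd_two {f : R4 → ℝ} (hf : SP f) (hb : Basic f) (x : R4) : pd 2 f x = 0 := by
  have h1 : HasDerivAt (fun s : ℝ => f (x + s • e 2)) (fderiv ℝ f x (e 2)) 0 := by
    have h1 : HasFDerivAt f (fderiv ℝ f (x + (0 : ℝ) • e 2)) (x + (0 : ℝ) • e 2) :=
      (hf.differentiable _).hasFDerivAt
    have h2 : HasDerivAt (fun s : ℝ => x + s • e 2) (e 2) 0 := by
      simpa using ((hasDerivAt_id (0 : ℝ)).smul_const (e 2)).const_add x
    have h3 := h1.comp_hasDerivAt 0 h2
    simpa only [Fin.isValue, Function.comp_def, zero_smul, add_zero] using h3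
  have h2 : (fun s : ℝ => f (x + s • e 2)) = fun _ => f x := funext fun s => (hb x s).1
  rw [h2] at h1
  exact (h1.unique (hasDerivAt_const 0 (f x)))

theorem Basic.pd_three {f : R4 → ℝ} (hf : SP f) (hb : Basic f) (x : R4) : pd 3 f x = 0 := by
  have h1 : HasDerivAt (fun s : ℝ => f (x + s • e 3)) (fderiv ℝ f x (e 3)) 0 := by
    have h1 : HasFDerivAt f (fderiv ℝ f (x + (0 : ℝ) • e 3)) (x + (0 : ℝ) • e 3) :=
      (hf.differentiable _).hasFDerivAt
    have h2 : HasDerivAt (fun s : ℝ => x + s • e 3) (e 3) 0 := by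
      simpa using ((hasDerivAt_id (0 : ℝ)).smul_const (e 3)).const_add x
    have h3 := h1.comp_hasDerivAt 0 h2
    simpa [Function.comp_def] using h3
  have h2 : (fun s : ℝ => f (x + s • e 3)) = fun _ => f x := funext fun s => (hb x s).2
  rw [h2] at h1
  exact (h1.unique (hasDerivAt_const 0 (f x)))

theorem prim_eval {k : ℕ} {α : R4 → R4 [⋀^Fin (k + 1)]→L[ℝ] ℝ} (hα : SP α) (ξ : R4)
    (v : Fin k → R4) (x : R4) :
    prim ξ α x v = hop ξ (fun y => α y (Matrix.vecCons ξ v)) x := by
  rw [prim, hop, hop]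
  have := wavg_clm (ρ := fun s => 1 - s) (by fun_prop) ξ (hα.iota ξ).continuous (evalL v) x
  exact this.symm

theorem av_eval {k : ℕ} {α : R4 → R4 [⋀^Fin k]→L[ℝ] ℝ} (hα : SP α) (ξ : R4)
    (v : Fin k → R4) (x : R4) : av ξ α x v = av ξ (fun y => α y v) x := by
  have := wavg_clm (ρ := fun _ => 1) continuous_const ξ hα.continuous (evalL v) x
  exact this.symm

theorem hop_zero (ξ x : R4) : hop ξ (fun _ => (0 : ℝ)) x = 0 := by simp [hop, wavg]

/-- refined torus de Rham theorem for forms vanishing on the fibres of `(x₀, x₁)` -/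
theorem sub_mean_exact_V {w : Form 2} (hw : SPC w) (hV : ∀ x, comp (w x) 2 3 = 0) :
    ∃ a : Form 1, SP a ∧ (∀ x, w x - mean w = extDeriv a x) ∧
      Basic (fun x => a x ![e 2]) ∧ Basic (fun x => a x ![e 3]) := by
  set W3 := av (e 3) w with hW3
  set W2 := av (e 2) W3 with hW2
  set W1 := av (e 1) W2 with hW1
  set W0 := av (e 0) W1 with hW0
  have c3 : SPC W3 := hw.av _
  have c2 : SPC W2 := c3.av _
  have c1 : SPC W1 := c2.av _
  have c0 : SPC W0 := c1.av _
  have i33 : ∀ x (r : ℝ), W3 (x + r • e 3) = W3 x := av_e_invariant hw.1 3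
  have i23 : ∀ x (r : ℝ), W2 (x + r • e 3) = W2 x := fun x r => av_invariant_of i33 _ x r
  have i22 : ∀ x (r : ℝ), W2 (x + r • e 2) = W2 x := av_e_invariant c3.1 2
  have i13 : ∀ x (r : ℝ), W1 (x + r • e 3) = W1 x := fun x r => av_invariant_of i23 _ x r
  have i12 : ∀ x (r : ℝ), W1 (x + r • e 2) = W1 x := fun x r => av_invariant_of i22 _ x r
  have i11 : ∀ x (r : ℝ), W1 (x + r • e 1) = W1 x := av_e_invariant c2.1 1
  have i0 : ∀ (k : Fin 4) x (r : ℝ), W0 (x + r • e k) = W0 x := by
    intro k x r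
    fin_cases k
    · exact av_e_invariant c1.1 0 x r
    · exact av_invariant_of i11 _ x r
    · exact av_invariant_of i12 _ x r
    · exact av_invariant_of i13 _ x r
  have hconst : ∀ x, W0 x = W0 0 := const_of_invariant i0
  -- the primitive
  set a : Form 1 := fun x => -(((prim (e 3) w x + prim (e 2) W3 x) + prim (e 1) W2 x)
    + prim (e 0) W1 x) with ha
  have sa : SP a := ((((hw.1.prim _).add (c3.1.prim _)).add (c2.1.prim _)).add
    (c1.1.prim _)).neg
  have hda : ∀ x, w x - W0 0 = extDeriv a x := by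
    intro x
    have h : a = fun x => (-1 : ℝ) • (((prim (e 3) w x + prim (e 2) W3 x) + prim (e 1) W2 x)
      + prim (e 0) W1 x) := funext fun x => (neg_one_smul ℝ _).symm
    rw [h, extDeriv_fun_smul' (-1) ((((hw.1.prim _).add (c3.1.prim _)).add
      (c2.1.prim _)).add (c1.1.prim _)),
      extDeriv_fun_add' (((hw.1.prim _).add (c3.1.prim _)).add (c2.1.prim _)) (c1.1.prim _),
      extDeriv_fun_add' ((hw.1.prim _).add (c3.1.prim _)) (c2.1.prim _),
      extDeriv_fun_add' (hw.1.prim _) (c3.1.prim _),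
      extDeriv_prim hw, extDeriv_prim c3, extDeriv_prim c2, extDeriv_prim c1,
      ← hconst x]
    module
  have hmean : W0 0 = mean w := by
    have h1 : Exact (fun x => w x - W0 0) := ⟨a, sa, hda⟩
    have h2 := mean_exact h1
    rw [mean_sub hw.1 (SP.const _), mean_const, sub_eq_zero] at h2
    exact h2.symm
  have z23 : ∀ x, w x ![e 2, e 3] = 0 := hV
  have z32 : ∀ x, w x ![e 3, e 2] = 0 := fun x => by rw [apply_swap, z23, neg_zero]
  have W3z : ∀ x, W3 x ![e 2, e 3] = 0 := fun x => by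
    rw [hW3, av_eval hw.1]
    simp only [z23]
    exact av_const _ 0 x
  have p3 : ∀ b : Fin 4, (b = 2 ∨ b = 3) → ∀ x, prim (e 3) w x ![e b] = 0 := by
    intro b hb x
    rw [prim_eval hw.1]
    have : (fun y => w y (Matrix.vecCons (e 3) ![e b])) = fun _ => 0 := by
      funext y
      rcases hb with rfl | rfl
      · exact z32 y
      · exact apply_self _ _
    rw [this, hop_zero]
  have p2 : ∀ b : Fin 4, (b = 2 ∨ b = 3) → ∀ x, prim (e 2) W3 x ![e b] = 0 := by
    intro b hb x
    rw [prim_eval c3.1]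
    have : (fun y => W3 y (Matrix.vecCons (e 2) ![e b])) = fun _ => 0 := by
      funext y
      rcases hb with rfl | rfl
      · exact apply_self _ _
      · exact W3z y
    rw [this, hop_zero]
  have hbasic : ∀ b : Fin 4, (b = 2 ∨ b = 3) → Basic (fun x => a x ![e b]) := by
    intro b hb x r
    have hx : ∀ x, a x ![e b] = -(prim (e 1) W2 x ![e b] + prim (e 0) W1 x ![e b]) := by
      intro x
      simp only [ha, ContinuousAlternatingMap.neg_apply, ContinuousAlternatingMap.add_apply,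
        p3 b hb x, p2 b hb x, zero_add]
    simp only [hx]
    rw [prim, prim]
    constructor
    · rw [hop_invariant_of (fun x r => by rw [i22 x r]) _ x r,
        hop_invariant_of (fun x r => by rw [i12 x r]) _ x r]
    · rw [hop_invariant_of (fun x r => by rw [i23 x r]) _ x r,
        hop_invariant_of (fun x r => by rw [i13 x r]) _ x r]
  refine ⟨a, sa, fun x => ?_, hbasic 2 (Or.inl rfl), hbasic 3 (Or.inr rfl)⟩
  rw [← hmean, hda]

/-- a smooth periodic function has a critical point -/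
theorem exists_critical {f : R4 → ℝ} (hf : SP f) : ∃ x, ∀ v, fderiv ℝ f x v = 0 := by
  obtain ⟨x, hx, hmax⟩ := (isCompact_Icc (a := (0 : R4)) (b := 1)).exists_isMaxOn
    ⟨0, by simp only [mem_Icc, Std.le_refl, zero_le_one, and_self]⟩ hf.continuous.continuousOn
  have hglob : ∀ y, f y ≤ f x := by
    intro y
    have h1 : f (y + iv (fun i => -⌊y i⌋)) = f y := hf.per _ y
    rw [← h1]
    refine hmax ⟨fun i => ?_, fun i => ?_⟩
    · simp only [Pi.zero_apply, Pi.add_apply, iv, Int.cast_neg]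
      have := Int.floor_le (y i)
      linarith
    · simp only [Pi.one_apply, Pi.add_apply, iv, Int.cast_neg]
      have := Int.lt_floor_add_one (y i)
      linarith
  have hloc : IsLocalMax f x := Filter.Eventually.of_forall hglob
  refine ⟨x, fun v => ?_⟩
  rw [hloc.fderiv_eq_zero]
  rfl

end Vale.Agent.P247
end
end

section

section

open MeasureTheory Set Filter Topology
open scoped ContDiff

namespace Vale.Agent.P247

theorem SP.div {f g : R4 → ℝ} (hf : SP f) (hg : SP g) (h0 : ∀ x, g x ≠ 0) :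
    SP (fun x => f x / g x) :=
  ⟨hf.1.div hg.1 h0, fun n x => by simp only [hf.2 n x, hg.2 n x]⟩

theorem SP.const_mul {f : R4 → ℝ} (c : ℝ) (hf : SP f) : SP (fun x => c * f x) :=
  hf.const_smul c

theorem SP.const_add {f : R4 → ℝ} (c : ℝ) (hf : SP f) : SP (fun x => c + f x) :=
  (SP.const c).add hf

theorem pd_const_mul {f : R4 → ℝ} (c : ℝ) (hf : SP f) (k : Fin 4) (x : R4) :
    pd k (fun y => c * f y) x = c * pd k f x := by
  simp only [pd]
  rw [fderiv_const_mul (hf.differentiable x)]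
  simp

theorem pd_const_add {f : R4 → ℝ} (c : ℝ) (k : Fin 4) (x : R4) :
    pd k (fun y => c + f y) x = pd k f x := by
  simp only [pd]
  rw [fderiv_const_add]

theorem pd_comm {f : R4 → ℝ} (hf : SP f) (i j : Fin 4) (x : R4) :
    pd i (pd j f) x = pd j (pd i f) x := by
  have hs : IsSymmSndFDerivAt ℝ f x := (hf.1.contDiffAt).isSymmSndFDerivAt (by
    simp only [minSmoothness_of_isRCLikeNormedField]
    exact two_le_infty)
  have h := hs (e i) (e j)
  have h1 : ∀ i j : Fin 4, pd i (pd j f) x = fderiv ℝ (fderiv ℝ f) x (e i) (e j) := by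
    intro i j
    simp only [pd]
    have h2 : (fun x => fderiv ℝ f x (e j)) =
        (ContinuousLinearMap.apply ℝ ℝ (e j)) ∘ (fderiv ℝ f) := rfl
    change fderiv ℝ (fun x => fderiv ℝ f x (e j)) x (e i) = _
    rw [h2, fderiv_comp x (ContinuousLinearMap.differentiableAt _)
      (hf.fderiv.differentiable x)]
    simp
  rw [h1, h1]
  exact h

theorem Basic.fderiv {f : R4 → ℝ} (hb : Basic f) : Basic (fderiv ℝ f) := by
  intro x r
  have h2 : (fun y => f (y + r • e 2)) = f := funext fun y => (hb y r).1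
  have h3 : (fun y => f (y + r • e 3)) = f := funext fun y => (hb y r).2
  constructor
  · rw [← fderiv_comp_add_right, h2]
  · rw [← fderiv_comp_add_right, h3]

theorem Basic.pd {f : R4 → ℝ} (hb : Basic f) (k : Fin 4) : Basic (pd k f) := by
  intro x r
  simp only [Vale.Agent.P247.pd]
  rw [(hb.fderiv x r).1, (hb.fderiv x r).2]
  exact ⟨rfl, rfl⟩

/-- the point of the fibre through `x` with fibre coordinates those of `y` -/
def fib (x y : R4) : R4 := ![x 0, x 1, y 2, y 3]

theorem fib_eq (x y : R4) : fib x y = (x + (y 2 - x 2) • e 2) + (y 3 - x 3) • e 3 := by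
  funext i
  fin_cases i <;> simp [fib, e]

theorem Basic.fib {F : Type*} {f : R4 → F} (hb : Basic f) (x y : R4) :
    f (Vale.Agent.P247.fib x y) = f x := by
  rw [fib_eq, (hb _ _).2, (hb _ _).1]

/-- linear part of `fib x` -/
noncomputable def fibL : R4 →L[ℝ] R4 :=
  (ContinuousLinearMap.proj 2 : R4 →L[ℝ] ℝ).smulRight (e 2)
  + (ContinuousLinearMap.proj 3 : R4 →L[ℝ] ℝ).smulRight (e 3)

theorem fib_hasFDerivAt (x y : R4) : HasFDerivAt (fib x) fibL y := by
  have h : fib x = fun y => fib x 0 + fibL y := by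
    funext y i
    fin_cases i <;> simp [fib, fibL, e]
  rw [h]
  exact (fibL.hasFDerivAt).const_add _

theorem fib_contDiff (x : R4) : ContDiff ℝ ∞ (fib x) := by
  have h : fib x = fun y => fib x 0 + fibL y := by
    funext y i
    fin_cases i <;> simp [fib, fibL, e]
  rw [h]
  exact contDiff_const.add fibL.contDiff

theorem SP.fibre {f : R4 → ℝ} (hf : SP f) (x : R4) : SP (fun y => f (fib x y)) := by
  refine ⟨hf.1.comp (fib_contDiff x), fun n y => ?_⟩
  have : fib x (fun i => y i + n i) = fib x y + iv ![0, 0, n 2, n 3] := by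
    funext i
    fin_cases i <;> simp [fib, iv]
  simp only [this, hf.per]

theorem exists_fibre_critical {f : R4 → ℝ} (hf : SP f) (x : R4) :
    ∃ y, pd 2 f (fib x y) = 0 ∧ pd 3 f (fib x y) = 0 := by
  obtain ⟨y, hy⟩ := exists_critical (hf.fibre x)
  have hd : fderiv ℝ (fun y => f (fib x y)) y = (fderiv ℝ f (fib x y)).comp fibL := by
    exact ((hf.differentiable (fib x y)).hasFDerivAt.comp y (fib_hasFDerivAt x y)).fderiv
  refine ⟨y, ?_, ?_⟩
  · have := hy (e 2)
    rw [hd] at this
    simpa only [pd, e, Fin.isValue, fibL, ContinuousLinearMap.comp_add, add_apply, ContinuousLinearMap.comp_apply,     ContinuousLinearMap.smulRight_apply, ContinuousLinearMap.proj_apply, Pi.single_eq_same, one_smul, ne_eq,     Fin.reduceEq, not_false_eq_true, Pi.single_eq_of_ne, zero_smul, map_zero, add_zero] using this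
  · have := hy (e 3)
    rw [hd] at this
    simpa only [pd, e, Fin.isValue, fibL, ContinuousLinearMap.comp_add, add_apply, ContinuousLinearMap.comp_apply,     ContinuousLinearMap.smulRight_apply, ContinuousLinearMap.proj_apply, ne_eq, Fin.reduceEq, not_false_eq_true,     Pi.single_eq_of_ne, zero_smul, map_zero, Pi.single_eq_same, one_smul, zero_add] using this

/-- the main algebraic identity of the coframe theorem -/
theorem coframe_algebra (c01 c02 c03 c12 c13 F20 F30 F21 F31 : ℝ)
    (f01 : c02 * F21 + c03 * F31 = 0) (f11 : c12 * F21 + c13 * F31 = 1)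
    (g22 : F20 * c02 + F21 * c12 = 1) (g23 : F20 * c03 + F21 * c13 = 0)
    (g32 : F30 * c02 + F31 * c12 = 0) (g33 : F30 * c03 + F31 * c13 = 1)
    -- derivatives of a_2, a_3 in the directions 0, 1
    (A20 A21 A30 A31 : ℝ)
    -- derivatives of a_0, a_1
    (a01 a10 : ℝ)
    (b2 b3 b20 b21 b30 b31 : ℝ) (E021 E031 E120 E130 : ℝ)
    (sym2 : E120 = E021) (sym3 : E130 = E031)
    (r01 : E021 * b2 + (c02 + A20) * b21 + (E031 * b3 + (c03 + A30) * b31)
      = a01 + c01 * (F21 * A21 + F31 * A31))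
    (r10 : E120 * b2 + (c12 + A21) * b20 + (E130 * b3 + (c13 + A31) * b30) = a10)
    {P00 P10 P01 P11 P20 P21 P30 P31 : ℝ}
    (hP00 : P00 = 1 + (F20 * A20 + F30 * A30)) (hP10 : P10 = F21 * A20 + F31 * A30)
    (hP01 : P01 = F20 * A21 + F30 * A31) (hP11 : P11 = 1 + (F21 * A21 + F31 * A31))
    (hP20 : P20 = c01 * F21 * (P00 - 1) - b20) (hP21 : P21 = c01 * F21 * P01 - b21)
    (hP30 : P30 = c01 * F31 * (P00 - 1) - b30) (hP31 : P31 = c01 * F31 * P01 - b31) :
    c01 + a10 - a01 =
      c01 * (P00 * P11 - P10 * P01) + c02 * (P00 * P21 - P20 * P01)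
      + c03 * (P00 * P31 - P30 * P01) + c12 * (P10 * P21 - P20 * P11)
      + c13 * (P10 * P31 - P30 * P11) := by
  have h02 : c02 * P00 + c12 * P10 = c02 + A20 := by
    rw [hP00, hP10]; linear_combination A20 * g22 + A30 * g32
  have h03 : c03 * P00 + c13 * P10 = c03 + A30 := by
    rw [hP00, hP10]; linear_combination A20 * g23 + A30 * g33
  have h12 : c02 * P01 + c12 * P11 = c12 + A21 := by
    rw [hP01, hP11]; linear_combination A21 * g22 + A31 * g32
  have h13 : c03 * P01 + c13 * P11 = c13 + A31 := by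
    rw [hP01, hP11]; linear_combination A21 * g23 + A31 * g33
  have h11 : P11 - 1 = F21 * A21 + F31 * A31 := by rw [hP11]; ring
  rw [hP20, hP21, hP30, hP31]
  rw [← h11] at r01
  subst sym2 sym3
  linear_combination (-c01 * (P00 * P01 - (P00 - 1) * P01)) * f01
    - c01 * (P10 * P01 - (P00 - 1) * P11) * f11 + b21 * h02 + b31 * h03 - b20 * h12 - b30 * h13
    + r01 - r10

/-- the map with the given component functions -/
def mkU (V : Fin 4 → R4 → ℝ) : R4 → R4 := fun x i => V i x

theorem SP.mkU {V : Fin 4 → R4 → ℝ} (hV : ∀ i, SP (V i)) : SP (mkU V) :=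
  ⟨contDiff_pi.2 fun k => (hV k).1, fun n x => funext fun k => (hV k).2 n x⟩

theorem fderiv_mkU {V : Fin 4 → R4 → ℝ} (hV : ∀ i, SP (V i)) (x : R4) (i j : Fin 4) :
    (fderiv ℝ (mkU V) x (e j)) i = pd j (V i) x := by
  have h := hasFDerivAt_pi.2 (fun i => ((hV i).differentiable x).hasFDerivAt)
  have h2 : fderiv ℝ (mkU V) x = ContinuousLinearMap.pi fun i => fderiv ℝ (V i) x := h.fderiv
  rw [h2]
  rfl

/-- the derivative of `x ↦ x + U x` -/
noncomputable def jac (U : R4 → R4) (x : R4) : R4 →L[ℝ] R4 :=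
  ContinuousLinearMap.id ℝ R4 + fderiv ℝ U x

theorem jac_mkU {V : Fin 4 → R4 → ℝ} (hV : ∀ i, SP (V i)) (x : R4) (i j : Fin 4) :
    (jac (mkU V) x (e j)) i = (if i = j then 1 else 0) + pd j (V i) x := by
  simp only [jac, add_apply, Pi.add_apply, fderiv_mkU hV]
  congr 1
  simp [e, Pi.single_apply]

theorem exists_dep {p q r s : ℝ} (h : p * s - q * r = 0) :
    ∃ u v : ℝ, (u ≠ 0 ∨ v ≠ 0) ∧ u * p + v * r = 0 ∧ u * q + v * s = 0 := by
  by_cases hr : r = 0
  · by_cases hs : s = 0
    · exact ⟨0, 1, Or.inr one_ne_zero, by rw [hr]; ring, by rw [hs]; ring⟩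
    · exact ⟨s, -q, Or.inl hs, by linear_combination h, by ring⟩
  · exact ⟨r, -p, Or.inl hr, by ring, by linear_combination -h⟩

theorem comp_mean {w : Form 2} (hw : SP w) (i j : Fin 4) :
    comp (mean w) i j = mean (fun x => comp (w x) i j) := by
  have := mean_clm hw (evalL ![e i, e j])
  exact this.symm

/-- the determinant of the mixed part -/
theorem mixed_ne_zero {w : Form 2} (hw : SPC w) (hV : ∀ x, comp (w x) 2 3 = 0)
    (hpos : ∀ x, 0 < wedge (w x) (w x)) :
    comp (mean w) 0 2 * comp (mean w) 1 3 - comp (mean w) 0 3 * comp (mean w) 1 2 ≠ 0 := by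
  intro h0
  have h1 := mean_wedge hw hw
  have h2 : 0 < mean (fun x => wedge (w x) (w x)) := mean_pos (hw.1.wedge hw.1) hpos
  have h3 : comp (mean w) 2 3 = 0 := by
    rw [comp_mean hw.1]
    simp only [hV]
    exact mean_const 0
  rw [h1, wedge_def, h3] at h2
  linarith

theorem E_ne_zero {w : Form 2} (hV : ∀ x, comp (w x) 2 3 = 0)
    (hpos : ∀ x, 0 < wedge (w x) (w x)) {c : Form2} {A : Fin 4 → R4 → ℝ} (sA : ∀ i, SP (A i))
    (b2 : Basic (A 2)) (b3 : Basic (A 3))
    (hcomp : ∀ x i j, comp (w x) i j = comp c i j + pd i (A j) x - pd j (A i) x) (x : R4) :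
    (comp c 0 2 + pd 0 (A 2) x) * (comp c 1 3 + pd 1 (A 3) x)
      - (comp c 0 3 + pd 0 (A 3) x) * (comp c 1 2 + pd 1 (A 2) x) ≠ 0 := by
  intro h0
  obtain ⟨u, v, huv, h1, h2⟩ := exists_dep h0
  obtain ⟨y, hy2, hy3⟩ := exists_fibre_critical (((sA 0).const_mul u).add ((sA 1).const_mul v)) x
  set z := fib x y with hz
  rw [pd_add ((sA 0).const_mul u) ((sA 1).const_mul v), pd_const_mul u (sA 0),
    pd_const_mul v (sA 1)] at hy2 hy3
  have e02 : comp (w z) 0 2 = comp c 0 2 + pd 0 (A 2) x - pd 2 (A 0) z := by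
    rw [hcomp, hz, (b2.pd 0).fib]
  have e03 : comp (w z) 0 3 = comp c 0 3 + pd 0 (A 3) x - pd 3 (A 0) z := by
    rw [hcomp, hz, (b3.pd 0).fib]
  have e12 : comp (w z) 1 2 = comp c 1 2 + pd 1 (A 2) x - pd 2 (A 1) z := by
    rw [hcomp, hz, (b2.pd 1).fib]
  have e13 : comp (w z) 1 3 = comp c 1 3 + pd 1 (A 3) x - pd 3 (A 1) z := by
    rw [hcomp, hz, (b3.pd 1).fib]
  have k1 : u * comp (w z) 0 2 + v * comp (w z) 1 2 = 0 := by
    rw [e02, e12]; linear_combination h1 - hy2
  have k2 : u * comp (w z) 0 3 + v * comp (w z) 1 3 = 0 := by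
    rw [e03, e13]; linear_combination h2 - hy3
  have k3 : u * (comp (w z) 0 2 * comp (w z) 1 3 - comp (w z) 0 3 * comp (w z) 1 2) = 0 := by
    linear_combination comp (w z) 1 3 * k1 - comp (w z) 1 2 * k2
  have k4 : v * (comp (w z) 0 2 * comp (w z) 1 3 - comp (w z) 0 3 * comp (w z) 1 2) = 0 := by
    linear_combination -comp (w z) 0 3 * k1 + comp (w z) 0 2 * k2
  have k5 : comp (w z) 0 2 * comp (w z) 1 3 - comp (w z) 0 3 * comp (w z) 1 2 = 0 := by
    rcases huv with hu | hv
    · exact (mul_eq_zero.1 k3).resolve_left hu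
    · exact (mul_eq_zero.1 k4).resolve_left hv
  have k6 := hpos z
  rw [wedge_def, hV z] at k6
  linarith

theorem exists_coframe {w : Form 2} (hw : SPC w) (hV : ∀ x, comp (w x) 2 3 = 0)
    (hpos : ∀ x, 0 < wedge (w x) (w x)) :
    ∃ V : Fin 4 → R4 → ℝ, (∀ i, SP (V i)) ∧ Basic (V 0) ∧ Basic (V 1) ∧
      ∀ x, w x = (mean w).compContinuousLinearMap (jac (mkU V) x) := by
  obtain ⟨a, sa, hda, ba2, ba3⟩ := sub_mean_exact_V hw hV
  have hD := mixed_ne_zero hw hV hpos
  set c := mean w with hc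
  set A : Fin 4 → R4 → ℝ := fun i x => a x ![e i] with hA
  have sA : ∀ i, SP (A i) := fun i => sa.eval _
  have b2 : Basic (A 2) := ba2
  have b3 : Basic (A 3) := ba3
  have hcomp : ∀ x i j, comp (w x) i j = comp c i j + pd i (A j) x - pd j (A i) x := by
    intro x i j
    have h1 : comp (w x - mean w) i j = comp (extDeriv a x) i j := by rw [hda]
    rw [comp_sub, comp_extDeriv sa] at h1
    linarith only [h1]
  have hE := E_ne_zero hV hpos sA b2 b3 hcomp
  have c23 : comp c 2 3 = 0 := by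
    rw [hc, comp_mean hw.1]
    simp only [hV]
    exact mean_const 0
  clear_value c
  generalize hc01 : comp c 0 1 = c01 at *
  generalize hc02 : comp c 0 2 = c02 at *
  generalize hc03 : comp c 0 3 = c03 at *
  generalize hc12 : comp c 1 2 = c12 at *
  generalize hc13 : comp c 1 3 = c13 at *
  set D := c02 * c13 - c03 * c12 with hDdef
  obtain ⟨F20, hF20⟩ : ∃ F, F = c13 / D := ⟨_, rfl⟩
  obtain ⟨F30, hF30⟩ : ∃ F, F = -c12 / D := ⟨_, rfl⟩
  obtain ⟨F21, hF21⟩ : ∃ F, F = -c03 / D := ⟨_, rfl⟩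
  obtain ⟨F31, hF31⟩ : ∃ F, F = c02 / D := ⟨_, rfl⟩
  have f01 : c02 * F21 + c03 * F31 = 0 := by rw [hF21, hF31]; field_simp; ring
  have f11 : c12 * F21 + c13 * F31 = 1 := by
    rw [hF21, hF31]; field_simp; rw [hDdef]; ring
  have g22 : F20 * c02 + F21 * c12 = 1 := by
    rw [hF20, hF21]; field_simp; rw [hDdef]; ring
  have g23 : F20 * c03 + F21 * c13 = 0 := by rw [hF20, hF21]; field_simp; ring
  have g32 : F30 * c02 + F31 * c12 = 0 := by rw [hF30, hF31]; field_simp; ring
  have g33 : F30 * c03 + F31 * c13 = 1 := by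
    rw [hF30, hF31]; field_simp; rw [hDdef]; ring
  clear hF20 hF30 hF21 hF31
  -- the functions
  set φ0 : R4 → ℝ := fun x => F20 * A 2 x + F30 * A 3 x with hφ0
  set φ1 : R4 → ℝ := fun x => F21 * A 2 x + F31 * A 3 x with hφ1
  have sφ0 : SP φ0 := ((sA 2).const_mul F20).add ((sA 3).const_mul F30)
  have sφ1 : SP φ1 := ((sA 2).const_mul F21).add ((sA 3).const_mul F31)
  have bφ0 : Basic φ0 := fun x r => by
    simp only [hφ0, (b2 x r).1, (b2 x r).2, (b3 x r).1, (b3 x r).2, and_self]
  have bφ1 : Basic φ1 := fun x r => by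
    simp only [hφ1, (b2 x r).1, (b2 x r).2, (b3 x r).1, (b3 x r).2, and_self]
  have pφ0 : ∀ k x, pd k φ0 x = F20 * pd k (A 2) x + F30 * pd k (A 3) x := fun k x => by
    rw [hφ0, pd_add ((sA 2).const_mul F20) ((sA 3).const_mul F30), pd_const_mul F20 (sA 2),
      pd_const_mul F30 (sA 3)]
  have pφ1 : ∀ k x, pd k φ1 x = F21 * pd k (A 2) x + F31 * pd k (A 3) x := fun k x => by
    rw [hφ1, pd_add ((sA 2).const_mul F21) ((sA 3).const_mul F31), pd_const_mul F21 (sA 2),
      pd_const_mul F31 (sA 3)]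
  set T0 : R4 → ℝ := fun x => A 0 x + c01 * φ1 x with hT0
  have sT0 : SP T0 := (sA 0).add (sφ1.const_mul c01)
  have pT0 : ∀ k x, pd k T0 x = pd k (A 0) x + c01 * pd k φ1 x := fun k x => by
    rw [hT0, pd_add (sA 0) (sφ1.const_mul c01), pd_const_mul c01 sφ1]
  set E02 : R4 → ℝ := fun x => c02 + pd 0 (A 2) x with hE02
  set E03 : R4 → ℝ := fun x => c03 + pd 0 (A 3) x with hE03
  set E12 : R4 → ℝ := fun x => c12 + pd 1 (A 2) x with hE12
  set E13 : R4 → ℝ := fun x => c13 + pd 1 (A 3) x with hE13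
  have spd : ∀ i j, SP (pd i (A j)) := fun i j => (sA j).pd i
  have sE02 : SP E02 := (spd 0 2).const_add c02
  have sE03 : SP E03 := (spd 0 3).const_add c03
  have sE12 : SP E12 := (spd 1 2).const_add c12
  have sE13 : SP E13 := (spd 1 3).const_add c13
  have pE02 : ∀ k x, pd k E02 x = pd k (pd 0 (A 2)) x := fun k x => pd_const_add _ _ _
  have pE03 : ∀ k x, pd k E03 x = pd k (pd 0 (A 3)) x := fun k x => pd_const_add _ _ _
  have pE12 : ∀ k x, pd k E12 x = pd k (pd 1 (A 2)) x := fun k x => pd_const_add _ _ _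
  have pE13 : ∀ k x, pd k E13 x = pd k (pd 1 (A 3)) x := fun k x => pd_const_add _ _ _
  set dE : R4 → ℝ := fun x => E02 x * E13 x - E03 x * E12 x with hdE
  have sdE : SP dE := (sE02.mul sE13).sub (sE03.mul sE12)
  have ndE : ∀ x, dE x ≠ 0 := hE
  set B2 : R4 → ℝ := fun x => (E13 x * T0 x - E03 x * A 1 x) / dE x with hB2
  set B3 : R4 → ℝ := fun x => (E02 x * A 1 x - E12 x * T0 x) / dE x with hB3
  have sB2 : SP B2 := ((sE13.mul sT0).sub (sE03.mul (sA 1))).div sdE ndE
  have sB3 : SP B3 := ((sE02.mul (sA 1)).sub (sE12.mul sT0)).div sdE ndE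
  have rel0 : (fun x => E02 x * B2 x + E03 x * B3 x) = T0 := by
    funext x
    have h := ndE x
    simp only [hB2, hB3]
    field_simp
    simp only [hdE]
    ring
  have rel1 : (fun x => E12 x * B2 x + E13 x * B3 x) = A 1 := by
    funext x
    have h := ndE x
    simp only [hB2, hB3]
    field_simp
    simp only [hdE]
    ring
  have r0 : ∀ k x, pd k (pd 0 (A 2)) x * B2 x + E02 x * pd k B2 x
      + (pd k (pd 0 (A 3)) x * B3 x + E03 x * pd k B3 x)
      = pd k (A 0) x + c01 * pd k φ1 x := fun k x => by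
    rw [← pT0, ← rel0, pd_add (sE02.mul sB2) (sE03.mul sB3), pd_mul sE02 sB2, pd_mul sE03 sB3,
      pE02, pE03]
  have r1 : ∀ k x, pd k (pd 1 (A 2)) x * B2 x + E12 x * pd k B2 x
      + (pd k (pd 1 (A 3)) x * B3 x + E13 x * pd k B3 x) = pd k (A 1) x := fun k x => by
    rw [← rel1, pd_add (sE12.mul sB2) (sE13.mul sB3), pd_mul sE12 sB2, pd_mul sE13 sB3,
      pE12, pE13]
  set V2 : R4 → ℝ := fun x => c01 * F21 * φ0 x - B2 x with hV2
  set V3 : R4 → ℝ := fun x => c01 * F31 * φ0 x - B3 x with hV3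
  have sV2 : SP V2 := (sφ0.const_mul _).sub sB2
  have sV3 : SP V3 := (sφ0.const_mul _).sub sB3
  have pV2 : ∀ k x, pd k V2 x = c01 * F21 * pd k φ0 x - pd k B2 x := fun k x => by
    rw [hV2, pd_sub (sφ0.const_mul _) sB2, pd_const_mul _ sφ0]
  have pV3 : ∀ k x, pd k V3 x = c01 * F31 * pd k φ0 x - pd k B3 x := fun k x => by
    rw [hV3, pd_sub (sφ0.const_mul _) sB3, pd_const_mul _ sφ0]
  have sV : ∀ i, SP ((![φ0, φ1, V2, V3] : Fin 4 → R4 → ℝ) i) := by
    intro i
    fin_cases i
    · exact sφ0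
    · exact sφ1
    · exact sV2
    · exact sV3
  refine ⟨![φ0, φ1, V2, V3], sV, bφ0, bφ1, fun x => ?_⟩
  have z02 : pd 2 φ0 x = 0 := bφ0.pd_two sφ0 x
  have z03 : pd 3 φ0 x = 0 := bφ0.pd_three sφ0 x
  have z12 : pd 2 φ1 x = 0 := bφ1.pd_two sφ1 x
  have z13 : pd 3 φ1 x = 0 := bφ1.pd_three sφ1 x
  have y22 : pd 2 (A 2) x = 0 := b2.pd_two (sA 2) x
  have y23 : pd 3 (A 2) x = 0 := b2.pd_three (sA 2) x
  have y32 : pd 2 (A 3) x = 0 := b3.pd_two (sA 3) x
  have y33 : pd 3 (A 3) x = 0 := b3.pd_three (sA 3) x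
  have q : ∀ i j, (jac (mkU ![φ0, φ1, V2, V3]) x (e j)) i
      = (if i = j then 1 else 0) + pd j ((![φ0, φ1, V2, V3] : Fin 4 → R4 → ℝ) i) x :=
    fun i j => jac_mkU sV x i j
  have zz : ∀ k : Fin 4, (k = 2 ∨ k = 3) → ∀ i j, (j = 2 ∨ j = 3) →
      pd k (pd i (A j)) x = 0 := by
    intro k hk i j hj
    have hb : Basic (A j) := by rcases hj with rfl | rfl; exacts [b2, b3]
    rcases hk with rfl | rfl
    · exact (hb.pd i).pd_two (spd i j) x
    · exact (hb.pd i).pd_three (spd i j) x
  -- the entries of the Jacobian matrix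
  set J := jac (mkU ![φ0, φ1, V2, V3]) x with hJ
  have P00 : J (e 0) 0 = 1 + (F20 * pd 0 (A 2) x + F30 * pd 0 (A 3) x) := by
    rw [q, ← pφ0]; rfl
  have P10 : J (e 0) 1 = F21 * pd 0 (A 2) x + F31 * pd 0 (A 3) x := by
    rw [q, ← pφ1, if_neg (by decide), zero_add]; rfl
  have P20 : J (e 0) 2 = c01 * F21 * (J (e 0) 0 - 1) - pd 0 B2 x := by
    rw [P00, q, if_neg (by decide), zero_add]
    change pd 0 V2 x = _
    rw [pV2, pφ0]; ring
  have P30 : J (e 0) 3 = c01 * F31 * (J (e 0) 0 - 1) - pd 0 B3 x := by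
    rw [P00, q, if_neg (by decide), zero_add]
    change pd 0 V3 x = _
    rw [pV3, pφ0]; ring
  have P01 : J (e 1) 0 = F20 * pd 1 (A 2) x + F30 * pd 1 (A 3) x := by
    rw [q, ← pφ0, if_neg (by decide), zero_add]; rfl
  have P11 : J (e 1) 1 = 1 + (F21 * pd 1 (A 2) x + F31 * pd 1 (A 3) x) := by
    rw [q, ← pφ1]; rfl
  have P21 : J (e 1) 2 = c01 * F21 * J (e 1) 0 - pd 1 B2 x := by
    rw [P01, q, if_neg (by decide), zero_add]
    change pd 1 V2 x = _
    rw [pV2, pφ0]
  have P31 : J (e 1) 3 = c01 * F31 * J (e 1) 0 - pd 1 B3 x := by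
    rw [P01, q, if_neg (by decide), zero_add]
    change pd 1 V3 x = _
    rw [pV3, pφ0]
  have P02 : J (e 2) 0 = 0 := by
    rw [q, if_neg (by decide), zero_add]; exact z02
  have P12 : J (e 2) 1 = 0 := by
    rw [q, if_neg (by decide), zero_add]; exact z12
  have P22 : J (e 2) 2 = 1 - pd 2 B2 x := by
    rw [q, if_pos rfl]
    change 1 + pd 2 V2 x = _
    rw [pV2, z02]; ring
  have P32 : J (e 2) 3 = - pd 2 B3 x := by
    rw [q, if_neg (by decide), zero_add]
    change pd 2 V3 x = _
    rw [pV3, z02]; ring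
  have P03 : J (e 3) 0 = 0 := by
    rw [q, if_neg (by decide), zero_add]; exact z03
  have P13 : J (e 3) 1 = 0 := by
    rw [q, if_neg (by decide), zero_add]; exact z13
  have P23 : J (e 3) 2 = - pd 3 B2 x := by
    rw [q, if_neg (by decide), zero_add]
    change pd 3 V2 x = _
    rw [pV2, z03]; ring
  have P33 : J (e 3) 3 = 1 - pd 3 B3 x := by
    rw [q, if_pos rfl]
    change 1 + pd 3 V3 x = _
    rw [pV3, z03]; ring
  have h02 : c02 * J (e 0) 0 + c12 * J (e 0) 1 = c02 + pd 0 (A 2) x := by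
    rw [P00, P10]; linear_combination pd 0 (A 2) x * g22 + pd 0 (A 3) x * g32
  have h03 : c03 * J (e 0) 0 + c13 * J (e 0) 1 = c03 + pd 0 (A 3) x := by
    rw [P00, P10]; linear_combination pd 0 (A 2) x * g23 + pd 0 (A 3) x * g33
  have h12 : c02 * J (e 1) 0 + c12 * J (e 1) 1 = c12 + pd 1 (A 2) x := by
    rw [P01, P11]; linear_combination pd 1 (A 2) x * g22 + pd 1 (A 3) x * g32
  have h13 : c03 * J (e 1) 0 + c13 * J (e 1) 1 = c13 + pd 1 (A 3) x := by
    rw [P01, P11]; linear_combination pd 1 (A 2) x * g23 + pd 1 (A 3) x * g33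
  have s0 := r0 2 x
  have s1 := r0 3 x
  have s2 := r1 2 x
  have s3 := r1 3 x
  have s4 := r0 1 x
  have s5 := r1 0 x
  rw [zz 2 (Or.inl rfl) 0 2 (Or.inl rfl), zz 2 (Or.inl rfl) 0 3 (Or.inr rfl), z12] at s0
  rw [zz 3 (Or.inr rfl) 0 2 (Or.inl rfl), zz 3 (Or.inr rfl) 0 3 (Or.inr rfl), z13] at s1
  rw [zz 2 (Or.inl rfl) 1 2 (Or.inl rfl), zz 2 (Or.inl rfl) 1 3 (Or.inr rfl)] at s2
  rw [zz 3 (Or.inr rfl) 1 2 (Or.inl rfl), zz 3 (Or.inr rfl) 1 3 (Or.inr rfl)] at s3
  rw [pφ1] at s4
  have key := coframe_algebra c01 c02 c03 c12 c13 F20 F30 F21 F31 f01 f11 g22 g23 g32 g33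
    (pd 0 (A 2) x) (pd 1 (A 2) x) (pd 0 (A 3) x) (pd 1 (A 3) x) (pd 1 (A 0) x) (pd 0 (A 1) x)
    (B2 x) (B3 x) (pd 0 B2 x) (pd 1 B2 x) (pd 0 B3 x) (pd 1 B3 x) (pd 1 (pd 0 (A 2)) x)
    (pd 1 (pd 0 (A 3)) x) (pd 0 (pd 1 (A 2)) x) (pd 0 (pd 1 (A 3)) x)
    (pd_comm (sA 2) 0 1 x) (pd_comm (sA 3) 0 1 x) s4 s5 P00 P10 P01 P11 P20 P21 P30 P31
  have c10 : comp c 1 0 = -c01 := by rw [comp_swap, hc01]
  have c20 : comp c 2 0 = -c02 := by rw [comp_swap, hc02]
  have c30 : comp c 3 0 = -c03 := by rw [comp_swap, hc03]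
  have c21 : comp c 2 1 = -c12 := by rw [comp_swap, hc12]
  have c31 : comp c 3 1 = -c13 := by rw [comp_swap, hc13]
  have c32 : comp c 3 2 = 0 := by rw [comp_swap, c23, neg_zero]
  have expand : ∀ i j, comp (c.compContinuousLinearMap J) i j =
      c01 * (J (e i) 0 * J (e j) 1 - J (e i) 1 * J (e j) 0)
      + c02 * (J (e i) 0 * J (e j) 2 - J (e i) 2 * J (e j) 0)
      + c03 * (J (e i) 0 * J (e j) 3 - J (e i) 3 * J (e j) 0)
      + c12 * (J (e i) 1 * J (e j) 2 - J (e i) 2 * J (e j) 1)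
      + c13 * (J (e i) 1 * J (e j) 3 - J (e i) 3 * J (e j) 1) := by
    intro i j
    rw [pullback_comp]
    simp only [Fin.sum_univ_four, comp_self, hc01, hc02, hc03, hc12, hc13, c23, c10, c20, c30,
      c21, c31, c32]
    ring
  have t01 : comp (w x) 0 1 = comp (c.compContinuousLinearMap J) 0 1 := by
    rw [hcomp, expand, ← sub_eq_zero, hc01]
    linear_combination key
  have t02 : comp (w x) 0 2 = comp (c.compContinuousLinearMap J) 0 2 := by
    rw [hcomp, expand, P02, P12, P22, P32, hc02]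
    simp only [hE02, hE03] at s0
    linear_combination (1 - pd 2 B2 x) * (-h02) + pd 2 B3 x * h03 + s0
  have t03 : comp (w x) 0 3 = comp (c.compContinuousLinearMap J) 0 3 := by
    rw [hcomp, expand, P03, P13, P23, P33, hc03]
    simp only [hE02, hE03] at s1
    linear_combination (1 - pd 3 B3 x) * (-h03) + pd 3 B2 x * h02 + s1
  have t12 : comp (w x) 1 2 = comp (c.compContinuousLinearMap J) 1 2 := by
    rw [hcomp, expand, P02, P12, P22, P32, hc12]
    simp only [hE12, hE13] at s2
    linear_combination (1 - pd 2 B2 x) * (-h12) + pd 2 B3 x * h13 + s2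
  have t13 : comp (w x) 1 3 = comp (c.compContinuousLinearMap J) 1 3 := by
    rw [hcomp, expand, P03, P13, P23, P33, hc13]
    simp only [hE12, hE13] at s3
    linear_combination (1 - pd 3 B3 x) * (-h13) + pd 3 B2 x * h12 + s3
  have t23 : comp (w x) 2 3 = comp (c.compContinuousLinearMap J) 2 3 := by
    rw [expand, P02, P12, P03, P13, hV]
    ring
  apply coord_inj
  rw [coord_eq_comp, coord_eq_comp, t01, t02, t03, t12, t13, t23]

end Vale.Agent.P247
end
end

section

section

open MeasureTheory Set Filter Topology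
open scoped ContDiff

namespace Vale.Agent.P247

/-- the pullback of a two-form -/
noncomputable def pbk (F : R4 → R4) (w : Form 2) : Form 2 := fun x =>
  (w (F x)).compContinuousLinearMap (fderiv ℝ F x)

/-- lifts of smooth maps of the torus: linear part `M`, periodic part `V` -/
structure TMap (F : R4 → R4) (M : R4 →L[ℝ] R4) (V : R4 → R4) : Prop where
  sp : SP V
  eq : ∀ x, F x = M x + V x
  int : ∀ n : Fin 4 → ℤ, ∃ m : Fin 4 → ℤ, M (iv n) = iv m

variable {F : R4 → R4} {M : R4 →L[ℝ] R4} {V : R4 → R4}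

theorem TMap.contDiff (h : TMap F M V) : ContDiff ℝ ∞ F := by
  have : F = fun x => M x + V x := funext h.eq
  rw [this]
  exact M.contDiff.add h.sp.1

theorem TMap.differentiable (h : TMap F M V) : Differentiable ℝ F :=
  h.contDiff.differentiable (by simp)

theorem TMap.fderiv_eq (h : TMap F M V) (x : R4) : fderiv ℝ F x = M + fderiv ℝ V x := by
  have : F = fun x => M x + V x := funext h.eq
  rw [this]
  exact (M.hasFDerivAt.add (h.sp.differentiable x).hasFDerivAt).fderiv

theorem TMap.sp_fderiv (h : TMap F M V) : SP (fun x => fderiv ℝ F x) := by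
  have : (fun x => fderiv ℝ F x) = fun x => M + fderiv ℝ V x :=
    funext h.fderiv_eq
  rw [this]
  exact (SP.const M).add h.sp.fderiv

theorem TMap.sp_comp {G : Type} [NormedAddCommGroup G] [NormedSpace ℝ G] (h : TMap F M V)
    {f : R4 → G} (hf : SP f) : SP (fun x => f (F x)) := by
  refine ⟨hf.1.comp h.contDiff, fun n x => ?_⟩
  obtain ⟨m, hm⟩ := h.int n
  have h1 : F (fun i => x i + n i) = F x + iv m := by
    rw [h.eq, h.eq x]
    have h2 : V (fun i => x i + n i) = V x := h.sp.2 n x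
    have h3 : (fun i => x i + n i : R4) = x + iv n := rfl
    rw [h2, h3, map_add, hm]
    abel
  simp only [h1, hf.per]

theorem sp_of_coord {w : Form 2} (h : SP (fun x => coord (w x))) : SP w := by
  have : w = fun x => ofCoord (coord (w x)) := funext fun x => (ofCoord_coord _).symm
  rw [this]
  exact h.ofCoord

theorem sp_of_comp {w : Form 2} (h : ∀ i j, SP (fun x => comp (w x) i j)) : SP w := by
  apply sp_of_coord
  have : (fun x => coord (w x)) = fun x => ((fun k => (![fun x => comp (w x) 0 1,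
      fun x => comp (w x) 0 2, fun x => comp (w x) 0 3, fun x => comp (w x) 1 2,
      fun x => comp (w x) 1 3, fun x => comp (w x) 2 3] : Fin 6 → R4 → ℝ) k x : V6)) := by
    funext x k
    fin_cases k <;> rfl
  rw [this]
  refine SP.ofCoord' fun k => ?_
  fin_cases k
  · exact h 0 1
  · exact h 0 2
  · exact h 0 3
  · exact h 1 2
  · exact h 1 3
  · exact h 2 3

theorem TMap.sp_pbk (h : TMap F M V) {w : Form 2} (hw : SP w) : SP (pbk F w) := by
  refine sp_of_comp fun i j => ?_
  have h1 : (fun x => comp (pbk F w x) i j) = fun x => ∑ a, ∑ b,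
      (fderiv ℝ F x (e i)) a * (fderiv ℝ F x (e j)) b * comp (w (F x)) a b :=
    funext fun x => pullback_comp _ _ _ _
  rw [h1]
  refine SP.sum fun a _ => SP.sum fun b _ => ?_
  have h2 : ∀ i a, SP (fun x => (fderiv ℝ F x (e i)) a) := fun i a =>
    h.sp_fderiv.clm ((ContinuousLinearMap.proj a : R4 →L[ℝ] ℝ).comp
      (ContinuousLinearMap.apply ℝ R4 (e i)))
  exact ((h2 i a).mul (h2 j b)).mul (h.sp_comp (hw.comp2 a b))

theorem TMap.extDeriv_pbk (h : TMap F M V) {w : Form 2} (hw : SP w) (x : R4) :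
    extDeriv (pbk F w) x = (extDeriv w (F x)).compContinuousLinearMap (fderiv ℝ F x) := by
  unfold pbk
  exact extDeriv_pullback (hw.differentiable _) (h.contDiff.contDiffAt) (by
    simp only [minSmoothness_of_isRCLikeNormedField]
    exact two_le_infty)

theorem TMap.spc_pbk (h : TMap F M V) {w : Form 2} (hw : SPC w) : SPC (pbk F w) := by
  refine ⟨h.sp_pbk hw.1, fun x => ?_⟩
  rw [h.extDeriv_pbk hw.1, hw.2]
  ext v
  rfl

/-- the pullback of a one-form -/
noncomputable def pbk1 (F : R4 → R4) (a : Form 1) : Form 1 := fun x =>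
  (a (F x)).compContinuousLinearMap (fderiv ℝ F x)

theorem TMap.sp_pbk1 (h : TMap F M V) {a : Form 1} (ha : SP a) : SP (pbk1 F a) := by
  rw [form1_eq_mk1 (pbk1 F a)]
  refine SP.mk1 fun i => ?_
  have h1 : (fun x => pbk1 F a x ![e i]) = fun x => ∑ b, (fderiv ℝ F x (e i)) b *
      a (F x) ![e b] := by
    funext x
    rw [← form1_apply]
    simp only [pbk1, ContinuousAlternatingMap.compContinuousLinearMap_apply]
    congr 1
    funext k
    fin_cases k; rfl
  rw [h1]
  refine SP.sum fun b _ => ?_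
  have h2 : ∀ i a, SP (fun x => (fderiv ℝ F x (e i)) a) := fun i a =>
    h.sp_fderiv.clm ((ContinuousLinearMap.proj a : R4 →L[ℝ] ℝ).comp
      (ContinuousLinearMap.apply ℝ R4 (e i)))
  exact (h2 i b).mul (h.sp_comp (ha.eval _))

theorem TMap.exact_pbk (h : TMap F M V) {w : Form 2} (hw : Exact w) : Exact (pbk F w) := by
  obtain ⟨a, ha, hda⟩ := hw
  refine ⟨pbk1 F a, h.sp_pbk1 ha, fun x => ?_⟩
  unfold pbk1
  rw [extDeriv_pullback (r := ∞) (ha.differentiable _) (h.contDiff.contDiffAt) (by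
    simp only [minSmoothness_of_isRCLikeNormedField]
    exact two_le_infty), pbk, hda]

theorem comp_pullback_dx2 (a b : Fin 4) (P : R4 →L[ℝ] R4) (i j : Fin 4) :
    comp ((dx2 a b).compContinuousLinearMap P) i j =
      (P (e i)) a * (P (e j)) b - (P (e j)) a * (P (e i)) b := by
  rw [comp, pullback_apply, dx2_apply]

theorem TMap.exact_dx2 (h : TMap F M V) (a b : Fin 4) :
    Exact (fun x => (dx2 a b).compContinuousLinearMap (fderiv ℝ F x)
      - (dx2 a b).compContinuousLinearMap M) := by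
  have sV : ∀ a, SP (fun x => V x a) := fun a =>
    h.sp.clm (ContinuousLinearMap.proj a : R4 →L[ℝ] ℝ)
  set m : Fin 4 → Fin 4 → ℝ := fun a i => (M (e i)) a with hm
  set p : Fin 4 → Fin 4 → R4 → ℝ := fun a i => pd i (fun x => V x a) with hp
  have sp : ∀ a i, SP (p a i) := fun a i => (sV a).pd i
  have hJ : ∀ x i a, (fderiv ℝ F x (e i)) a = m a i + p a i x := by
    intro x i a
    rw [h.fderiv_eq]
    have h1 : fderiv ℝ V x (e i) a = p a i x := by
      have h2 := (hasFDerivAt_pi'.1 (h.sp.differentiable x).hasFDerivAt a)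
      simp only [hp, Vale.Agent.P247.pd]
      rw [h2.fderiv]
      rfl
    rw [← h1]
    rfl
  set f : Fin 4 → R4 → ℝ := fun i x =>
    (m b i * V x a - m a i * V x b) + V x a * p b i x with hf
  have sf : ∀ i, SP (f i) := fun i =>
    (((sV a).const_mul (m b i)).sub ((sV b).const_mul (m a i))).add ((sV a).mul (sp b i))
  refine ⟨mk1 f, SP.mk1 sf, fun x => form2_ext fun i j => ?_⟩
  rw [comp_extDeriv_mk1 sf, comp_sub, comp_pullback_dx2, comp_pullback_dx2, hJ, hJ, hJ, hJ]
  have hpf : ∀ k i, pd k (f i) x = (m b i * p a k x - m a i * p b k x)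
      + (p a k x * p b i x + V x a * pd k (p b i) x) := by
    intro k i
    simp only [hf]
    rw [pd_add (((sV a).const_mul (m b i)).sub ((sV b).const_mul (m a i)))
      ((sV a).mul (sp b i)), pd_sub ((sV a).const_mul (m b i)) ((sV b).const_mul (m a i)),
      pd_const_mul _ (sV a), pd_const_mul _ (sV b), pd_mul (sV a) (sp b i)]
  have hcomm : pd i (p b j) x = pd j (p b i) x := pd_comm (sV b) i j x
  rw [hpf, hpf, hcomm]
  simp only [hm]
  ring

theorem compCLM_add (α β : Form2) (P : R4 →L[ℝ] R4) : (α + β).compContinuousLinearMap P =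
    α.compContinuousLinearMap P + β.compContinuousLinearMap P := rfl

theorem compCLM_sum {ι : Type*} (s : Finset ι) (f : ι → Form2) (P : R4 →L[ℝ] R4) :
    (∑ k ∈ s, f k).compContinuousLinearMap P = ∑ k ∈ s, (f k).compContinuousLinearMap P := by
  classical
  induction s using Finset.induction_on with
  | empty => simp only [Finset.sum_empty]; rfl
  | insert a s ha ih => rw [Finset.sum_insert ha, Finset.sum_insert ha, compCLM_add, ih]

theorem TMap.exact_const (h : TMap F M V) (κ : Form2) :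
    Exact (fun x => κ.compContinuousLinearMap (fderiv ℝ F x)
      - κ.compContinuousLinearMap M) := by
  have key : ∀ P : R4 →L[ℝ] R4, κ.compContinuousLinearMap P =
      ((((coord κ 0 • (dx2 0 1).compContinuousLinearMap P
      + coord κ 1 • (dx2 0 2).compContinuousLinearMap P)
      + coord κ 2 • (dx2 0 3).compContinuousLinearMap P)
      + coord κ 3 • (dx2 1 2).compContinuousLinearMap P)
      + coord κ 4 • (dx2 1 3).compContinuousLinearMap P)
      + coord κ 5 • (dx2 2 3).compContinuousLinearMap P := by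
    intro P
    conv_lhs => rw [← ofCoord_coord κ, ofCoord_apply]
    rfl
  refine ((((((h.exact_dx2 0 1).smul (coord κ 0)).add ((h.exact_dx2 0 2).smul (coord κ 1))).add
    ((h.exact_dx2 0 3).smul (coord κ 2))).add ((h.exact_dx2 1 2).smul (coord κ 3))).add
    ((h.exact_dx2 1 3).smul (coord κ 4))).add ((h.exact_dx2 2 3).smul (coord κ 5)) |>.congr ?_
  intro x
  rw [key, key M]
  module

theorem TMap.mean_pbk (h : TMap F M V) {w : Form 2} (hw : SPC w) :
    mean (pbk F w) = (mean w).compContinuousLinearMap M := by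
  have h1 := h.exact_pbk (sub_mean_exact hw)
  have h2 := (h1.add (h.exact_const (mean w)))
  have h3 : Exact (fun x => pbk F w x - (mean w).compContinuousLinearMap M) :=
    h2.congr fun x => by
      have h5 : pbk F (fun x => w x - mean w) x = pbk F w x
        - (mean w).compContinuousLinearMap (fderiv ℝ F x) := rfl
      rw [h5]
      abel
  have h4 := mean_exact h3
  rw [mean_sub (h.sp_pbk hw.1) (SP.const _), mean_const, sub_eq_zero] at h4
  exact h4

end Vale.Agent.P247
end
end

section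

section

open MeasureTheory Set Filter Topology
open scoped ContDiff

namespace Vale.Agent.P247

/-- the triple of two-covectors spans a positive definite space -/
def Def3 (α : Fin 3 → Form2) : Prop :=
  ∀ c : Fin 3 → ℝ, c ≠ 0 → 0 < wedge (∑ i, c i • α i) (∑ i, c i • α i)

theorem wedge_comb (α β : Fin 3 → Form2) (c d : Fin 3 → ℝ) :
    wedge (∑ i, c i • α i) (∑ j, d j • β j) = ∑ i, ∑ j, c i * d j * wedge (α i) (β j) := by
  rw [wedge_sum_left]
  refine Finset.sum_congr rfl fun i _ => ?_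
  rw [wedge_sum_right]
  refine Finset.sum_congr rfl fun j _ => ?_
  rw [wedge_smul_left, wedge_smul_right]
  ring

theorem posDef_iff (α : Fin 3 → Form2) :
    (Matrix.of fun i j => wedge (α i) (α j)).PosDef ↔ Def3 α := by
  rw [Matrix.posDef_iff_dotProduct_mulVec]
  have key : ∀ c : Fin 3 → ℝ, star c ⬝ᵥ ((Matrix.of fun i j => wedge (α i) (α j)).mulVec c)
      = wedge (∑ i, c i • α i) (∑ i, c i • α i) := by
    intro c
    rw [wedge_comb]
    simp only [dotProduct, Matrix.mulVec, Matrix.of_apply, Finset.mul_sum]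
    refine Finset.sum_congr rfl fun i _ => Finset.sum_congr rfl fun j _ => ?_
    have : (star c) i = c i := rfl
    rw [this]; ring
  constructor
  · intro h c hc
    rw [← key]
    exact h.2 hc
  · intro h
    refine ⟨?_, fun c hc => ?_⟩
    · ext i j
      simp only [Matrix.conjTranspose_apply, Matrix.of_apply, star_trivial]
      exact wedge_comm _ _
    · rw [key]
      exact h c hc

theorem isHypersymplectic_iff (w : Fin 3 → Form 2) :
    IsHypersymplectic w ↔ (∀ i, SPC (w i)) ∧ ∀ x, Def3 (fun i => w i x) := by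
  constructor
  · intro h
    exact ⟨fun i => ⟨h.torus i, h.closed i⟩, fun x => (posDef_iff _).1 (h.posDef x)⟩
  · intro h
    exact ⟨fun i => (h.1 i).1, fun i => (h.1 i).2, fun x => (posDef_iff _).2 (h.2 x)⟩

theorem IsHypersymplectic.spc {w : Fin 3 → Form 2} (h : IsHypersymplectic w) (i : Fin 3) :
    SPC (w i) := ((isHypersymplectic_iff w).1 h).1 i

theorem IsHypersymplectic.def3 {w : Fin 3 → Form 2} (h : IsHypersymplectic w) (x : R4) :
    Def3 (fun i => w i x) := ((isHypersymplectic_iff w).1 h).2 x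

theorem cohomologous_iff (u v : Form 2) :
    Cohomologous u v ↔ Exact (fun x => u x - v x) := Iff.rfl

theorem Cohomologous.refl (u : Form 2) : Cohomologous u u := by
  rw [cohomologous_iff]
  exact Exact.zero.congr fun x => sub_self _

theorem Cohomologous.symm {u v : Form 2} (h : Cohomologous u v) : Cohomologous v u := by
  rw [cohomologous_iff] at h ⊢
  exact (h.smul (-1)).congr fun x => by module

theorem Cohomologous.trans {u v w : Form 2} (h : Cohomologous u v) (h' : Cohomologous v w) :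
    Cohomologous u w := by
  rw [cohomologous_iff] at h h' ⊢
  exact (h.add h').congr fun x => by module

theorem Cohomologous.mean_eq {u v : Form 2} (h : Cohomologous u v) (hu : SP u) (hv : SP v) :
    mean u = mean v := by
  have h1 := mean_exact ((cohomologous_iff _ _).1 h)
  rw [mean_sub hu hv, sub_eq_zero] at h1
  exact h1

theorem cohomologous_of_mean {u v : Form 2} (hu : SPC u) (hv : SPC v)
    (h : mean u = mean v) : Cohomologous u v := by
  rw [cohomologous_iff]
  have h1 := (sub_mean_exact hu).sub (sub_mean_exact hv)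
  exact h1.congr fun x => by rw [h]; module

/-- `w` and `w'` are joined by a smooth path of cohomologous hypersymplectic structures -/
def Joined3 (w w' : Fin 3 → Form 2) : Prop :=
  ∃ γ : ℝ → Fin 3 → Form 2, (∀ i, ContDiff ℝ ∞ fun p : ℝ × R4 => γ p.1 i p.2) ∧
    (∀ t ≤ 0, γ t = w) ∧ (∀ t, 1 ≤ t → γ t = w') ∧ (∀ t, IsHypersymplectic (γ t)) ∧
    ∀ t i, Cohomologous (γ t i) (w i)

theorem Joined3.symm {w w' : Fin 3 → Form 2} (h : Joined3 w w') : Joined3 w' w := by
  obtain ⟨γ, h1, h2, h3, h4, h5⟩ := h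
  refine ⟨fun t => γ (1 - t), fun i => ?_, fun t ht => h3 _ (by linarith),
    fun t ht => h2 _ (by linarith), fun t => h4 _, fun t i => ?_⟩
  · exact (h1 i).comp ((contDiff_const.sub contDiff_fst).prodMk contDiff_snd)
  · have h6 : Cohomologous (w' i) (w i) := by
      have := h5 1 i
      rwa [h3 1 le_rfl] at this
    exact (h5 _ i).trans h6.symm

theorem Joined3.trans {w w' w'' : Fin 3 → Form 2} (h : Joined3 w w') (h' : Joined3 w' w'') :
    Joined3 w w'' := by
  obtain ⟨γ, h1, h2, h3, h4, h5⟩ := h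
  obtain ⟨δ, k1, k2, k3, k4, k5⟩ := h'
  have h6 : ∀ i, Cohomologous (w' i) (w i) := fun i => by
    have := h5 1 i
    rwa [h3 1 le_rfl] at this
  set η : ℝ → Fin 3 → Form 2 := fun t i x =>
    γ (4 * t) i x + δ (4 * t - 3) i x - w' i x with hη
  have e1 : ∀ t ≤ (3 / 4 : ℝ), η t = γ (4 * t) := by
    intro t ht
    funext i x
    simp only [hη]
    rw [k2 (4 * t - 3) (by linarith)]
    abel
  have e2 : ∀ t, (1 / 4 : ℝ) ≤ t → η t = δ (4 * t - 3) := by
    intro t ht
    funext i x
    simp only [hη]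
    rw [h3 (4 * t) (by linarith only [ht])]
    abel
  have sw' : ∀ i, ContDiff ℝ ∞ (w' i) := fun i => by
    have := ((h4 1).spc i).1.1
    rwa [h3 1 le_rfl] at this
  refine ⟨η, fun i => ?_, fun t ht => ?_, fun t ht => ?_, fun t => ?_, fun t i => ?_⟩
  · simp only [hη]
    refine ContDiff.sub (ContDiff.add ?_ ?_) ?_
    · exact (h1 i).comp ((contDiff_const.mul contDiff_fst).prodMk contDiff_snd)
    · exact (k1 i).comp (((contDiff_const.mul contDiff_fst).sub contDiff_const).prodMk
        contDiff_snd)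
    · exact (sw' i).comp contDiff_snd
  · rw [e1 t (by linarith only [ht]), h2 _ (by linarith)]
  · rw [e2 t (by linarith), k3 _ (by linarith)]
  · rcases le_total t (1 / 2) with ht | ht
    · rw [e1 t (by linarith)]; exact h4 _
    · rw [e2 t (by linarith)]; exact k4 _
  · rcases le_total t (1 / 2) with ht | ht
    · rw [e1 t (by linarith)]; exact h5 _ i
    · rw [e2 t (by linarith only [ht])]; exact (k5 _ i).trans (h6 i)

/-- linear segments -/
theorem joined3_segment {w w' : Fin 3 → Form 2} (h : ∀ i, SPC (w i)) (h' : ∀ i, SPC (w' i))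
    (hc : ∀ i, Cohomologous (w' i) (w i))
    (hpos : ∀ t ∈ Icc (0 : ℝ) 1, ∀ x, Def3 (fun i => (1 - t) • w i x + t • w' i x)) :
    Joined3 w w' := by
  have hσ : ∀ t, Real.smoothTransition t ∈ Icc (0 : ℝ) 1 := fun t =>
    ⟨Real.smoothTransition.nonneg t, Real.smoothTransition.le_one t⟩
  refine ⟨fun t i x => (1 - Real.smoothTransition t) • w i x + Real.smoothTransition t • w' i x,
    fun i => ?_, fun t ht => ?_, fun t ht => ?_, fun t => ?_, fun t i => ?_⟩
  · have hs : ContDiff ℝ ∞ fun p : ℝ × R4 => Real.smoothTransition p.1 :=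
      Real.smoothTransition.contDiff.comp contDiff_fst
    exact ((contDiff_const.sub hs).smul ((h i).1.1.comp contDiff_snd)).add
      (hs.smul ((h' i).1.1.comp contDiff_snd))
  · funext i x
    simp [Real.smoothTransition.zero_of_nonpos ht]
  · funext i x
    simp only [Real.smoothTransition.one_of_one_le ht, sub_self, zero_smul, one_smul, zero_add]
  · rw [isHypersymplectic_iff]
    exact ⟨fun i => ((h i).smul _).add ((h' i).smul _), hpos _ (hσ t)⟩
  · rw [cohomologous_iff]
    refine (((cohomologous_iff _ _).1 (hc i)).smul (Real.smoothTransition t)).congr fun x => ?_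
    module

theorem Joined3.isHypersymplectic_left {w w' : Fin 3 → Form 2} (h : Joined3 w w') :
    IsHypersymplectic w := by
  obtain ⟨γ, h1, h2, h3, h4, h5⟩ := h
  rw [← h2 0 le_rfl]; exact h4 0

theorem Joined3.isHypersymplectic_right {w w' : Fin 3 → Form 2} (h : Joined3 w w') :
    IsHypersymplectic w' := h.symm.isHypersymplectic_left

theorem Joined3.deformation {w w' : Fin 3 → Form 2} (h : Joined3 w w') :
    ∃ γ, IsCohomologousDeformation w γ ∧ γ 1 = w' := by
  obtain ⟨γ, h1, h2, h3, h4, h5⟩ := h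
  exact ⟨γ, ⟨h1, h2 0 le_rfl, fun t _ => h4 t, fun t _ i => h5 t i⟩, h3 1 le_rfl⟩

/-- linear recombination of a triple -/
def act (A : Matrix (Fin 3) (Fin 3) ℝ) (w : Fin 3 → Form 2) : Fin 3 → Form 2 :=
  fun i x => ∑ j, A i j • w j x

theorem act_act (A B : Matrix (Fin 3) (Fin 3) ℝ) (w : Fin 3 → Form 2) :
    act A (act B w) = act (A * B) w := by
  funext i x
  simp only [act, Matrix.mul_apply, Finset.smul_sum, Finset.sum_smul, smul_smul]
  rw [Finset.sum_comm]

theorem act_one (w : Fin 3 → Form 2) : act 1 w = w := by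
  funext i x
  simp [act, Matrix.one_apply]

theorem def3_act {A A' : Matrix (Fin 3) (Fin 3) ℝ} (hA : A' * A = 1) {α : Fin 3 → Form2}
    (h : Def3 α) : Def3 (fun i => ∑ j, A i j • α j) := by
  intro c hc
  have h1 : ∑ i, c i • ∑ j, A i j • α j = ∑ j, (Matrix.vecMul c A) j • α j := by
    simp only [Matrix.vecMul, dotProduct, Finset.smul_sum, Finset.sum_smul, smul_smul]
    rw [Finset.sum_comm]
  rw [h1]
  refine h _ fun h0 => hc ?_
  have hA2 : A * A' = 1 := mul_eq_one_comm.1 hA
  have h2 : Matrix.vecMul (Matrix.vecMul c A) A' = c := by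
    rw [Matrix.vecMul_vecMul, hA2, Matrix.vecMul_one]
  rw [← h2, h0, Matrix.zero_vecMul]

theorem spc_act {A : Matrix (Fin 3) (Fin 3) ℝ} {w : Fin 3 → Form 2} (h : ∀ i, SPC (w i))
    (i : Fin 3) : SPC (act A w i) :=
  SPC.sum (f := fun j x => A i j • w j x) fun j _ => (h j).smul _

theorem isHypersymplectic_act {A A' : Matrix (Fin 3) (Fin 3) ℝ} (hA : A' * A = 1)
    {w : Fin 3 → Form 2} (h : IsHypersymplectic w) : IsHypersymplectic (act A w) := by
  rw [isHypersymplectic_iff]
  exact ⟨spc_act h.spc, fun x => def3_act hA (h.def3 x)⟩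

theorem Joined3.act {A A' : Matrix (Fin 3) (Fin 3) ℝ} (hA : A' * A = 1)
    {w w' : Fin 3 → Form 2} (h : Joined3 w w') :
    Joined3 (Vale.Agent.P247.act A w) (Vale.Agent.P247.act A w') := by
  obtain ⟨γ, h1, h2, h3, h4, h5⟩ := h
  refine ⟨fun t => Vale.Agent.P247.act A (γ t), fun i => ?_, fun t ht => by
    simp only [h2 t ht], fun t ht => by simp only [h3 t ht],
    fun t => isHypersymplectic_act hA (h4 t), fun t i => ?_⟩
  · simp only [Vale.Agent.P247.act]
    exact ContDiff.sum fun j _ => (contDiff_const (c := A i j)).smul (h1 j)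
  · rw [cohomologous_iff]
    refine (Exact.sum (s := Finset.univ)
      (f := fun j x => A i j • (γ t j x - w j x)) fun j _ =>
        ((cohomologous_iff _ _).1 (h5 t j)).smul (A i j)).congr
      fun x => ?_
    simp only [Vale.Agent.P247.act, smul_sub, Finset.sum_sub_distrib]

end Vale.Agent.P247
end
end

section

section

open MeasureTheory Set Filter Topology
open scoped ContDiff

namespace Vale.Agent.P247

/-- explicit form of definiteness of a triple in coordinates -/
def Def3c (u v f : V6) : Prop :=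
  ∀ a b c : ℝ, (a ≠ 0 ∨ b ≠ 0 ∨ c ≠ 0) → 0 < B (a • u + b • v + c • f) (a • u + b • v + c • f)

theorem def3_iff_def3c (α : Fin 3 → Form2) :
    Def3 α ↔ Def3c (coord (α 0)) (coord (α 1)) (coord (α 2)) := by
  have key : ∀ c : Fin 3 → ℝ, wedge (∑ i, c i • α i) (∑ i, c i • α i) =
      B (c 0 • coord (α 0) + c 1 • coord (α 1) + c 2 • coord (α 2))
        (c 0 • coord (α 0) + c 1 • coord (α 1) + c 2 • coord (α 2)) := by
    intro c
    rw [wedge_eq_B, Fin.sum_univ_three, coord_add, coord_add, coord_smul, coord_smul, coord_smul]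
  constructor
  · intro h a b c habc
    have := h ![a, b, c] (fun h0 => by
      have e0 := congrFun h0 0
      have e1 := congrFun h0 1
      have e2 := congrFun h0 2
      simp at e0 e1 e2
      rcases habc with h | h | h
      · exact h e0
      · exact h e1
      · exact h e2)
    rw [key] at this
    simpa using this
  · intro h c hc
    rw [key]
    refine h _ _ _ ?_
    by_contra hcon
    push Not at hcon
    apply hc
    funext i
    fin_cases i
    · exact hcon.1
    · exact hcon.2.1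
    · exact hcon.2.2

theorem Def3c.pairPos {u v f : V6} (h : Def3c u v f) : PairPos u v := by
  have h1 : 0 < B u u := by
    have := h 1 0 0 (Or.inl one_ne_zero)
    simpa using this
  refine ⟨h1, ?_⟩
  have h2 := h (-B u v) (B u u) 0 (Or.inr (Or.inl h1.ne'))
  have h3 : B (-B u v • u + B u u • v + (0 : ℝ) • f) (-B u v • u + B u u • v + (0 : ℝ) • f)
      = B u u * gd u v := by
    simp only [B_add_left, B_add_right, B_smul_left, B_smul_right, B_comm v u, gd]
    ring
  rw [h3] at h2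
  exact (pos_iff_pos_of_mul_pos h2).mp h1

theorem Dl_decomp {u v : V6} (f : V6) {z : V6}
    (hz : z = gd u v • f - (B v v * B f u - B u v * B f v) • u
      - (B u u * B f v - B u v * B f u) • v) :
    B z u = 0 ∧ B z v = 0 ∧ B z z = gd u v * Dl u v f := by
  refine ⟨?_, ?_, ?_⟩
  · rw [hz]; simp only [B_sub_left, B_smul_left, gd, B_comm v u]; ring
  · rw [hz]; simp only [B_sub_left, B_smul_left, gd]; ring
  · rw [hz]
    simp only [B_sub_left, B_sub_right, B_smul_left, B_smul_right, gd, Dl, DB, B_comm v u,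
      B_comm u f, B_comm v f]
    ring

theorem Def3c.dl {u v f : V6} (h : Def3c u v f) : 0 < Dl u v f := by
  have hg := h.pairPos.det
  obtain ⟨z, hz⟩ : ∃ z, z = gd u v • f - (B v v * B f u - B u v * B f v) • u
      - (B u u * B f v - B u v * B f u) • v := ⟨_, rfl⟩
  obtain ⟨-, -, h3⟩ := Dl_decomp f hz
  have h4 := h (-(B v v * B f u - B u v * B f v)) (-(B u u * B f v - B u v * B f u)) (gd u v)
    (Or.inr (Or.inr hg.ne'))
  have h5 : -(B v v * B f u - B u v * B f v) • u + -(B u u * B f v - B u v * B f u) • v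
      + gd u v • f = z := by rw [hz]; module
  rw [h5, h3] at h4
  exact (pos_iff_pos_of_mul_pos h4).mp hg

theorem def3c_of {u v f : V6} (h : PairPos u v) (hf : 0 < Dl u v f) : Def3c u v f := by
  intro a b c habc
  have hg := h.det
  obtain ⟨z, hz⟩ : ∃ z, z = gd u v • f - (B v v * B f u - B u v * B f v) • u
      - (B u u * B f v - B u v * B f u) • v := ⟨_, rfl⟩
  obtain ⟨h1, h2, h3⟩ := Dl_decomp f hz
  by_cases hc : c = 0
  · subst hc
    have hab : a ≠ 0 ∨ b ≠ 0 := by
      rcases habc with h | h | h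
      · exact Or.inl h
      · exact Or.inr h
      · exact absurd rfl h
    have := h.comb_pos hab
    simpa using this
  · set p := a * gd u v + c * (B v v * B f u - B u v * B f v) with hp
    set q := b * gd u v + c * (B u u * B f v - B u v * B f u) with hq
    have e1 : gd u v • (a • u + b • v + c • f) = (p • u + q • v) + c • z := by
      rw [hz, hp, hq]; module
    have e2 : gd u v ^ 2 * B (a • u + b • v + c • f) (a • u + b • v + c • f)
        = B (p • u + q • v) (p • u + q • v) + c ^ 2 * B z z := by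
      have : B (gd u v • (a • u + b • v + c • f)) (gd u v • (a • u + b • v + c • f))
        = B ((p • u + q • v) + c • z) ((p • u + q • v) + c • z) := by rw [e1]
      rw [B_smul_left, B_smul_right] at this
      have e3 : B ((p • u + q • v) + c • z) ((p • u + q • v) + c • z) =
          B (p • u + q • v) (p • u + q • v) + c ^ 2 * B z z := by
        generalize hX : p • u + q • v = X
        have e4 : B X z = 0 := by
          rw [B_comm, ← hX, B_add_right, B_smul_right, B_smul_right, h1, h2]; ring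
        rw [B_add_left, B_add_right, B_add_right, B_smul_left, B_smul_left, B_smul_right,
          B_smul_right, B_comm z X, e4]
        ring
      rw [e3] at this
      linarith only [this]
    have e5 : 0 ≤ B (p • u + q • v) (p • u + q • v) := by
      by_cases hpq : p ≠ 0 ∨ q ≠ 0
      · exact (h.comb_pos hpq).le
      · push Not at hpq
        rw [hpq.1, hpq.2]
        simp
    have e6 : 0 < c ^ 2 * B z z := by
      rw [h3]; positivity
    have e7 : 0 < gd u v ^ 2 * B (a • u + b • v + c • f) (a • u + b • v + c • f) := by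
      rw [e2]; linarith only [e5, e6]
    exact (pos_iff_pos_of_mul_pos e7).mp (by positivity)

theorem def3c_iff {u v f : V6} : Def3c u v f ↔ PairPos u v ∧ 0 < Dl u v f :=
  ⟨fun h => ⟨h.pairPos, h.dl⟩, fun h => def3c_of h.1 h.2⟩

theorem def3_iff (α : Fin 3 → Form2) : Def3 α ↔
    PairPos (coord (α 0)) (coord (α 1)) ∧
      0 < Dl (coord (α 0)) (coord (α 1)) (coord (α 2)) := by
  rw [def3_iff_def3c, def3c_iff]

/-- the Gram form on the orthogonal complement of `u` -/
def G (u a b : V6) : ℝ := B a b * B u u - B a u * B b u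

theorem G_ne_zero {u a b : V6} (hu : u 5 = 0) (ha : a 5 = 0) (hb : b 5 = 0)
    (h : PairPos u a) (h' : PairPos u b) : G u a b ≠ 0 := by
  intro h0
  have h1 := Dl_nonpos hu ha h hb
  have h2 : B u u * Dl u a b = gd u a * gd u b - G u a b ^ 2 := by
    simp only [Dl, DB, gd, G, B_comm b u, B_comm b a, B_comm a u]
    ring
  rw [h0] at h2
  have h3 := mul_pos h.det h'.det
  have h4 : B u u * Dl u a b ≤ 0 := mul_nonpos_of_nonneg_of_nonpos h.pos.le h1
  linarith

theorem pairPos_segment {u a b : V6} (h : PairPos u a) (h' : PairPos u b) (hG : 0 < G u a b)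
    {s : ℝ} (hs : s ∈ Icc (0 : ℝ) 1) : PairPos u ((1 - s) • a + s • b) := by
  refine ⟨h.pos, ?_⟩
  have h1 : gd u ((1 - s) • a + s • b) =
      (1 - s) ^ 2 * gd u a + 2 * (s * (1 - s)) * G u a b + s ^ 2 * gd u b := by
    simp only [gd, G, B_add_left, B_add_right, B_smul_left, B_smul_right, B_comm a u, B_comm b u,
      B_comm b a]
    ring
  rw [h1]
  have h2 := h.det
  have h3 := h'.det
  have h4 : 0 ≤ s * (1 - s) := mul_nonneg hs.1 (by linarith [hs.2])
  have h5 : 0 ≤ 2 * (s * (1 - s)) * G u a b := by (clear * - h4 hG; positivity)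
  rcases eq_or_lt_of_le hs.1 with h6 | h6
  · rw [← h6]; simpa using h2
  · have : 0 < s ^ 2 * gd u b := by (clear * - h6 h3; positivity)
    have : 0 ≤ (1 - s) ^ 2 * gd u a := by (clear * - h2; positivity)
    linarith

theorem B_pos_of_G_neg {u a b : V6} (h : PairPos u a) (h' : PairPos u b) (hG : G u a b < 0) :
    0 < B (a - b) (a - b) := by
  have h1 : B (a - b) (a - b) * B u u = gd u a + gd u b - 2 * G u a b + B (a - b) u ^ 2 := by
    simp only [gd, G, B_sub_left, B_sub_right, B_comm a u, B_comm b u, B_comm b a]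
    ring
  have h2 := h.det
  have h3 := h'.det
  have h4 : 0 < B (a - b) (a - b) * B u u := by
    rw [h1]; nlinarith only [hG, h2, h3]
  exact (pos_iff_pos_of_mul_pos h4).mpr h.pos

end Vale.Agent.P247
end
end

section

section

open MeasureTheory Set Filter Topology
open scoped ContDiff

namespace Vale.Agent.P247

/-- a continuous nonvanishing function on `R4` has constant sign -/
theorem sign_const {g : R4 → ℝ} (hg : Continuous g) (h0 : ∀ x, g x ≠ 0) :
    (∀ x, 0 < g x) ∨ ∀ x, g x < 0 := by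
  by_contra hcon
  push Not at hcon
  obtain ⟨⟨x, hx⟩, ⟨y, hy⟩⟩ := hcon
  have hx' : g x < 0 := lt_of_le_of_ne hx (h0 x)
  have hy' : 0 < g y := lt_of_le_of_ne hy (h0 y).symm
  have hpre : IsPreconnected (range g) := isPreconnected_range hg
  have := hpre.Icc_subset (mem_range_self x) (mem_range_self y) ⟨hx'.le, hy'.le⟩
  obtain ⟨z, hz⟩ := this
  exact h0 z hz

/-- move a point to the unit cube -/
theorem exists_cube (x : R4) : ∃ n : Fin 4 → ℤ, x + iv n ∈ Icc (0 : R4) 1 := by
  refine ⟨fun i => -⌊x i⌋, fun i => ?_, fun i => ?_⟩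
  · simp only [Pi.zero_apply, Pi.add_apply, iv, Int.cast_neg]
    have := Int.floor_le (x i)
    linarith
  · simp only [Pi.one_apply, Pi.add_apply, iv, Int.cast_neg]
    have := Int.lt_floor_add_one (x i)
    linarith

theorem coord_comb (a b : ℝ) (α β : Form2) :
    coord (a • α + b • β) = a • coord α + b • coord β := by
  rw [coord_add, coord_smul, coord_smul]

section pair

variable {u v v' : Form 2}

theorem G_pos (hu : SPC u) (hv : SPC v) (hv' : SPC v') (hu5 : ∀ x, coord (u x) 5 = 0)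
    (hv5 : ∀ x, coord (v x) 5 = 0) (hv5' : ∀ x, coord (v' x) 5 = 0)
    (h : ∀ x, PairPos (coord (u x)) (coord (v x)))
    (h' : ∀ x, PairPos (coord (u x)) (coord (v' x))) (hc : Cohomologous v v') (x : R4) :
    0 < G (coord (u x)) (coord (v x)) (coord (v' x)) := by
  have hg : Continuous fun x => G (coord (u x)) (coord (v x)) (coord (v' x)) := by
    have e1 : (fun x => G (coord (u x)) (coord (v x)) (coord (v' x))) = fun x =>
      wedge (v x) (v' x) * wedge (u x) (u x) - wedge (v x) (u x) * wedge (v' x) (u x) := rfl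
    rw [e1]
    exact (((hv.1.wedge hv'.1).mul (hu.1.wedge hu.1)).sub
      ((hv.1.wedge hu.1).mul (hv'.1.wedge hu.1))).continuous
  have h0 : ∀ x, G (coord (u x)) (coord (v x)) (coord (v' x)) ≠ 0 := fun x =>
    G_ne_zero (hu5 x) (hv5 x) (hv5' x) (h x) (h' x)
  rcases sign_const hg h0 with h1 | h1
  · exact h1 x
  · exfalso
    have h2 : Exact fun x => v x - v' x := (cohomologous_iff _ _).1 hc
    have h3 := mean_wedge_exact h2 (hv.sub hv')
    have h4 : 0 < mean (fun x => wedge (v x - v' x) (v x - v' x)) := by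
      refine mean_pos ((hv.1.sub hv'.1).wedge (hv.1.sub hv'.1)) fun x => ?_
      have := B_pos_of_G_neg (h x) (h' x) (h1 x)
      rw [wedge_eq_B, coord_sub]
      exact this
    rw [h3] at h4
    exact lt_irrefl _ h4

end pair

/-- the taming statement -/
def Taming : Prop := ∀ (u v : Form 2), SPC u → SPC v → (∀ x, coord (u x) 5 = 0) →
  (∀ x, coord (v x) 5 = 0) → (∀ x, PairPos (coord (u x)) (coord (v x))) →
  ∀ κ : Form2, coord κ ∈ Cone (coord (mean u)) (coord (mean v)) →
  ∃ f : Form 2, SPC f ∧ mean f = κ ∧ ∀ x, coord (f x) ∈ Cone (coord (u x)) (coord (v x))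

/-- the fibre of admissible third forms -/
def Fib (κ : Form2) (u v : Form 2) : Set (Form 2) :=
  {f | SPC f ∧ mean f = κ ∧ ∀ x, coord (f x) ∈ Cone (coord (u x)) (coord (v x))}

/-- triple notation -/
def tri (u v f : Form 2) : Fin 3 → Form 2 := ![u, v, f]

theorem def3_of_cone {α : Fin 3 → Form2} (h : PairPos (coord (α 0)) (coord (α 1)))
    (hf : coord (α 2) ∈ Cone (coord (α 0)) (coord (α 1))) : Def3 α :=
  (def3_iff α).2 ⟨h, hf.2⟩

theorem forall_fin3 {P : Fin 3 → Prop} (h0 : P 0) (h1 : P 1) (h2 : P 2) : ∀ i, P i := by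
  intro i
  fin_cases i
  · exact h0
  · exact h1
  · exact h2

theorem joined_third {κ : Form2} {u v f f' : Form 2} (hu : SPC u) (hv : SPC v)
    (hu5 : ∀ x, coord (u x) 5 = 0) (hv5 : ∀ x, coord (v x) 5 = 0)
    (h : ∀ x, PairPos (coord (u x)) (coord (v x))) (hf : f ∈ Fib κ u v) (hf' : f' ∈ Fib κ u v) :
    Joined3 (tri u v f) (tri u v f') := by
  obtain ⟨h1, h2, h3⟩ := hf
  obtain ⟨k1, k2, k3⟩ := hf'
  refine joined3_segment (forall_fin3 hu hv h1) (forall_fin3 hu hv k1)
    (forall_fin3 (Cohomologous.refl _) (Cohomologous.refl _)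
      (cohomologous_of_mean k1 h1 (k2.trans h2.symm))) fun t ht x => ?_
  have e0 : (1 - t) • u x + t • u x = u x := by module
  have e1 : (1 - t) • v x + t • v x = v x := by module
  refine def3_of_cone ?_ ?_
  · change PairPos (coord ((1 - t) • u x + t • u x)) (coord ((1 - t) • v x + t • v x))
    rw [e0, e1]
    exact h x
  · change coord ((1 - t) • f x + t • f' x) ∈ Cone (coord ((1 - t) • u x + t • u x))
      (coord ((1 - t) • v x + t • v x))
    rw [e0, e1, coord_comb]
    exact convex_cone (hu5 x) (hv5 x) (h x) (h3 x) (k3 x) (by linarith only [ht.2]) ht.1 (by ring)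

theorem fib_open {κ : Form2} {u v v' f : Form 2} (hu : SPC u) (hv : SPC v) (hv' : SPC v')
    {s : ℝ} (hf : f ∈ Fib κ u (fun x => (1 - s) • v x + s • v' x)) :
    ∀ᶠ s' in 𝓝 s, f ∈ Fib κ u (fun x => (1 - s') • v x + s' • v' x) := by
  obtain ⟨h1, h2, h3⟩ := hf
  have cu : Continuous fun x => coord (u x) := hu.1.coord.continuous
  have cv : Continuous fun x => coord (v x) := hv.1.coord.continuous
  have cv' : Continuous fun x => coord (v' x) := hv'.1.coord.continuous
  have cf : Continuous fun x => coord (f x) := h1.1.coord.continuous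
  have cB : ∀ {p q : ℝ × R4 → V6}, Continuous p → Continuous q →
      Continuous fun z => B (p z) (q z) := by
    intro p q hp hq
    simp only [B]
    fun_prop
  set V : ℝ × R4 → V6 := fun z => (1 - z.1) • coord (v z.2) + z.1 • coord (v' z.2) with hV
  have cV : Continuous V := ((continuous_const.sub continuous_fst).smul
    (cv.comp continuous_snd)).add (continuous_fst.smul (cv'.comp continuous_snd))
  have cU : Continuous fun z : ℝ × R4 => coord (u z.2) := cu.comp continuous_snd
  have cF : Continuous fun z : ℝ × R4 => coord (f z.2) := cf.comp continuous_snd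
  have cD : Continuous fun z : ℝ × R4 => Dl (coord (u z.2)) (V z) (coord (f z.2)) := by
    simp only [Dl, DB, gd]
    have a1 := cB cU cU
    have a2 := cB cU cV
    have a3 := cB cV cV
    have a4 := cB cF cF
    have a5 := cB cF cU
    have a6 := cB cF cV
    fun_prop
  have hK : IsCompact (Icc (0 : R4) 1) := isCompact_Icc
  have hev := hK.eventually_forall_of_forall_eventually (x₀ := s)
    (P := fun s' x => 0 < Dl (coord (u x)) (V (s', x)) (coord (f x))) (fun x _ => by
      have h4 := (h3 x).2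
      have h5 : 0 < Dl (coord (u x)) (V (s, x)) (coord (f x)) := by
        simpa only [hV, coord_comb] using h4
      exact (isOpen_lt continuous_const cD).mem_nhds h5)
  filter_upwards [hev] with s' hs'
  refine ⟨h1, h2, fun x => ⟨(h3 x).1, ?_⟩⟩
  obtain ⟨n, hn⟩ := exists_cube x
  have h6 := hs' _ hn
  simp only [hV, hu.1.per, hv.1.per, hv'.1.per, h1.1.per] at h6
  rw [coord_comb]
  exact h6

theorem joined_second {κ : Form2} {u v v' f : Form 2} (hu : SPC u) (hv : SPC v) (hv' : SPC v')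
    (hc : Cohomologous v' v) (h : ∀ t ∈ Icc (0 : ℝ) 1, ∀ x,
      PairPos (coord (u x)) (coord ((1 - t) • v x + t • v' x)))
    (hf : ∀ t ∈ Icc (0 : ℝ) 1, f ∈ Fib κ u (fun x => (1 - t) • v x + t • v' x)) :
    Joined3 (tri u v f) (tri u v' f) := by
  have h1 := (hf 0 ⟨le_rfl, zero_le_one⟩).1
  refine joined3_segment (forall_fin3 hu hv h1) (forall_fin3 hu hv' h1)
    (forall_fin3 (Cohomologous.refl _) hc (Cohomologous.refl _)) fun t ht x => ?_
  have e0 : (1 - t) • u x + t • u x = u x := by module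
  have e1 : (1 - t) • f x + t • f x = f x := by module
  refine def3_of_cone ?_ ?_
  · change PairPos (coord ((1 - t) • u x + t • u x)) (coord ((1 - t) • v x + t • v' x))
    rw [e0]
    exact h t ht x
  · change coord ((1 - t) • f x + t • f x) ∈ Cone (coord ((1 - t) • u x + t • u x))
      (coord ((1 - t) • v x + t • v' x))
    rw [e0, e1]
    exact (hf t ht).2.2 x

theorem joined_pair (hT : Taming) {κ : Form2} {u v v' f f' : Form 2} (hu : SPC u) (hv : SPC v)
    (hv' : SPC v') (hu5 : ∀ x, coord (u x) 5 = 0) (hv5 : ∀ x, coord (v x) 5 = 0)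
    (hv5' : ∀ x, coord (v' x) 5 = 0) (hc : Cohomologous v v')
    (h : ∀ x, PairPos (coord (u x)) (coord (v x)))
    (h' : ∀ x, PairPos (coord (u x)) (coord (v' x)))
    (hκ : coord κ ∈ Cone (coord (mean u)) (coord (mean v)))
    (hf : f ∈ Fib κ u v) (hf' : f' ∈ Fib κ u v') : Joined3 (tri u v f) (tri u v' f') := by
  set W : ℝ → Form 2 := fun s x => (1 - s) • v x + s • v' x with hW
  have hW0 : W 0 = v := by funext x; simp [hW]
  have hW1 : W 1 = v' := by funext x; simp only [hW, sub_self, zero_smul, one_smul, zero_add]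
  have sW : ∀ s, SPC (W s) := fun s => (hv.smul _).add (hv'.smul _)
  have W5 : ∀ s x, coord (W s x) 5 = 0 := fun s x => by
    simp only [hW, coord_comb, Pi.add_apply, Pi.smul_apply, hv5, hv5', smul_zero, add_zero]
  have hG := G_pos hu hv hv' hu5 hv5 hv5' h h' hc
  have hP : ∀ s ∈ Icc (0 : ℝ) 1, ∀ x, PairPos (coord (u x)) (coord (W s x)) := by
    intro s hs x
    simp only [hW, coord_comb]
    exact pairPos_segment (h x) (h' x) (hG x) hs
  have hmv : mean v = mean v' := hc.mean_eq hv.1 hv'.1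
  have hWm : ∀ s, mean (W s) = mean v := fun s => by
    simp only [hW]
    rw [mean_add (hv.1.const_smul _) (hv'.1.const_smul _), mean_smul _ hv.1,
      mean_smul _ hv'.1, ← hmv]
    module
  have hne : ∀ s ∈ Icc (0 : ℝ) 1, (Fib κ u (W s)).Nonempty := by
    intro s hs
    obtain ⟨g, g1, g2, g3⟩ := hT u (W s) hu (sW s) hu5 (W5 s) (hP s hs) κ (by rw [hWm]; exact hκ)
    exact ⟨g, g1, g2, g3⟩
  have key : ∀ s ∈ Icc (0 : ℝ) 1, ∀ s' ∈ Icc (0 : ℝ) 1, ∀ f ∈ Fib κ u (W s),
      ∀ f' ∈ Fib κ u (W s'), Joined3 (tri u (W s) f) (tri u (W s') f') := by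
    intro s hs s' hs'
    refine (isPreconnected_Icc (a := (0 : ℝ)) (b := 1)).induction₂
      (fun s s' => ∀ f ∈ Fib κ u (W s), ∀ f' ∈ Fib κ u (W s'),
        Joined3 (tri u (W s) f) (tri u (W s') f')) ?_ ?_ ?_ hs hs'
    · intro s hs
      obtain ⟨g, hg⟩ := hne s hs
      have hev : ∀ᶠ s' in 𝓝 s, g ∈ Fib κ u (W s') := fib_open hu hv hv' hg
      obtain ⟨δ, hδ, hball⟩ := Metric.eventually_nhds_iff_ball.1 hev
      have hev2 : ∀ᶠ s' in 𝓝[Icc (0 : ℝ) 1] s, s' ∈ Metric.ball s δ ∧ s' ∈ Icc (0 : ℝ) 1 :=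
        (show ∀ᶠ s' in 𝓝[Icc (0 : ℝ) 1] s, s' ∈ Metric.ball s δ from
          nhdsWithin_le_nhds (Metric.ball_mem_nhds s hδ)).and self_mem_nhdsWithin
      filter_upwards [hev2] with s' hs'
      intro f hf f' hf'
      have j1 := joined_third hu (sW s) hu5 (W5 s) (hP s hs) hf hg
      have j3 := joined_third hu (sW s') hu5 (W5 s') (hP s' hs'.2) (hball s' hs'.1) hf'
      have hWW : ∀ t : ℝ, (fun x => (1 - t) • W s x + t • W s' x) =
          W ((1 - t) * s + t * s') := by
        intro t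
        funext x
        simp only [hW]
        module
      have hmem : ∀ t ∈ Icc (0 : ℝ) 1, (1 - t) * s + t * s' ∈ Icc (0 : ℝ) 1 ∧
          (1 - t) * s + t * s' ∈ Metric.ball s δ := by
        intro t ht
        have c1 := convex_Icc (0 : ℝ) 1 hs hs'.2 (by linarith only [ht.2] : 0 ≤ 1 - t) ht.1 (by ring)
        have c2 := convex_ball s δ (Metric.mem_ball_self hδ) hs'.1
          (by linarith only [ht.2] : 0 ≤ 1 - t) ht.1 (by ring)
        exact ⟨c1, c2⟩
      have hcc : Cohomologous (W s') (W s) :=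
        cohomologous_of_mean (sW s') (sW s) (by rw [hWm, hWm])
      have j2 : Joined3 (tri u (W s) g) (tri u (W s') g) := by
        refine joined_second (κ := κ) hu (sW s) (sW s') hcc (fun t ht x => ?_) fun t ht => ?_
        · have := hP _ (hmem t ht).1 x
          rw [← hWW t] at this
          exact this
        · rw [hWW t]
          exact hball _ (hmem t ht).2
      exact (j1.trans j2).trans j3
    · intro x y z hx hy hz hxy hyz f hf f' hf'
      obtain ⟨g, hg⟩ := hne y hy
      exact (hxy f hf g hg).trans (hyz g hg f' hf')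
    · intro x y hx hy hxy f hf f' hf'
      exact (hxy f' hf' f hf).symm
  have := key 0 ⟨le_rfl, zero_le_one⟩ 1 ⟨zero_le_one, le_rfl⟩ f (by rw [hW0]; exact hf) f'
    (by rw [hW1]; exact hf')
  rwa [hW0, hW1] at this

end Vale.Agent.P247
end
end

section

section

open MeasureTheory Set Filter Topology
open scoped ContDiff

namespace Vale.Agent.P247

theorem Def3.wedge_pos {α : Fin 3 → Form2} (h : Def3 α) (i : Fin 3) :
    0 < wedge (α i) (α i) := by
  have h1 := h (Pi.single i 1) (by simp)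
  have h2 : ∑ j, (Pi.single i 1 : Fin 3 → ℝ) j • α j = α i := by
    rw [Finset.sum_eq_single i]
    · simp
    · intro j _ hj
      simp [hj]
    · simp
  rwa [h2] at h1

theorem mean_sum {ι : Type} {s : Finset ι} {f : ι → R4 → Form2} (hf : ∀ i ∈ s, SP (f i)) :
    mean (fun x => ∑ i ∈ s, f i x) = ∑ i ∈ s, mean (f i) := by
  classical
  induction s using Finset.induction_on with
  | empty => simp only [Finset.sum_empty]; exact mean_const 0
  | insert a s ha ih =>
    simp only [Finset.sum_insert ha]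
    rw [mean_add (hf a (Finset.mem_insert_self a s))
      (SP.sum fun i hi => hf i (Finset.mem_insert_of_mem hi)),
      ih fun i hi => hf i (Finset.mem_insert_of_mem hi)]

theorem mean_comb {w : Fin 3 → Form 2} (hw : ∀ i, SP (w i)) (c : Fin 3 → ℝ) :
    mean (fun x => ∑ i, c i • w i x) = ∑ i, c i • mean (w i) := by
  rw [mean_sum (f := fun i x => c i • w i x) fun i _ => (hw i).const_smul (c i)]
  exact Finset.sum_congr rfl fun i _ => mean_smul (c i) (hw i)

/-- the mean of a hypersymplectic triple is definite -/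
theorem def3_mean {w : Fin 3 → Form 2} (hw : IsHypersymplectic w) :
    Def3 (fun i => mean (w i)) := by
  intro c hc
  have hs : SPC (fun x => ∑ i, c i • w i x) :=
    SPC.sum (f := fun i x => c i • w i x) fun i _ => (hw.spc i).smul (c i)
  have h1 := mean_wedge hs hs
  rw [mean_comb (fun i => (hw.spc i).1)] at h1
  rw [← h1]
  exact mean_pos (hs.1.wedge hs.1) fun x => hw.def3 x c hc

theorem mean_coord {w : Form 2} (hw : SP w) (k : Fin 6) :
    coord (mean w) k = mean (fun x => coord (w x) k) := by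
  have h1 := mean_clm hw ((ContinuousLinearMap.proj k : V6 →L[ℝ] ℝ).comp coordL)
  have h2 : ∀ α : Form2, ((ContinuousLinearMap.proj k : V6 →L[ℝ] ℝ).comp coordL) α
      = coord α k := fun α => by
    rw [← coordL_apply]; rfl
  simp only [h2] at h1
  exact h1.symm

theorem mean_coord5_zero {w : Form 2} (hw : SP w) (h : ∀ x, coord (w x) 5 = 0) :
    coord (mean w) 5 = 0 := by
  rw [mean_coord hw]
  simp only [h]
  exact mean_const 0

theorem ne_zero5 {α : Fin 3 → Form2} (h : Def3 α) (h0 : coord (α 0) 5 = 0)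
    (h1 : coord (α 1) 5 = 0) : coord (α 2) 5 ≠ 0 := by
  intro h2
  have h3 := (def3_iff α).1 h
  have h4 := Dl_nonpos h0 h1 h3.1 h2
  linarith [h3.2]

theorem pos5 {w : Fin 3 → Form 2} (hw : IsHypersymplectic w)
    (h0 : ∀ x, coord (w 0 x) 5 = 0) (h1 : ∀ x, coord (w 1 x) 5 = 0)
    (h2 : 0 < coord (mean (w 2)) 5) (x : R4) : 0 < coord (w 2 x) 5 := by
  have hc : Continuous fun x => coord (w 2 x) 5 := ((hw.spc 2).1.coord.proj 5).continuous
  rcases sign_const hc (fun x => ne_zero5 (hw.def3 x) (h0 x) (h1 x)) with h | h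
  · exact h x
  · exfalso
    have h3 : 0 < mean (fun x => -coord (w 2 x) 5) :=
      mean_pos ((hw.spc 2).1.coord.proj 5).neg fun x => by linarith [h x]
    have h4 : mean (fun x => -coord (w 2 x) 5) = -coord (mean (w 2)) 5 := by
      rw [mean_coord (hw.spc 2).1]
      have := mean_smul (F := ℝ) (-1) ((hw.spc 2).1.coord.proj 5)
      simpa using this
    linarith

/-- the map `x ↦ x + U x` -/
def shiftBy (U : R4 → R4) : R4 → R4 := fun x => x + U x

theorem shiftBy_tmap {U : R4 → R4} (hU : SP U) :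
    TMap (shiftBy U) (ContinuousLinearMap.id ℝ R4) U :=
  ⟨hU, fun _ => rfl, fun n => ⟨n, rfl⟩⟩

theorem fderiv_shiftBy {U : R4 → R4} (hU : SP U) (x : R4) :
    fderiv ℝ (shiftBy U) x = jac U x := (shiftBy_tmap hU).fderiv_eq x

theorem compCLM_id (κ : Form2) :
    κ.compContinuousLinearMap (ContinuousLinearMap.id ℝ R4) = κ := by
  ext v; rfl

/-- the model triple with constant coefficients in the coframe given by `U` -/
noncomputable def modelTriple (U : R4 → R4) (κ : Fin 3 → Form2) : Fin 3 → Form 2 :=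
  fun i x => (κ i).compContinuousLinearMap (jac U x)

theorem modelTriple_eq {U : R4 → R4} (hU : SP U) (κ : Fin 3 → Form2) (i : Fin 3) :
    modelTriple U κ i = pbk (shiftBy U) (fun _ => κ i) := by
  funext x
  simp only [modelTriple, pbk, fderiv_shiftBy hU]

theorem modelTriple_spc {U : R4 → R4} (hU : SP U) (κ : Fin 3 → Form2) (i : Fin 3) :
    SPC (modelTriple U κ i) := by
  rw [modelTriple_eq hU]
  exact (shiftBy_tmap hU).spc_pbk (SPC.const _)

theorem modelTriple_mean {U : R4 → R4} (hU : SP U) (κ : Fin 3 → Form2) (i : Fin 3) :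
    mean (modelTriple U κ i) = κ i := by
  rw [modelTriple_eq hU, (shiftBy_tmap hU).mean_pbk (SPC.const _), mean_const, compCLM_id]

theorem def3_pull {α : Fin 3 → Form2} {P : R4 →L[ℝ] R4} (hα : Def3 α) (hP : 0 < P.det) :
    Def3 (fun i => (α i).compContinuousLinearMap P) := by
  intro c hc
  have h1 : ∑ i, c i • (α i).compContinuousLinearMap P =
      (∑ i, c i • α i).compContinuousLinearMap P := by
    rw [compCLM_sum]
    rfl
  rw [h1, wedge_pullback]
  exact mul_pos hP (hα c hc)

/-- coordinate version, with a sign normalisation -/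
theorem coord_version_pos (hT : Taming) {w : Fin 3 → Form 2} (hw : IsHypersymplectic w)
    (h0 : ∀ x, coord (w 0 x) 5 = 0) (h1 : ∀ x, coord (w 1 x) 5 = 0)
    (h2 : 0 < coord (mean (w 2)) 5) :
    ∃ U, SP U ∧ (∀ x, 0 < (jac U x).det) ∧ Joined3 w (modelTriple U (fun i => mean (w i))) := by
  obtain ⟨V, sV, bV0, bV1, hV⟩ := exists_coframe (hw.spc 0) h0 fun x => (hw.def3 x).wedge_pos 0
  set U := mkU V with hUdef
  have sU : SP U := SP.mkU sV
  set κ : Fin 3 → Form2 := fun i => mean (w i) with hκ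
  have dκ : Def3 κ := def3_mean hw
  have hdet : ∀ x, 0 < (jac U x).det := by
    intro x
    have e1 : 0 < wedge (w 0 x) (w 0 x) := (hw.def3 x).wedge_pos 0
    rw [hV x, wedge_pullback] at e1
    exact (pos_iff_pos_of_mul_pos e1).mpr (dκ.wedge_pos 0)
  set w' := modelTriple U κ with hw'
  have w'0 : w' 0 = w 0 := by
    funext x
    rw [hV x]
    rfl
  have hyp' : IsHypersymplectic w' := by
    rw [isHypersymplectic_iff]
    exact ⟨modelTriple_spc sU κ, fun x => def3_pull dκ (hdet x)⟩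
  have m5 : coord (κ 1) 5 = 0 := mean_coord5_zero (hw.spc 1).1 h1
  have w'1 : ∀ x, coord (w' 1 x) 5 = 0 := by
    intro x
    have e1 : coord (w' 1 x) 5 = comp ((κ 1).compContinuousLinearMap (jac U x)) 2 3 := rfl
    have m5' : comp (κ 1) 2 3 = 0 := m5
    have z : ∀ i : Fin 4, (i = 0 ∨ i = 1) → ∀ j : Fin 4, (j = 2 ∨ j = 3) →
        (jac U x (e j)) i = 0 := by
      intro i hi j hj
      have hb : Basic (V i) := by rcases hi with rfl | rfl; exacts [bV0, bV1]
      have hij : i ≠ j := by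
        rcases hi with rfl | rfl <;> rcases hj with rfl | rfl <;> decide
      rw [hUdef, jac_mkU sV, if_neg hij, zero_add]
      rcases hj with rfl | rfl
      · exact hb.pd_two (sV i) x
      · exact hb.pd_three (sV i) x
    rw [e1, pullback_comp', m5', z 0 (Or.inl rfl) 2 (Or.inl rfl),
      z 0 (Or.inl rfl) 3 (Or.inr rfl), z 1 (Or.inr rfl) 2 (Or.inl rfl),
      z 1 (Or.inr rfl) 3 (Or.inr rfl)]
    ring
  have w'0' : ∀ x, coord (w' 0 x) 5 = 0 := fun x => by rw [w'0]; exact h0 x
  have hm : ∀ i, mean (w' i) = κ i := modelTriple_mean sU κ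
  have p2 : ∀ x, 0 < coord (w 2 x) 5 := pos5 hw h0 h1 h2
  have p2' : ∀ x, 0 < coord (w' 2 x) 5 := pos5 hyp' w'0' w'1 (by rw [hm]; exact h2)
  have d := fun x => (def3_iff _).1 (hw.def3 x)
  have d' := fun x => (def3_iff _).1 (hyp'.def3 x)
  have dm := (def3_iff _).1 dκ
  have e1 : w = tri (w 0) (w 1) (w 2) := by
    funext i; fin_cases i <;> rfl
  have e2 : w' = tri (w 0) (w' 1) (w' 2) := by
    funext i
    fin_cases i
    · exact w'0
    · rfl
    · rfl
  refine ⟨U, sU, hdet, ?_⟩
  change Joined3 w w'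
  rw [e2, e1]
  refine joined_pair hT (κ := κ 2) (hw.spc 0) (hw.spc 1) (hyp'.spc 1) h0 h1 w'1
    (cohomologous_of_mean (hw.spc 1) (hyp'.spc 1) (hm 1).symm) (fun x => (d x).1)
    (fun x => ?_) ⟨h2, dm.2⟩ ⟨hw.spc 2, rfl, fun x => ⟨p2 x, (d x).2⟩⟩
    ⟨hyp'.spc 2, hm 2, fun x => ⟨p2' x, ?_⟩⟩
  · have := (d' x).1
    rw [w'0] at this
    exact this
  · have := (d' x).2
    rw [w'0] at this
    exact this

/-- the sign change of the third form -/
def sgnM : Matrix (Fin 3) (Fin 3) ℝ := Matrix.diagonal ![1, 1, -1]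

theorem sgnM_mul : sgnM * sgnM = 1 := by
  rw [sgnM, Matrix.diagonal_mul_diagonal]
  have : (fun i => (![1, 1, -1] : Fin 3 → ℝ) i * (![1, 1, -1] : Fin 3 → ℝ) i) = fun _ => 1 := by
    funext i; fin_cases i <;> simp
  rw [this, Matrix.diagonal_one]

theorem modelTriple_act (U : R4 → R4) (κ : Fin 3 → Form2) (A : Matrix (Fin 3) (Fin 3) ℝ) :
    act A (modelTriple U κ) = modelTriple U (fun i => ∑ j, A i j • κ j) := by
  funext i x
  simp only [act, modelTriple, compCLM_sum]
  rfl

theorem mean_act {w : Fin 3 → Form 2} (hw : ∀ i, SP (w i)) (A : Matrix (Fin 3) (Fin 3) ℝ)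
    (i : Fin 3) : mean (act A w i) = ∑ j, A i j • mean (w j) :=
  mean_comb hw (fun j => A i j)

theorem act_sgnM (w : Fin 3 → Form 2) : act sgnM w = tri (w 0) (w 1) (fun x => -w 2 x) := by
  funext i x
  fin_cases i
  · simp only [act, sgnM, Matrix.diagonal, Fin.zero_eta, Fin.isValue, Matrix.of_apply, Matrix.cons_val_zero, ite_smul, one_smul, zero_smul, Finset.sum_ite_eq, Finset.mem_univ, ↓reduceIte, tri, Matrix.cons_val', Matrix.cons_val_fin_one]
  · simp [act, sgnM, Matrix.diagonal, tri]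
  · simp only [act, sgnM, Matrix.diagonal, tri, Matrix.of_apply, Fin.sum_univ_three]
    simp only [Fin.reduceFinMk, Fin.isValue, Fin.reduceEq, ↓reduceIte, zero_smul, add_zero, Matrix.cons_val, zero_add, Matrix.cons_val', Matrix.cons_val_fin_one, Matrix.cons_val_one]
    module

/-- apply a joining result after a linear recombination -/
theorem joined_of_act {A A' : Matrix (Fin 3) (Fin 3) ℝ} (hA : A' * A = 1) {w : Fin 3 → Form 2}
    (hw : ∀ i, SP (w i)) {U : R4 → R4}
    (h : Joined3 (act A w) (modelTriple U (fun i => mean (act A w i)))) :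
    Joined3 w (modelTriple U (fun i => mean (w i))) := by
  have hA2 : A * A' = 1 := mul_eq_one_comm.1 hA
  have h1 := h.act (A := A') hA2
  rw [act_act, hA, act_one, modelTriple_act] at h1
  have h2 : (fun i => ∑ j, A' i j • mean (act A w j)) = fun i => mean (w i) := by
    funext i
    simp only [mean_act hw, Finset.smul_sum, smul_smul]
    rw [Finset.sum_comm]
    simp only [← Finset.sum_smul, ← Matrix.mul_apply, hA]
    rw [Finset.sum_eq_single i]
    · simp
    · intro j _ hj
      simp [Ne.symm hj]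
    · simp
  rwa [h2] at h1

/-- coordinate version -/
theorem coord_version (hT : Taming) {w : Fin 3 → Form 2} (hw : IsHypersymplectic w)
    (h0 : ∀ x, coord (w 0 x) 5 = 0) (h1 : ∀ x, coord (w 1 x) 5 = 0) :
    ∃ U, SP U ∧ (∀ x, 0 < (jac U x).det) ∧ Joined3 w (modelTriple U (fun i => mean (w i))) := by
  have hne : coord (mean (w 2)) 5 ≠ 0 := ne_zero5 (def3_mean hw)
    (mean_coord5_zero (hw.spc 0).1 h0) (mean_coord5_zero (hw.spc 1).1 h1)
  rcases lt_or_gt_of_ne hne with h2 | h2
  · have hs : IsHypersymplectic (act sgnM w) := isHypersymplectic_act sgnM_mul hw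
    have e : act sgnM w = tri (w 0) (w 1) (fun x => -w 2 x) := act_sgnM w
    have k2 : 0 < coord (mean (act sgnM w 2)) 5 := by
      have : mean (act sgnM w 2) = -mean (w 2) := by
        rw [e]
        have := mean_smul (-1) (hw.spc 2).1
        simpa only [tri, Fin.isValue, Matrix.cons_val, neg_smul, one_smul] using this
      rw [this]
      have h3 : coord (-mean (w 2)) 5 = -coord (mean (w 2)) 5 := rfl
      rw [h3]
      linarith only [h2]
    obtain ⟨U, sU, hdet, hJ⟩ := coord_version_pos hT hs (by rw [e]; exact h0)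
      (by rw [e]; exact h1) k2
    exact ⟨U, sU, hdet, joined_of_act sgnM_mul (fun i => (hw.spc i).1) hJ⟩
  · exact coord_version_pos hT hw h0 h1 h2

end Vale.Agent.P247
end
end

section

section

open MeasureTheory Real Set

namespace Vale.Agent.P247

/-- `cos (2 π m · q)`. -/
noncomputable def cosm (m : Fin 4 → ℤ) (q : R4) : ℝ := Real.cos (2 * π * ∑ j, m j * q j)

/-- `sin (2 π m · q)`. -/
noncomputable def sinm (m : Fin 4 → ℤ) (q : R4) : ℝ := Real.sin (2 * π * ∑ j, m j * q j)

/-- `∑ⱼ sin² (π qⱼ)`. -/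
noncomputable def dst (q : R4) : ℝ := ∑ j, Real.sin (π * q j) ^ 2

/-- Trigonometric polynomial with given coefficients. -/
noncomputable def trig (c : (Fin 4 → ℤ) →₀ ℝ) (q : R4) : ℝ := c.sum fun m a => a * cosm m q

/-- Lebesgue measure on the unit interval. -/
noncomputable def mu1 : Measure ℝ := volume.restrict (Icc 0 1)

instance : IsProbabilityMeasure mu1 := by
  constructor
  simp [mu1]

/-- Lebesgue measure on the unit cube. -/
noncomputable def mu4 : Measure R4 := Measure.pi fun _ => mu1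

instance : IsProbabilityMeasure mu4 := by unfold mu4; infer_instance

theorem integral_exp_mu1 {m : ℤ} (hm : m ≠ 0) :
    ∫ t, Complex.exp (2 * π * Complex.I * m * t) ∂mu1 = 0 := by
  rw [mu1, integral_Icc_eq_integral_Ioc, ← intervalIntegral.integral_of_le zero_le_one,
    integral_exp_mul_complex]
  · have : Complex.exp (2 * π * Complex.I * m * (1 : ℝ)) = 1 := by
      rw [Complex.exp_eq_one_iff]
      exact ⟨m, by push_cast; ring⟩
    rw [this]; simp
  · simp only [ne_eq, mul_eq_zero, OfNat.ofNat_ne_zero, Complex.ofReal_eq_zero, pi_ne_zero, or_self, Complex.I_ne_zero, Int.cast_eq_zero, hm, not_false_eq_true]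

theorem cosm_eq_re (m : Fin 4 → ℤ) (q : R4) :
    cosm m q = (∏ j, Complex.exp (2 * π * Complex.I * m j * q j)).re := by
  rw [← Complex.exp_sum]
  have : ∑ j, 2 * (π : ℂ) * Complex.I * m j * q j
      = ((2 * π * ∑ j, m j * q j : ℝ) : ℂ) * Complex.I := by
    push_cast
    rw [Finset.mul_sum, Finset.sum_mul]
    refine Finset.sum_congr rfl fun j _ => by ring
  rw [this, Complex.exp_ofReal_mul_I_re, cosm]

theorem continuous_cosm (m : Fin 4 → ℤ) : Continuous (cosm m) := by
  unfold cosm; fun_prop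

theorem integral_cosm {m : Fin 4 → ℤ} (hm : m ≠ 0) : ∫ q, cosm m q ∂mu4 = 0 := by
  obtain ⟨j, hj⟩ : ∃ j, m j ≠ 0 := by
    by_contra hc
    push Not at hc
    exact hm (funext hc)
  have h1 : ∫ q : R4, (∏ j, Complex.exp (2 * π * Complex.I * m j * q j)) ∂mu4 = 0 := by
    unfold mu4
    rw [integral_fintype_prod_eq_prod (f := fun (j : Fin 4) (t : ℝ) =>
      Complex.exp (2 * π * Complex.I * m j * t))]
    exact Finset.prod_eq_zero (Finset.mem_univ j) (integral_exp_mu1 hj)
  have h2 : Integrable (fun q : R4 => ∏ j, Complex.exp (2 * π * Complex.I * m j * q j)) mu4 := by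
    have hc : Continuous (fun q : R4 => ∏ j, Complex.exp (2 * π * Complex.I * m j * q j)) := by
      fun_prop
    refine Integrable.of_bound hc.aestronglyMeasurable 1 (Filter.Eventually.of_forall fun q => ?_)
    rw [norm_prod]
    refine Finset.prod_le_one (fun _ _ => norm_nonneg _) fun j _ => ?_
    rw [Complex.norm_exp]
    simp
  have h3 : ∫ q : R4, cosm m q ∂mu4
      = (∫ q : R4, (∏ j, Complex.exp (2 * π * Complex.I * m j * q j)) ∂mu4).re := by
    rw [← Complex.reCLM_apply, ← Complex.reCLM.integral_comp_comm h2]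
    refine integral_congr_ae (Filter.Eventually.of_forall fun q => ?_)
    simp only [Complex.reCLM_apply]
    exact cosm_eq_re m q
  rw [h3, h1]; simp

@[simp] theorem cosm_zero (q : R4) : cosm 0 q = 1 := by simp [cosm]

theorem integrable_of_continuous_bdd {f : R4 → ℝ} (hf : Continuous f) {C : ℝ}
    (hC : ∀ q, |f q| ≤ C) : Integrable f mu4 :=
  Integrable.of_bound hf.aestronglyMeasurable C (Filter.Eventually.of_forall hC)

theorem integrable_cosm (m : Fin 4 → ℤ) : Integrable (cosm m) mu4 :=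
  integrable_of_continuous_bdd (continuous_cosm m) (C := 1) fun _ => abs_cos_le_one _

/-- The constant coefficient is the mean. -/
theorem integral_trig (c : (Fin 4 → ℤ) →₀ ℝ) : ∫ q, trig c q ∂mu4 = c 0 := by
  simp only [trig, Finsupp.sum]
  rw [integral_finsetSum]
  · have : ∀ m ∈ c.support, ∫ q : R4, c m * cosm m q ∂mu4 = if m = 0 then c 0 else 0 := by
      intro m _
      rw [integral_const_mul]
      split_ifs with h
      · subst h; simp only [cosm_zero, integral_const, probReal_univ, smul_eq_mul, mul_one]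
      · rw [integral_cosm h, mul_zero]
    rw [Finset.sum_congr rfl this]
    simp only [Finset.sum_ite_eq', Finsupp.mem_support_iff, ne_eq, ite_not]
    split_ifs with h0
    · exact h0.symm
    · rfl
  · intro m _
    exact (integrable_cosm m).const_mul _

/-- The Wallis numbers `binom (2n) n / 4ⁿ`. -/
noncomputable def W (n : ℕ) : ℝ := ∏ i ∈ Finset.range n, (2 * (i : ℝ) + 1) / (2 * i + 2)

theorem W_zero : W 0 = 1 := by simp only [W, Finset.range_zero, Finset.prod_div_distrib, Finset.prod_empty, ne_eq, one_ne_zero, not_false_eq_true, div_self]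

theorem W_succ (n : ℕ) : W (n + 1) = W n * ((2 * (n : ℝ) + 1) / (2 * n + 2)) := by
  rw [W, Finset.prod_range_succ, ← W]

theorem W_pos (n : ℕ) : 0 < W n := by
  unfold W
  exact Finset.prod_pos fun i _ => by positivity

theorem W_antitone : Antitone W := by
  refine antitone_nat_of_succ_le fun n => ?_
  rw [W_succ]
  have : (2 * (n : ℝ) + 1) / (2 * n + 2) ≤ 1 := by
    rw [div_le_one (by positivity)]; linarith
  nlinarith only [this, W_pos n]

theorem W_sq_lower' (n : ℕ) : 1 / (4 * ((n : ℝ) + 1)) ≤ W (n + 1) ^ 2 := by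
  induction n with
  | zero => simp only [CharP.cast_eq_zero, zero_add, mul_one, one_div, W_succ, W_zero, mul_zero, one_mul, inv_pow]; norm_num
  | succ n ih =>
    rw [W_succ]
    have hn : (0 : ℝ) ≤ n := Nat.cast_nonneg n
    push_cast
    have h1 : (W (n + 1) * ((2 * ((n : ℝ) + 1) + 1) / (2 * (n + 1) + 2))) ^ 2
        = W (n + 1) ^ 2 * ((2 * ((n : ℝ) + 1) + 1) / (2 * (n + 1) + 2)) ^ 2 := by ring
    rw [h1]
    refine le_trans ?_ (mul_le_mul_of_nonneg_right ih (by positivity))
    rw [div_mul_eq_mul_div, one_mul, div_le_div_iff₀ (by positivity) (by positivity), div_pow,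
      div_mul_eq_mul_div, le_div_iff₀ (by positivity)]
    nlinarith only []

theorem W_sq_lower (n : ℕ) : 1 / (4 * ((n : ℝ) + 1)) ≤ W n ^ 2 := by
  refine (W_sq_lower' n).trans ?_
  have h1 := W_antitone (Nat.le_succ n)
  have h2 := W_pos (n + 1)
  exact pow_le_pow_left₀ h2.le h1 2

theorem integral_cos_pow_mu1 (n : ℕ) : ∫ t, (Real.cos (π * t) ^ 2) ^ n ∂mu1 = W n := by
  rw [mu1, integral_Icc_eq_integral_Ioc, ← intervalIntegral.integral_of_le zero_le_one]
  have h0 : ∀ n : ℕ, ∫ t in (0 : ℝ)..1, (Real.cos (π * t) ^ 2) ^ n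
      = π⁻¹ * ∫ t in (0 : ℝ)..π, Real.cos t ^ (2 * n) := by
    intro n
    have := intervalIntegral.integral_comp_mul_left (a := 0) (b := 1)
      (fun t => Real.cos t ^ (2 * n)) Real.pi_ne_zero
    simp only [mul_zero, mul_one, smul_eq_mul] at this
    rw [← this]
    simp only [pow_mul]
  rw [h0]
  induction n with
  | zero => simp [W_zero]
  | succ n ih =>
    rw [W_succ, ← ih, show 2 * (n + 1) = 2 * n + 2 from by ring, integral_cos_pow]
    simp only [cos_pi, sin_pi, mul_zero, cos_zero, one_pow, sin_zero, sub_self, Nat.cast_mul, Nat.cast_ofNat, zero_div, zero_add]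
    field_simp

/-- The mean of a product of powers of `cos² (π qⱼ)`. -/
theorem integral_mono (n : Fin 4 → ℕ) :
    ∫ q : R4, ∏ j, (Real.cos (π * q j) ^ 2) ^ (n j) ∂mu4 = ∏ j, W (n j) := by
  unfold mu4
  rw [integral_fintype_prod_eq_prod (f := fun (j : Fin 4) (t : ℝ) =>
      (Real.cos (π * t) ^ 2) ^ (n j))]
  refine Finset.prod_congr rfl fun j _ => integral_cos_pow_mu1 (n j)

/-- The mean of the `n`-th power of `(cos² (π s) + cos² (π t)) / 2`. -/
noncomputable def an (n : ℕ) : ℝ :=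
  (1 / 2) ^ n * ∑ i ∈ Finset.range (n + 1), W i * W (n - i) * (n.choose i : ℝ)

theorem an_lower (n : ℕ) : 1 / (4 * ((n : ℝ) + 1)) ≤ an n := by
  have h1 : ∀ i ∈ Finset.range (n + 1), W n ^ 2 * (n.choose i : ℝ)
      ≤ W i * W (n - i) * (n.choose i : ℝ) := by
    intro i hi
    have hi' : i ≤ n := Nat.lt_succ_iff.mp (Finset.mem_range.mp hi)
    have h2 := W_antitone hi'
    have h3 := W_antitone (Nat.sub_le n i)
    have h4 := W_pos n
    refine mul_le_mul_of_nonneg_right ?_ (Nat.cast_nonneg _)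
    nlinarith [W_pos i, W_pos (n - i)]
  have h5 := Finset.sum_le_sum h1
  rw [← Finset.mul_sum] at h5
  have h6 : ∑ i ∈ Finset.range (n + 1), (n.choose i : ℝ) = 2 ^ n := by
    have := Nat.sum_range_choose n
    exact_mod_cast this
  rw [h6] at h5
  have h7 : W n ^ 2 ≤ an n := by
    unfold an
    have h8 : (1 / 2 : ℝ) ^ n * (W n ^ 2 * 2 ^ n) = W n ^ 2 := by
      rw [mul_comm (W n ^ 2), ← mul_assoc, ← mul_pow]; norm_num
    rw [← h8]
    exact mul_le_mul_of_nonneg_left h5 (by positivity)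
  exact (W_sq_lower n).trans h7

theorem an_pos (n : ℕ) : 0 < an n := by
  have := an_lower n
  have h2 : 0 < 1 / (4 * ((n : ℝ) + 1)) := by positivity
  linarith

noncomputable def Xf (q : R4) : ℝ := (Real.cos (π * q 0) ^ 2 + Real.cos (π * q 1) ^ 2) / 2
noncomputable def Yf (q : R4) : ℝ := (Real.cos (π * q 2) ^ 2 + Real.cos (π * q 3) ^ 2) / 2

theorem continuous_Xf : Continuous Xf := by unfold Xf; (clear * -; fun_prop)
theorem continuous_Yf : Continuous Yf := by unfold Yf; fun_prop

theorem Xf_nonneg (q : R4) : 0 ≤ Xf q := by unfold Xf; positivity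
theorem Yf_nonneg (q : R4) : 0 ≤ Yf q := by unfold Yf; positivity
theorem Xf_le_one (q : R4) : Xf q ≤ 1 := by
  unfold Xf
  nlinarith [Real.cos_sq_le_one (π * q 0), Real.cos_sq_le_one (π * q 1)]
theorem Yf_le_one (q : R4) : Yf q ≤ 1 := by
  unfold Yf
  nlinarith [Real.cos_sq_le_one (π * q 2), Real.cos_sq_le_one (π * q 3)]

theorem dst_eq (q : R4) : dst q = 2 * (1 - Xf q) + 2 * (1 - Yf q) := by
  unfold dst Xf Yf
  simp only [Fin.sum_univ_four, Real.sin_sq]
  ring

theorem integral_XY (n k : ℕ) : ∫ q : R4, Xf q ^ n * Yf q ^ k ∂mu4 = an n * an k := by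
  have hX : ∀ q : R4, Xf q ^ n * Yf q ^ k = ∑ i ∈ Finset.range (n + 1),
      ∑ l ∈ Finset.range (k + 1), ((1 / 2) ^ n * (1 / 2) ^ k * (n.choose i : ℝ) * (k.choose l : ℝ))
        * ∏ j, (Real.cos (π * q j) ^ 2) ^ ((![i, n - i, l, k - l] : Fin 4 → ℕ) j) := by
    intro q
    have h1 : Xf q ^ n = (1 / 2) ^ n * ∑ i ∈ Finset.range (n + 1),
        (Real.cos (π * q 0) ^ 2) ^ i * (Real.cos (π * q 1) ^ 2) ^ (n - i) * (n.choose i : ℝ) := by
      rw [← add_pow, ← mul_pow, Xf]; congr 1; ring
    have h2 : Yf q ^ k = (1 / 2) ^ k * ∑ l ∈ Finset.range (k + 1),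
        (Real.cos (π * q 2) ^ 2) ^ l * (Real.cos (π * q 3) ^ 2) ^ (k - l) * (k.choose l : ℝ) := by
      rw [← add_pow, ← mul_pow, Yf]; congr 1; ring
    rw [h1, h2, Finset.mul_sum, Finset.mul_sum, Finset.sum_mul_sum]
    refine Finset.sum_congr rfl fun i _ => Finset.sum_congr rfl fun l _ => ?_
    simp only [Fin.prod_univ_four, Matrix.cons_val_zero, Matrix.cons_val_one, Matrix.cons_val]
    ring
  have hint : ∀ i l : ℕ, Integrable (fun q : R4 =>
      ((1 / 2) ^ n * (1 / 2) ^ k * (n.choose i : ℝ) * (k.choose l : ℝ))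
        * ∏ j, (Real.cos (π * q j) ^ 2) ^ ((![i, n - i, l, k - l] : Fin 4 → ℕ) j)) mu4 := by
    intro i l
    refine Integrable.const_mul ?_ _
    have hc : Continuous (fun q : R4 =>
        ∏ j, (Real.cos (π * q j) ^ 2) ^ ((![i, n - i, l, k - l] : Fin 4 → ℕ) j)) := by
      fun_prop
    refine integrable_of_continuous_bdd hc (C := 1) fun q => ?_
    rw [abs_of_nonneg (Finset.prod_nonneg fun j _ => by (clear * -; positivity))]
    exact Finset.prod_le_one (fun j _ => by positivity) fun j _ =>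
      pow_le_one₀ (by positivity) (Real.cos_sq_le_one _)
  simp only [hX]
  rw [integral_finsetSum _ (fun i _ => integrable_finsetSum _ fun l _ => hint i l)]
  simp_rw [integral_finsetSum _ (fun l _ => hint _ l), integral_const_mul, integral_mono]
  unfold an
  rw [mul_mul_mul_comm, Finset.sum_mul_sum, Finset.mul_sum]
  refine Finset.sum_congr rfl fun i _ => ?_
  rw [Finset.mul_sum]
  refine Finset.sum_congr rfl fun l _ => ?_
  simp only [Fin.prod_univ_four, Matrix.cons_val_zero, Matrix.cons_val_one, Matrix.cons_val]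
  ring

end Vale.Agent.P247
end
end

section

section

open MeasureTheory Set
open scoped ContDiff

namespace Vale.Agent.P247

theorem stmt_hypersymplectic (w : Fin 3 → Form 2) :
    Stmt.Hypersymplectic w ↔ IsHypersymplectic w := by
  rw [isHypersymplectic_iff]
  constructor
  · intro h
    refine ⟨h.closed, fun x c hc => ?_⟩
    rw [wedge_comb]
    exact h.posDef x c hc
  · intro h
    refine ⟨h.1, fun x c hc => ?_⟩
    have := h.2 x c hc
    rw [wedge_comb] at this
    exact this

theorem stmt_normalized {w : Fin 3 → Form 2} (h : Stmt.Normalized w) : IsNormalized w := h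

theorem stmt_cohomologous {u v : Form 2} (h : Cohomologous u v) : Stmt.Cohomologous u v := by
  obtain ⟨a, ha, hx⟩ := h
  refine ⟨a, ha, fun x p q => ?_⟩
  exact congrArg (fun α : Form2 => α ![p, q]) (hx x)

theorem stmt_deformation {w : Fin 3 → Form 2} {γ : ℝ → Fin 3 → Form 2}
    (h : IsCohomologousDeformation w γ) : Stmt.Deformation w γ where
  smooth i u v := (evalL ![u, v]).contDiff.comp (h.smooth i)
  start := h.start
  hypersymplectic t ht := (stmt_hypersymplectic _).2 (h.hypersymplectic t ht)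
  cohomologous t ht i := stmt_cohomologous (h.cohomologous t ht i)

theorem stmt_hyperkahler {w : Fin 3 → Form 2} (h : IsHyperkahlerTriple w) :
    Stmt.Hyperkahler w where
  closed i := ⟨h.torus i, h.closed i⟩
  orthogonal := h.orthogonal

/-- The internal structure of a torus diffeomorphism. -/
theorem exists_torusDiffeo {f : R4 → R4} (hf : Stmt.TorusDiffeo f) :
    ∃ Φ : TorusDiffeo, Φ.toFun = f := by
  obtain ⟨hfm, g, hgm, hgf, hfg⟩ := hf
  exact ⟨⟨f, g, hfm.1, hgm.1, hgf, hfg, hfm.2, hgm.2⟩, rfl⟩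

theorem stmt_vertical {f : R4 → R4} (hf : ContDiff ℝ ∞ f) (x u : R4) :
    Stmt.Vertical f x u ↔ (fderiv ℝ f x u) 0 = 0 ∧ (fderiv ℝ f x u) 1 = 0 := by
  rw [Stmt.Vertical, ((hf.differentiable (by simp)) x).lineDeriv_eq_fderiv]

theorem stmt_vanishes {Φ : TorusDiffeo} {w : Fin 3 → Form 2} {b : Fin 3 → ℝ}
    (h : ∀ x u v, Stmt.Vertical Φ.toFun x u → Stmt.Vertical Φ.toFun x v →
      ∑ i, b i * Stmt.val (w i) x u v = 0) :
    VanishesOnFibres Φ fun x => ∑ i, b i • w i x := by
  intro x u v h1 h2 h3 h4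
  have h5 := h x u v ((stmt_vertical Φ.smooth_toFun x u).2 ⟨h1, h2⟩)
    ((stmt_vertical Φ.smooth_toFun x v).2 ⟨h3, h4⟩)
  rw [ContinuousAlternatingMap.sum_apply]
  exact h5

/-- Reduction of the final statement to the internal one. -/
theorem stmt_of_main
    (main : ∀ (w : Fin 3 → Form 2), IsHypersymplectic w → IsNormalized w → ∀ (Φ : TorusDiffeo)
      (b c : Fin 3 → ℝ), (∀ s t : ℝ, (∀ i, s * b i + t * c i = 0) → s = 0 ∧ t = 0) →
      (VanishesOnFibres Φ fun x => ∑ i, b i • w i x) →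
      (VanishesOnFibres Φ fun x => ∑ i, c i • w i x) →
      ∃ γ : ℝ → Fin 3 → Form 2, IsCohomologousDeformation w γ ∧ IsHyperkahlerTriple (γ 1))
    (w : Fin 3 → Form 2) (hw : Stmt.Hypersymplectic w) (hn : Stmt.Normalized w)
    (f : R4 → R4) (hf : Stmt.TorusDiffeo f) (b c : Fin 3 → ℝ)
    (hbc : ∀ s t : ℝ, (∀ i, s * b i + t * c i = 0) → s = 0 ∧ t = 0)
    (hb : ∀ x u v, Stmt.Vertical f x u → Stmt.Vertical f x v →
      ∑ i, b i * Stmt.val (w i) x u v = 0)
    (hc : ∀ x u v, Stmt.Vertical f x u → Stmt.Vertical f x v →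
      ∑ i, c i * Stmt.val (w i) x u v = 0) :
    ∃ γ : ℝ → Fin 3 → Form 2, Stmt.Deformation w γ ∧ Stmt.Hyperkahler (γ 1) := by
  obtain ⟨Φ, rfl⟩ := exists_torusDiffeo hf
  obtain ⟨γ, h1, h2⟩ := main w ((stmt_hypersymplectic w).1 hw) (stmt_normalized hn) Φ b c hbc
    (stmt_vanishes hb) (stmt_vanishes hc)
  exact ⟨γ, stmt_deformation h1, stmt_hyperkahler h2⟩

end Vale.Agent.P247
end
end

section

section

open MeasureTheory Real Set

namespace Vale.Agent.P247

/-- Real trigonometric cosine sums with frequencies in `s`. -/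
noncomputable def CS (s : Set (Fin 4 → ℤ)) : Submodule ℝ (R4 → ℝ) :=
  Submodule.span ℝ (cosm '' s)

theorem cosm_mul_cos (m : Fin 4 → ℤ) (j : Fin 4) (q : R4) :
    Real.cos (π * q j) ^ 2 * cosm m q
      = (1 / 2) * cosm m q + (1 / 4) * cosm (m + Pi.single j 1) q
        + (1 / 4) * cosm (m - Pi.single j 1) q := by
  have h1 : 2 * π * ∑ i, ((m + Pi.single j 1 : Fin 4 → ℤ) i : ℝ) * q i
      = 2 * π * (∑ i, (m i : ℝ) * q i) + 2 * (π * q j) := by
    have : ∑ i, ((m + Pi.single j 1 : Fin 4 → ℤ) i : ℝ) * q i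
        = ∑ i, (m i : ℝ) * q i + ∑ i, ((Pi.single j 1 : Fin 4 → ℤ) i : ℝ) * q i := by
      rw [← Finset.sum_add_distrib]
      refine Finset.sum_congr rfl fun i _ => ?_
      simp only [Pi.add_apply]; push_cast; ring
    rw [this]
    have h2 : ∑ i, ((Pi.single j 1 : Fin 4 → ℤ) i : ℝ) * q i = q j := by
      rw [Finset.sum_eq_single j]
      · simp
      · intro i _ hi; simp [hi]
      · simp
    rw [h2]; ring
  have h1' : 2 * π * ∑ i, ((m - Pi.single j 1 : Fin 4 → ℤ) i : ℝ) * q i
      = 2 * π * (∑ i, (m i : ℝ) * q i) - 2 * (π * q j) := by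
    have : ∑ i, ((m - Pi.single j 1 : Fin 4 → ℤ) i : ℝ) * q i
        = ∑ i, (m i : ℝ) * q i - ∑ i, ((Pi.single j 1 : Fin 4 → ℤ) i : ℝ) * q i := by
      rw [← Finset.sum_sub_distrib]
      refine Finset.sum_congr rfl fun i _ => ?_
      simp only [Pi.sub_apply]; push_cast; ring
    rw [this]
    have h2 : ∑ i, ((Pi.single j 1 : Fin 4 → ℤ) i : ℝ) * q i = q j := by
      rw [Finset.sum_eq_single j]
      · simp
      · intro i _ hi; simp [hi]
      · simp
    rw [h2]; ring
  simp only [cosm, h1, h1', Real.cos_add, Real.cos_sub]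
  rw [Real.cos_two_mul]
  ring

theorem mul_cossq_mem {s : Set (Fin 4 → ℤ)} {j : Fin 4}
    (hs : ∀ m ∈ s, m + Pi.single j 1 ∈ s ∧ m - Pi.single j 1 ∈ s) {f : R4 → ℝ} (hf : f ∈ CS s) :
    (fun q => Real.cos (π * q j) ^ 2 * f q) ∈ CS s := by
  unfold CS at hf ⊢
  induction hf using Submodule.span_induction with
  | mem x hx =>
    obtain ⟨m, hm, rfl⟩ := hx
    have : (fun q => Real.cos (π * q j) ^ 2 * cosm m q)
        = (1 / 2 : ℝ) • cosm m + (1 / 4 : ℝ) • cosm (m + Pi.single j 1)
          + (1 / 4 : ℝ) • cosm (m - Pi.single j 1) := by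
      funext q
      simp only [Pi.add_apply, Pi.smul_apply, smul_eq_mul]
      exact cosm_mul_cos m j q
    rw [this]
    refine Submodule.add_mem _ (Submodule.add_mem _ ?_ ?_) ?_
    · exact Submodule.smul_mem _ _ (Submodule.subset_span ⟨m, hm, rfl⟩)
    · exact Submodule.smul_mem _ _ (Submodule.subset_span ⟨_, (hs m hm).1, rfl⟩)
    · exact Submodule.smul_mem _ _ (Submodule.subset_span ⟨_, (hs m hm).2, rfl⟩)
  | zero =>
    have : (fun q : R4 => Real.cos (π * q j) ^ 2 * (0 : R4 → ℝ) q) = 0 := by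
      funext q; simp
    rw [this]; exact Submodule.zero_mem _
  | add x y _ _ hx hy =>
    have : (fun q => Real.cos (π * q j) ^ 2 * (x + y) q)
        = (fun q => Real.cos (π * q j) ^ 2 * x q) + fun q => Real.cos (π * q j) ^ 2 * y q := by
      funext q; simp only [Pi.add_apply]; ring
    rw [this]; exact Submodule.add_mem _ hx hy
  | smul a x _ hx =>
    have : (fun q => Real.cos (π * q j) ^ 2 * (a • x) q)
        = a • fun q => Real.cos (π * q j) ^ 2 * x q := by
      funext q; simp only [Pi.smul_apply, smul_eq_mul]; ring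
    rw [this]; exact Submodule.smul_mem _ _ hx

theorem mul_Xf_mem {s : Set (Fin 4 → ℤ)}
    (h0 : ∀ m ∈ s, m + Pi.single 0 1 ∈ s ∧ m - Pi.single 0 1 ∈ s)
    (h1 : ∀ m ∈ s, m + Pi.single 1 1 ∈ s ∧ m - Pi.single 1 1 ∈ s) {f : R4 → ℝ}
    (hf : f ∈ CS s) : (fun q => Xf q * f q) ∈ CS s := by
  have : (fun q => Xf q * f q) = (1 / 2 : ℝ) • (fun q => Real.cos (π * q 0) ^ 2 * f q)
      + (1 / 2 : ℝ) • (fun q => Real.cos (π * q 1) ^ 2 * f q) := by
    funext q; simp only [Xf, Pi.add_apply, Pi.smul_apply, smul_eq_mul]; ring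
  rw [this]
  exact Submodule.add_mem _ (Submodule.smul_mem _ _ (mul_cossq_mem h0 hf))
    (Submodule.smul_mem _ _ (mul_cossq_mem h1 hf))

theorem mul_Yf_mem {s : Set (Fin 4 → ℤ)}
    (h0 : ∀ m ∈ s, m + Pi.single 2 1 ∈ s ∧ m - Pi.single 2 1 ∈ s)
    (h1 : ∀ m ∈ s, m + Pi.single 3 1 ∈ s ∧ m - Pi.single 3 1 ∈ s) {f : R4 → ℝ}
    (hf : f ∈ CS s) : (fun q => Yf q * f q) ∈ CS s := by
  have : (fun q => Yf q * f q) = (1 / 2 : ℝ) • (fun q => Real.cos (π * q 2) ^ 2 * f q)
      + (1 / 2 : ℝ) • (fun q => Real.cos (π * q 3) ^ 2 * f q) := by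
    funext q; simp only [Yf, Pi.add_apply, Pi.smul_apply, smul_eq_mul]; ring
  rw [this]
  exact Submodule.add_mem _ (Submodule.smul_mem _ _ (mul_cossq_mem h0 hf))
    (Submodule.smul_mem _ _ (mul_cossq_mem h1 hf))

/-- Base frequencies. -/
def base : Set (Fin 4 → ℤ) := {m | m 2 = 0 ∧ m 3 = 0}

theorem one_mem {s : Set (Fin 4 → ℤ)} (h : (0 : Fin 4 → ℤ) ∈ s) : (fun _ => (1 : ℝ)) ∈ CS s :=
  Submodule.subset_span ⟨0, h, by funext q; simp⟩

theorem Xf_pow_mem {s : Set (Fin 4 → ℤ)} (h : (0 : Fin 4 → ℤ) ∈ s)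
    (h0 : ∀ m ∈ s, m + Pi.single 0 1 ∈ s ∧ m - Pi.single 0 1 ∈ s)
    (h1 : ∀ m ∈ s, m + Pi.single 1 1 ∈ s ∧ m - Pi.single 1 1 ∈ s) (n : ℕ) :
    (fun q => Xf q ^ n) ∈ CS s := by
  induction n with
  | zero => simpa using one_mem h
  | succ n ih =>
    have := mul_Xf_mem h0 h1 ih
    simpa [pow_succ, mul_comm] using this

theorem base_zero : (0 : Fin 4 → ℤ) ∈ base := by simp [base]

theorem base_0 : ∀ m ∈ base, m + Pi.single 0 1 ∈ base ∧ m - Pi.single 0 1 ∈ base := by
  intro m hm
  obtain ⟨h2, h3⟩ := hm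
  constructor <;> constructor <;> simp [h2, h3]

theorem base_1 : ∀ m ∈ base, m + Pi.single 1 1 ∈ base ∧ m - Pi.single 1 1 ∈ base := by
  intro m hm
  obtain ⟨h2, h3⟩ := hm
  constructor <;> constructor <;> simp [h2, h3]

theorem XY_mem (n k : ℕ) : (fun q => Xf q ^ n * Yf q ^ k) ∈ CS univ := by
  induction k with
  | zero => simpa using Xf_pow_mem (mem_univ _) (by simp) (by simp) n
  | succ k ih =>
    have := mul_Yf_mem (by simp) (by simp) ih
    have h2 : (fun q => Yf q * (Xf q ^ n * Yf q ^ k)) = fun q => Xf q ^ n * Yf q ^ (k + 1) := by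
      funext q; ring
    rwa [h2] at this

theorem exists_trig {s : Set (Fin 4 → ℤ)} {f : R4 → ℝ} (hf : f ∈ CS s) :
    ∃ c : (Fin 4 → ℤ) →₀ ℝ, (∀ m ∈ c.support, m ∈ s) ∧ ∀ q, f q = trig c q := by
  rw [CS, Finsupp.mem_span_image_iff_linearCombination] at hf
  obtain ⟨c, hc, rfl⟩ := hf
  refine ⟨c, fun m hm => hc hm, fun q => ?_⟩
  rw [Finsupp.linearCombination_apply, trig, Finsupp.sum, Finsupp.sum, Finset.sum_apply]
  rfl

theorem exists_ratio {δ : ℝ} (hδ : 0 < δ) : ∃ n, an n - an (n + 1) ≤ δ * an n := by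
  by_contra hc
  push Not at hc
  have h0 : ∀ n, an (n + 1) ≤ (1 - δ) * an n := by
    intro n; have := hc n; linarith
  have hδ1 : 0 < 1 - δ := by
    have h1 := h0 0
    have h2 := an_pos 1
    have h3 := an_pos 0
    by_contra h4
    push Not at h4
    nlinarith only [h1, h2, h3, h4]
  have h1 : ∀ n, an n ≤ (1 - δ) ^ n * an 0 := by
    intro n
    induction n with
    | zero => simp
    | succ n ih =>
      calc an (n + 1) ≤ (1 - δ) * an n := h0 n
        _ ≤ (1 - δ) * ((1 - δ) ^ n * an 0) := mul_le_mul_of_nonneg_left ih hδ1.le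
        _ = (1 - δ) ^ (n + 1) * an 0 := by ring
  have h2 : Filter.Tendsto (fun n : ℕ => ((n : ℝ)) * (1 - δ) ^ n) Filter.atTop (nhds 0) :=
    tendsto_self_mul_const_pow_of_lt_one hδ1.le (by linarith only [hδ])
  have h3 : Filter.Tendsto (fun n : ℕ => (1 - δ) ^ n) Filter.atTop (nhds 0) :=
    tendsto_pow_atTop_nhds_zero_of_lt_one hδ1.le (by linarith only [hδ])
  have h4 : Filter.Tendsto (fun n : ℕ => ((n : ℝ)) * (1 - δ) ^ n + (1 - δ) ^ n) Filter.atTop
      (nhds 0) := by
    simpa only [add_zero] using h2.add h3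
  have h5 : 0 < 1 / (4 * an 0) := by have := an_pos 0; (clear * - this; positivity)
  obtain ⟨n, hn⟩ := (h4.eventually (gt_mem_nhds h5)).exists
  have h6 := an_lower n
  have h7 := h1 n
  have h8 : 1 / (4 * ((n : ℝ) + 1)) ≤ (1 - δ) ^ n * an 0 := h6.trans h7
  have h9 : ((n : ℝ) + 1) * (1 - δ) ^ n < 1 / (4 * an 0) := by linarith only [hn]
  have h10 := an_pos 0
  rw [lt_div_iff₀ (by (clear * - h10; positivity))] at h9
  rw [div_le_iff₀ (by (clear * -; positivity))] at h8
  nlinarith only [h8, h9]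

theorem exists_large (K : ℝ) : ∃ N : ℕ, K ≤ ∑ j ∈ Finset.range N, an j := by
  have h1 : Filter.Tendsto (fun N : ℕ => ∑ j ∈ Finset.range N, (1 / ((j : ℝ) + 1)))
      Filter.atTop Filter.atTop := Real.tendsto_sum_range_one_div_nat_succ_atTop
  obtain ⟨N, hN⟩ := (h1.eventually (Filter.eventually_ge_atTop (4 * K))).exists
  refine ⟨N, ?_⟩
  have h2 : ∑ j ∈ Finset.range N, (1 / 4 : ℝ) * (1 / ((j : ℝ) + 1))
      ≤ ∑ j ∈ Finset.range N, an j := by
    refine Finset.sum_le_sum fun j _ => ?_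
    have := an_lower j
    have h3 : (1 / 4 : ℝ) * (1 / ((j : ℝ) + 1)) = 1 / (4 * ((j : ℝ) + 1)) := by
      field_simp
    rw [h3]; exact this
  rw [← Finset.mul_sum] at h2
  linarith only [hN, h2]

/-- Existence of the logarithmic kernels. -/
theorem exists_kernel {ε : ℝ} (hε : 0 < ε) : ∃ c r : (Fin 4 → ℤ) →₀ ℝ,
    c 0 = 1 ∧ r 0 ≤ ε ∧ (∀ m ∈ r.support, m 2 = 0 ∧ m 3 = 0) ∧ (∀ q, 0 ≤ trig c q) ∧
    ∀ q, trig c q * dst q ≤ trig r q := by
  obtain ⟨N, hN⟩ := exists_large (4 / ε)
  set Z := ∑ j ∈ Finset.range N, an j with hZ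
  have hZpos : 0 < Z := lt_of_lt_of_le (by (clear * - hε; positivity)) hN
  obtain ⟨n, hn⟩ := exists_ratio (δ := 1 / ((N : ℝ) + 1)) (by positivity)
  have han := an_pos n
  set A := 1 / (an n * Z) with hA
  have hApos : 0 < A := by (clear * - han hZpos; positivity)
  -- the kernels
  set k : R4 → ℝ := fun q => ∑ j ∈ Finset.range N, A * (Xf q ^ n * Yf q ^ j) with hk
  set ρ : R4 → ℝ := fun q => A * (2 * Xf q ^ n + 2 * (N : ℝ) * (Xf q ^ n - Xf q ^ (n + 1)))
    with hρ
  have hkmem : k ∈ CS univ := by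
    have : k = ∑ j ∈ Finset.range N, A • fun q => (Xf q ^ n * Yf q ^ j) := by
      funext q; simp only [hk, Finset.sum_apply, Pi.smul_apply, smul_eq_mul]
    rw [this]
    exact Submodule.sum_mem _ fun j _ => Submodule.smul_mem _ _ (XY_mem n j)
  have hρmem : ρ ∈ CS base := by
    have : ρ = (A * 2) • (fun q => Xf q ^ n) + (A * 2 * N) • (fun q => Xf q ^ n)
        - (A * 2 * N) • (fun q => Xf q ^ (n + 1)) := by
      funext q
      simp only [hρ, Pi.sub_apply, Pi.add_apply, Pi.smul_apply, smul_eq_mul]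
      ring
    rw [this]
    have hp := Xf_pow_mem base_zero base_0 base_1
    exact Submodule.sub_mem _ (Submodule.add_mem _ (Submodule.smul_mem _ _ (hp n))
      (Submodule.smul_mem _ _ (hp n))) (Submodule.smul_mem _ _ (hp (n + 1)))
  obtain ⟨c, -, hc⟩ := exists_trig hkmem
  obtain ⟨r, hrs, hr⟩ := exists_trig hρmem
  have hXY : ∀ n j : ℕ, Integrable (fun q : R4 => Xf q ^ n * Yf q ^ j) mu4 := by
    intro n j
    refine integrable_of_continuous_bdd ((continuous_Xf.pow n).mul (continuous_Yf.pow j))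
      (C := 1) fun q => ?_
    have h1 : 0 ≤ Xf q ^ n := pow_nonneg (Xf_nonneg q) n
    have h2 : 0 ≤ Yf q ^ j := pow_nonneg (Yf_nonneg q) j
    have h3 : Xf q ^ n ≤ 1 := pow_le_one₀ (Xf_nonneg q) (Xf_le_one q)
    have h4 : Yf q ^ j ≤ 1 := pow_le_one₀ (Yf_nonneg q) (Yf_le_one q)
    rw [abs_of_nonneg (mul_nonneg h1 h2)]
    exact mul_le_one₀ h3 h2 h4
  have hX : ∀ n : ℕ, Integrable (fun q : R4 => Xf q ^ n) mu4 := by
    intro n; simpa only [pow_zero, mul_one] using hXY n 0
  have hXint : ∀ n : ℕ, ∫ q : R4, Xf q ^ n ∂mu4 = an n := by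
    intro n
    have h1 := integral_XY n 0
    have h2 : an 0 = 1 := by simp only [an, one_div, pow_zero, zero_add, Finset.range_one, zero_tsub, W_zero, mul_one, Finset.sum_singleton, Nat.choose_self, Nat.cast_one]
    simpa [h2] using h1
  refine ⟨c, r, ?_, ?_, hrs, ?_, ?_⟩
  · -- `c 0 = 1`
    rw [← integral_trig c]
    have : (fun q => trig c q) = k := by funext q; rw [hc]
    rw [this, hk, integral_finsetSum _ fun j _ => (hXY n j).const_mul A]
    simp_rw [integral_const_mul, integral_XY]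
    rw [← Finset.mul_sum, ← Finset.mul_sum, ← hZ, hA]
    (clear * - han hZpos; field_simp)
  · rw [← integral_trig r]
    have : (fun q => trig r q) = ρ := by funext q; rw [hr]
    have hint2 : Integrable (fun q : R4 => 2 * (N : ℝ) * (Xf q ^ n - Xf q ^ (n + 1))) mu4 :=
      ((hX n).sub (hX (n + 1))).const_mul _
    rw [this, hρ, integral_const_mul, integral_add ((hX n).const_mul 2) hint2,
      integral_const_mul, integral_const_mul, integral_sub (hX n) (hX (n + 1)), hXint, hXint]
    have h1 : 2 * (N : ℝ) * (an n - an (n + 1)) ≤ 2 * an n := by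
      have h2 : (N : ℝ) * (1 / ((N : ℝ) + 1) * an n) ≤ an n := by
        have h3 : (N : ℝ) * (1 / ((N : ℝ) + 1)) ≤ 1 := by
          rw [mul_one_div, div_le_one (by (clear * -; positivity))]; linarith only []
        nlinarith only [han, h3]
      have h4 : (N : ℝ) * (an n - an (n + 1)) ≤ N * (1 / ((N : ℝ) + 1) * an n) :=
        mul_le_mul_of_nonneg_left hn (Nat.cast_nonneg N)
      linarith only [h2, h4]
    calc A * (2 * an n + 2 * (N : ℝ) * (an n - an (n + 1))) ≤ A * (4 * an n) := by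
          apply mul_le_mul_of_nonneg_left _ hApos.le
          linarith only [h1]
      _ = 4 / Z := by rw [hA]; field_simp
      _ ≤ ε := by
        rw [div_le_iff₀ hZpos]
        rw [div_le_iff₀ hε] at hN
        linarith only [hN]
  · intro q
    rw [← hc, hk]
    refine Finset.sum_nonneg fun j _ => ?_
    have h1 : 0 ≤ Xf q ^ n := pow_nonneg (Xf_nonneg q) n
    have h2 : 0 ≤ Yf q ^ j := pow_nonneg (Yf_nonneg q) j
    (clear * - han hZpos h1 h2; positivity)
  · intro q
    rw [← hc, ← hr, dst_eq]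
    have h1 : 0 ≤ Xf q ^ n := pow_nonneg (Xf_nonneg q) n
    have h2 := Yf_nonneg q
    have h3 := Yf_le_one q
    have h4 := Xf_le_one q
    have hgeom : (∑ j ∈ Finset.range N, Yf q ^ j) * (1 - Yf q) ≤ 1 := by
      have := geom_sum_mul (Yf q) N
      have h5 : 0 ≤ Yf q ^ N := pow_nonneg h2 N
      nlinarith only [this, h5]
    have hsum : ∑ j ∈ Finset.range N, Yf q ^ j ≤ N := by
      calc ∑ j ∈ Finset.range N, Yf q ^ j ≤ ∑ j ∈ Finset.range N, (1 : ℝ) :=
            Finset.sum_le_sum fun j _ => pow_le_one₀ h2 h3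
        _ = N := by simp
    have hkq : k q = A * Xf q ^ n * ∑ j ∈ Finset.range N, Yf q ^ j := by
      simp only [hk]
      rw [← Finset.mul_sum, ← Finset.mul_sum]; ring
    rw [hkq]
    have hAX : 0 ≤ A * Xf q ^ n := by (clear * - han hZpos h1; positivity)
    have key : (∑ j ∈ Finset.range N, Yf q ^ j) * (2 * (1 - Xf q) + 2 * (1 - Yf q))
        ≤ 2 + 2 * (N : ℝ) * (1 - Xf q) := by
      have h6 : (∑ j ∈ Finset.range N, Yf q ^ j) * (1 - Xf q) ≤ N * (1 - Xf q) :=
        mul_le_mul_of_nonneg_right hsum (by linarith only [h4])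
      nlinarith only [hgeom, h6]
    calc A * Xf q ^ n * (∑ j ∈ Finset.range N, Yf q ^ j) * (2 * (1 - Xf q) + 2 * (1 - Yf q))
        = A * Xf q ^ n * ((∑ j ∈ Finset.range N, Yf q ^ j)
            * (2 * (1 - Xf q) + 2 * (1 - Yf q))) := by ring
      _ ≤ A * Xf q ^ n * (2 + 2 * (N : ℝ) * (1 - Xf q)) := mul_le_mul_of_nonneg_left key hAX
      _ = ρ q := by simp only [hρ]; ring

end Vale.Agent.P247
end
end

section

section

open Real Set

namespace Vale.Agent.P247

/-- `ℤ⁴`-periodic functions. -/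
def Per {X : Type*} (f : R4 → X) : Prop := ∀ (n : Fin 4 → ℤ) (x : R4), f (fun i => x i + n i) = f x

theorem Per.exists_cube {X : Type*} {f : R4 → X} (hf : Per f) (x : R4) :
    ∃ y ∈ Icc (0 : R4) 1, f y = f x := by
  refine ⟨fun i => Int.fract (x i), ⟨fun i => Int.fract_nonneg _, fun i => (Int.fract_lt_one _).le⟩,
    ?_⟩
  have := hf (fun i => ⌊x i⌋) (fun i => Int.fract (x i))
  rw [← this]
  congr 1
  funext i
  exact Int.fract_add_floor (x i)

theorem bdd_of_per {F : Type*} [NormedAddCommGroup F] {f : R4 → F} (hf : Continuous f)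
    (hp : Per f) : ∃ C, ∀ x, ‖f x‖ ≤ C := by
  obtain ⟨C, hC⟩ := (isCompact_Icc (a := (0 : R4)) (b := 1)).exists_bound_of_continuousOn
    hf.continuousOn
  refine ⟨C, fun x => ?_⟩
  obtain ⟨y, hy, hyx⟩ := hp.exists_cube x
  rw [← hyx]
  exact hC y hy

theorem per_fderiv {F : Type*} [NormedAddCommGroup F] [NormedSpace ℝ F] {f : R4 → F}
    (hp : Per f) : Per (fderiv ℝ f) := by
  intro n x
  have h1 : (fun y : R4 => f (y + fun i => (n i : ℝ))) = f := by
    funext y
    exact hp n y
  have h2 := fderiv_comp_add_right (𝕜 := ℝ) (f := f) (x := x) (fun i => (n i : ℝ))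
  rw [h1] at h2
  exact h2.symm

theorem lip_of_per {F : Type*} [NormedAddCommGroup F] [NormedSpace ℝ F] {f : R4 → F}
    (hf : ContDiff ℝ 1 f) (hp : Per f) :
    ∃ L, 0 ≤ L ∧ ∀ x y, ‖f x - f y‖ ≤ L * ‖x - y‖ := by
  obtain ⟨C, hC⟩ := bdd_of_per (hf.continuous_fderiv one_ne_zero) (per_fderiv hp)
  refine ⟨C, (norm_nonneg _).trans (hC 0), fun x y => ?_⟩
  exact Convex.norm_image_sub_le_of_norm_fderiv_le
    (fun z _ => (hf.differentiable one_ne_zero) z) (fun z _ => hC z) convex_univ
    (mem_univ _) (mem_univ _)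

theorem sq_le_sin_sq {s : ℝ} (hs : |s| ≤ 1 / 2) : s ^ 2 ≤ (1 / 4) * Real.sin (π * s) ^ 2 := by
  have h1 : |π * s| ≤ π / 2 := by
    rw [abs_mul, abs_of_pos pi_pos]
    have := mul_le_mul_of_nonneg_left hs pi_pos.le
    linarith only [this]
  have h2 := Real.mul_abs_le_abs_sin h1
  have h3 : 2 / π * |π * s| = 2 * |s| := by
    rw [abs_mul, abs_of_pos pi_pos]; field_simp
  rw [h3] at h2
  have h4 := pow_le_pow_left₀ (by positivity) h2 2
  rw [mul_pow, sq_abs, sq_abs] at h4
  linarith only [h4]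

theorem dst_nonneg (q : R4) : 0 ≤ dst q := by
  unfold dst; positivity

theorem lip_dst {F : Type*} [NormedAddCommGroup F] [NormedSpace ℝ F] {f : R4 → F}
    (hf : ContDiff ℝ 1 f) (hp : Per f) :
    ∃ L, 0 ≤ L ∧ ∀ x y, ‖f x - f y‖ ^ 2 ≤ L * dst (x - y) := by
  obtain ⟨L, hL, hLip⟩ := lip_of_per hf hp
  refine ⟨L ^ 2 / 4, by (clear * -; positivity), fun x y => ?_⟩
  set n : Fin 4 → ℤ := fun i => - round (x i - y i) with hn
  have h1 : ‖f x - f y‖ ≤ L * ‖(fun i => x i + n i) - y‖ := by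
    rw [← hp n x]; exact hLip _ _
  have h2 : ∀ i, |((fun i => x i + n i) - y) i| ≤ 1 / 2 := by
    intro i
    have := abs_sub_round (x i - y i)
    have e : ((fun i => x i + n i) - y) i = (x i - y i) - round (x i - y i) := by
      simp only [hn, Pi.sub_apply]; push_cast; ring
    rw [e]; exact this
  have h3 : ‖(fun i => x i + n i) - y‖ ^ 2 ≤ (1 / 4) * dst (x - y) := by
    set z := (fun i => x i + (n i : ℝ)) - y with hz
    obtain ⟨i, -, hi⟩ := Finset.exists_max_image Finset.univ (fun i => |z i|)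
      ⟨0, Finset.mem_univ _⟩
    have h4 : ‖z‖ ≤ |z i| := by
      rw [pi_norm_le_iff_of_nonneg (abs_nonneg _)]
      intro j; exact hi j (Finset.mem_univ j)
    have h5 : ‖z‖ ^ 2 ≤ z i ^ 2 := by
      rw [← sq_abs (z i)]
      exact pow_le_pow_left₀ (norm_nonneg _) h4 2
    refine h5.trans ((sq_le_sin_sq (h2 i)).trans ?_)
    have h6 : Real.sin (π * z i) ^ 2 = Real.sin (π * (x - y) i) ^ 2 := by
      have e : π * z i = π * (x - y) i - (round (x i - y i) : ℤ) * π := by
        simp only [hz, hn, Pi.sub_apply]; push_cast; ring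
      rw [e, Real.sin_sub_int_mul_pi, mul_pow, ← zpow_natCast, ← zpow_mul, mul_comm _ (((2 : ℕ)) : ℤ),
        zpow_mul]
      simp only [Nat.cast_ofNat, zpow_ofNat, even_two, Even.neg_pow, one_pow, one_zpow, Pi.sub_apply, one_mul]
    rw [h6]
    refine mul_le_mul_of_nonneg_left ?_ (by norm_num)
    exact Finset.single_le_sum (f := fun j => Real.sin (π * (x - y) j) ^ 2)
      (fun j _ => sq_nonneg _) (Finset.mem_univ i)
  calc ‖f x - f y‖ ^ 2 ≤ (L * ‖(fun i => x i + n i) - y‖) ^ 2 :=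
        pow_le_pow_left₀ (norm_nonneg _) h1 2
    _ = L ^ 2 * ‖(fun i => x i + n i) - y‖ ^ 2 := by ring
    _ ≤ L ^ 2 * ((1 / 4) * dst (x - y)) := mul_le_mul_of_nonneg_left h3 (by (clear * -; positivity))
    _ = L ^ 2 / 4 * dst (x - y) := by ring

end Vale.Agent.P247
end
end

section

section

namespace Vale.Agent.P247

theorem abs_apply_mul_le (a b : V6) (i j : Fin 6) : |a i * b j| ≤ ‖a‖ * ‖b‖ := by
  rw [abs_mul]
  exact mul_le_mul (norm_le_pi_norm a i) (norm_le_pi_norm b j) (abs_nonneg _) (norm_nonneg _)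

theorem abs_B_le (a b : V6) : |B a b| ≤ 6 * (‖a‖ * ‖b‖) := by
  have h0 := abs_le.mp (abs_apply_mul_le a b 0 5)
  have h1 := abs_le.mp (abs_apply_mul_le a b 1 4)
  have h2 := abs_le.mp (abs_apply_mul_le a b 2 3)
  have h3 := abs_le.mp (abs_apply_mul_le a b 3 2)
  have h4 := abs_le.mp (abs_apply_mul_le a b 4 1)
  have h5 := abs_le.mp (abs_apply_mul_le a b 5 0)
  rw [B, abs_le]
  constructor <;> linarith [h0.1, h0.2, h1.1, h1.2, h2.1, h2.2, h3.1, h3.2, h4.1, h4.2, h5.1, h5.2]

/-- Uniform bounds for a pair. -/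
structure UB (g R : ℝ) (u v : V6) : Prop where
  pp : PairPos u v
  u5 : u 5 = 0
  v5 : v 5 = 0
  gd_ge : g ≤ gd u v
  norm_u : ‖u‖ ≤ R
  norm_v : ‖v‖ ≤ R

/-- A constant. -/
noncomputable def cN (R : ℝ) : ℝ := 1296 * R ^ 4

/-- The last basis vector. -/
def e5 : V6 := ![0, 0, 0, 0, 0, 1]

@[simp] theorem e5_five : e5 5 = 1 := rfl

theorem norm_e5 : ‖e5‖ ≤ 1 := by
  rw [pi_norm_le_iff_of_nonneg zero_le_one]
  intro i
  fin_cases i <;> simp [e5]

/-- The reference vector. -/
noncomputable def phi0 (g R : ℝ) : V6 := (cN R / g + 1) • nu + e5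

@[simp] theorem phi0_five (g R : ℝ) : phi0 g R 5 = 1 := by simp only [phi0, Fin.isValue, Pi.add_apply, Pi.smul_apply, nu_five, smul_eq_mul, mul_zero, e5_five, zero_add]

section
variable {g R : ℝ} {u v : V6}

theorem UB.abs_DB (h : UB g R u v) (f k : V6) : |DB u v f k| ≤ cN R * (‖f‖ * ‖k‖) := by
  have hR : 0 ≤ R := (norm_nonneg _).trans h.norm_u
  have buu : |B u u| ≤ 6 * R ^ 2 := (abs_B_le u u).trans (by
    nlinarith only [mul_le_mul h.norm_u h.norm_u (norm_nonneg u) hR])
  have bvv : |B v v| ≤ 6 * R ^ 2 := (abs_B_le v v).trans (by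
    nlinarith only [mul_le_mul h.norm_v h.norm_v (norm_nonneg v) hR])
  have buv : |B u v| ≤ 6 * R ^ 2 := (abs_B_le u v).trans (by
    nlinarith only [mul_le_mul h.norm_u h.norm_v (norm_nonneg v) hR])
  have key : ∀ (w x : V6), ‖w‖ ≤ R → |B x w| ≤ 6 * R * ‖x‖ := by
    intro w x hw
    refine (abs_B_le x w).trans ?_
    have := mul_le_mul_of_nonneg_left hw (norm_nonneg x)
    linarith only [this]
  have bfu := key u f h.norm_u
  have bku := key u k h.norm_u
  have bfv := key v f h.norm_v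
  have bkv := key v k h.norm_v
  have bfk := abs_B_le f k
  have hgd : |gd u v| ≤ 72 * R ^ 4 := by
    have h1 : |B u u * B v v| ≤ 36 * R ^ 4 := by
      rw [abs_mul]
      calc |B u u| * |B v v| ≤ (6 * R ^ 2) * (6 * R ^ 2) :=
            mul_le_mul buu bvv (abs_nonneg _) (by (clear * -; positivity))
        _ = 36 * R ^ 4 := by ring
    have h2 : |B u v ^ 2| ≤ 36 * R ^ 4 := by
      rw [abs_pow]
      calc |B u v| ^ 2 ≤ (6 * R ^ 2) ^ 2 := pow_le_pow_left₀ (abs_nonneg _) buv 2
        _ = 36 * R ^ 4 := by ring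
    rw [gd]
    exact (abs_sub _ _).trans (by linarith)
  have hp : ∀ a b : ℝ, |a| ≤ 6 * R * ‖f‖ → |b| ≤ 6 * R * ‖k‖ → |a * b| ≤ 36 * R ^ 2 * (‖f‖ * ‖k‖) := by
    intro a b ha hb
    rw [abs_mul]
    calc |a| * |b| ≤ (6 * R * ‖f‖) * (6 * R * ‖k‖) :=
          mul_le_mul ha hb (abs_nonneg _) (by (clear * - hR; positivity))
      _ = 36 * R ^ 2 * (‖f‖ * ‖k‖) := by ring
  have hq : ∀ a b : ℝ, |a| ≤ 6 * R ^ 2 → |b| ≤ 36 * R ^ 2 * (‖f‖ * ‖k‖) →
      |a * b| ≤ 216 * R ^ 4 * (‖f‖ * ‖k‖) := by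
    intro a b ha hb
    rw [abs_mul]
    calc |a| * |b| ≤ (6 * R ^ 2) * (36 * R ^ 2 * (‖f‖ * ‖k‖)) :=
          mul_le_mul ha hb (abs_nonneg _) (by (clear * -; positivity))
      _ = 216 * R ^ 4 * (‖f‖ * ‖k‖) := by ring
  have t0 : |B f k * gd u v| ≤ 432 * R ^ 4 * (‖f‖ * ‖k‖) := by
    rw [abs_mul]
    calc |B f k| * |gd u v| ≤ (6 * (‖f‖ * ‖k‖)) * (72 * R ^ 4) :=
          mul_le_mul bfk hgd (abs_nonneg _) (by (clear * -; positivity))
      _ = 432 * R ^ 4 * (‖f‖ * ‖k‖) := by ring
  have t1 := abs_le.mp (hq _ _ bvv (hp _ _ bfu bku))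
  have t2 := abs_le.mp (hq _ _ buv (hp _ _ bfu bkv))
  have t3 := abs_le.mp (hq _ _ buv (hp _ _ bfv bku))
  have t4 := abs_le.mp (hq _ _ buu (hp _ _ bfv bkv))
  have t0' := abs_le.mp t0
  rw [DB, cN, abs_le]
  constructor <;> linarith

theorem UB.R_nonneg (h : UB g R u v) : 0 ≤ R := (norm_nonneg _).trans h.norm_u

theorem UB.cN_pos (hR : 1 ≤ R) : 0 < cN R := by unfold cN; positivity

theorem UB.Dl_e5 (h : UB g R u v) : - cN R ≤ Dl u v e5 := by
  have h1 := h.abs_DB e5 e5
  have hR := h.R_nonneg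
  have hN : 0 ≤ cN R := by unfold cN; (clear * -; positivity)
  have h2 : cN R * (‖e5‖ * ‖e5‖) ≤ cN R * 1 := by
    refine mul_le_mul_of_nonneg_left ?_ hN
    have := mul_le_mul norm_e5 norm_e5 (norm_nonneg _) zero_le_one
    linarith only [this]
  rw [Dl]
  have := (abs_le.mp h1).1
  linarith only [h2, this]

/-- A quantitative perturbation statement. -/
theorem UB.perturb (hg : 0 < g) (hR : 1 ≤ R) (h : UB g R u v) {δ : V6} (hδ : δ 5 = 0) (t : ℝ) :
    phi0 g R + t • δ + (3 * cN R / (2 * g) * (t ^ 2 * ‖δ‖ ^ 2)) • nu ∈ Cone u v := by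
  have hN := UB.cN_pos hR
  set N := cN R with hNdef
  have h5 : (phi0 g R + t • δ) 5 = 1 := by simp [hδ]
  refine ⟨by simp only [Fin.isValue, Pi.add_apply, phi0_five, Pi.smul_apply, hδ, smul_eq_mul, mul_zero, add_zero, nu_five, zero_lt_one], ?_⟩
  rw [Dl_add_nu h.u5 h.v5, h5]
  have hphi : Dl u v (phi0 g R + t • δ)
      = Dl u v e5 + 2 * (N / g + 1) * gd u v + 2 * t * DB u v e5 δ + t ^ 2 * Dl u v δ := by
    have e1 : phi0 g R + t • δ = (e5 + t • δ) + (N / g + 1) • nu := by
      rw [phi0]; abel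
    rw [e1, Dl_add_nu h.u5 h.v5, Dl_add, DB_smul_right, Dl_smul]
    have : (e5 + t • δ) 5 = 1 := by simp [hδ]
    rw [this]; ring
  rw [hphi]
  have b1 := h.Dl_e5
  have b2 : |DB u v e5 δ| ≤ N * ‖δ‖ := by
    refine (h.abs_DB e5 δ).trans ?_
    have := mul_le_mul_of_nonneg_right norm_e5 (norm_nonneg δ)
    rw [one_mul] at this
    exact mul_le_mul_of_nonneg_left this hN.le
  have b3 : |Dl u v δ| ≤ N * ‖δ‖ ^ 2 := by
    refine (h.abs_DB δ δ).trans ?_
    rw [pow_two]
  set y := |t| * ‖δ‖ with hy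
  have hy2 : t ^ 2 * ‖δ‖ ^ 2 = y ^ 2 := by rw [hy, mul_pow, sq_abs]
  have c2 : -(2 * N * y) ≤ 2 * t * DB u v e5 δ := by
    have : |2 * t * DB u v e5 δ| ≤ 2 * N * y := by
      rw [abs_mul, abs_mul, hy, abs_two]
      have := mul_le_mul_of_nonneg_left b2 (abs_nonneg t)
      linarith only [this]
    exact (abs_le.mp this).1
  have c3 : -(N * y ^ 2) ≤ t ^ 2 * Dl u v δ := by
    have : |t ^ 2 * Dl u v δ| ≤ N * y ^ 2 := by
      rw [abs_mul, abs_of_nonneg (sq_nonneg t), ← hy2]
      have := mul_le_mul_of_nonneg_left b3 (sq_nonneg t)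
      linarith only [this]
    exact (abs_le.mp this).1
  have c4 : 2 * N + 2 * g ≤ 2 * (N / g + 1) * gd u v := by
    have : 2 * (N / g + 1) * g = 2 * N + 2 * g := by field_simp
    rw [← this]
    exact mul_le_mul_of_nonneg_left h.gd_ge (by positivity)
  have c5 : 3 * N * y ^ 2 ≤ 2 * (3 * N / (2 * g) * (t ^ 2 * ‖δ‖ ^ 2)) * gd u v * 1 := by
    rw [hy2]
    have : 2 * (3 * N / (2 * g) * y ^ 2) * g = 3 * N * y ^ 2 := by (clear * - hg hN; field_simp)
    rw [← this, mul_one]
    exact mul_le_mul_of_nonneg_left h.gd_ge (by (clear * - hN hg; positivity))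
  have c6 : 0 ≤ N * (1 - 2 * y + 2 * y ^ 2) := by
    refine mul_nonneg hN.le ?_
    nlinarith only []
  linarith only [hg, b1, c2, c3, c4, c5, c6]

theorem UB.phi0_mem (hg : 0 < g) (hR : 1 ≤ R) (h : UB g R u v) : phi0 g R ∈ Cone u v := by
  have := h.perturb hg hR (δ := 0) rfl 0
  simpa only [smul_zero, add_zero, ne_eq, OfNat.ofNat_ne_zero, not_false_eq_true, zero_pow, norm_zero, mul_zero,     zero_smul] using this

theorem UB.phi0_sub_mem (hg : 0 < g) (hR : 1 ≤ R) (h : UB g R u v) :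
    phi0 g R - nu ∈ Cone u v := by
  have hN := UB.cN_pos hR
  have e1 : phi0 g R - nu = e5 + (cN R / g) • nu := by
    rw [phi0, add_smul, one_smul]; abel
  refine ⟨by simp only [Fin.isValue, Pi.sub_apply, phi0_five, nu_five, sub_zero, zero_lt_one], ?_⟩
  rw [e1, Dl_add_nu h.u5 h.v5, e5_five]
  have b1 := h.Dl_e5
  have c4 : 2 * cN R ≤ 2 * (cN R / g) * gd u v := by
    have : 2 * (cN R / g) * g = 2 * cN R := by (clear * - hg hN; field_simp)
    rw [← this]
    exact mul_le_mul_of_nonneg_left h.gd_ge (by positivity)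
  linarith

theorem UB.one_lt (hg : 0 < g) (hR : 1 ≤ R) (h : UB g R u v) {X : V6} (hX : X ∈ Null1 u v) :
    1 < B X (phi0 g R) := by
  have := B_pos_of_mem_cone h.u5 h.v5 h.pp hX (h.phi0_sub_mem hg hR)
  rw [B_sub_right, B_nu_right, hX.2.2.2] at this
  linarith only [this]

/-- A Cauchy–Schwarz estimate. -/
theorem UB.cs (hg : 0 < g) (hR : 1 ≤ R) (h : UB g R u v) {X δ : V6} (hX : X ∈ Null1 u v)
    (hδ : δ 5 = 0) : B X δ ^ 2 ≤ 6 * cN R / g * ‖δ‖ ^ 2 * B X (phi0 g R) := by
  have h1 : ∀ t : ℝ, 0 ≤ (3 * cN R / (2 * g) * ‖δ‖ ^ 2) * (t * t) + B X δ * t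
      + B X (phi0 g R) := by
    intro t
    have := B_pos_of_mem_cone h.u5 h.v5 h.pp hX (h.perturb hg hR hδ t)
    rw [B_add_right, B_add_right, B_smul_right, B_smul_right, B_nu_right, hX.2.2.2] at this
    linarith
  have h2 := discrim_le_zero h1
  rw [discrim] at h2
  have h3 : 4 * (3 * cN R / (2 * g) * ‖δ‖ ^ 2) * B X (phi0 g R)
      = 6 * cN R / g * ‖δ‖ ^ 2 * B X (phi0 g R) := by
    field_simp; ring
  linarith

/-- The constant of the main estimate. -/
noncomputable def cC (g R : ℝ) : ℝ := 72 * R ^ 2 * cN R / g ^ 2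

theorem cC_nonneg (g : ℝ) (hR : 1 ≤ R) : 0 ≤ cC g R := by
  have hN := UB.cN_pos hR
  unfold cC; positivity

/-- The main pointwise estimate. -/
theorem UB.main (hg : 0 < g) (hR : 1 ≤ R) (h : UB g R u v) {u' v' X : V6} (h' : UB g R u' v')
    (hX : X ∈ Null1 u' v') {s k r ε : ℝ} (hs : ‖u - u'‖ ^ 2 ≤ s) (hs' : ‖v - v'‖ ^ 2 ≤ s)
    (hk : 0 ≤ k) (hr : k * s ≤ r) (hε : 0 < ε) :
    k • X + (cC g R * B X (phi0 g R) * r) • nu + ε • phi0 g R ∈ Cone u v := by
  have hN := UB.cN_pos hR
  have hb := h'.one_lt hg hR hX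
  set b := B X (phi0 g R) with hbdef
  have hb0 : 0 < b := by linarith only [hb]
  have hs0 : 0 ≤ s := (sq_nonneg _).trans hs
  have hr0 : 0 ≤ r := (mul_nonneg hk hs0).trans hr
  have hC := cC_nonneg g hR
  have hmem := smul_mem_cone hε (h.phi0_mem hg hR)
  rcases eq_or_lt_of_le hk with hk0 | hk0
  · rw [← hk0, zero_smul, zero_add, add_comm]
    exact add_nu_mem_cone h.u5 h.v5 h.pp (by (clear * - hC hb hr0; positivity)) hmem
  · refine add_mem_cone h.u5 h.v5 h.pp ?_ ?_ hmem
    · simp [hX.2.2.2, hk0]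
    · rw [Dl_add_nu h.u5 h.v5, Dl_smul]
      have h5 : (k • X) 5 = k := by simp [hX.2.2.2]
      rw [h5]
      -- estimates of `B X u`, `B X v`
      have hu5 : (u - u') 5 = 0 := by simp [h.u5, h'.u5]
      have hv5 : (v - v') 5 = 0 := by simp [h.v5, h'.v5]
      have c1 : B X u ^ 2 ≤ 6 * cN R / g * s * b := by
        have e1 : B X u = B X (u - u') := by rw [B_sub_right, hX.1, sub_zero]
        rw [e1]
        refine (h'.cs hg hR hX hu5).trans ?_
        refine mul_le_mul_of_nonneg_right ?_ hb0.le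
        exact mul_le_mul_of_nonneg_left hs (by (clear * - hN hg; positivity))
      have c2 : B X v ^ 2 ≤ 6 * cN R / g * s * b := by
        have e1 : B X v = B X (v - v') := by rw [B_sub_right, hX.2.1, sub_zero]
        rw [e1]
        refine (h'.cs hg hR hX hv5).trans ?_
        refine mul_le_mul_of_nonneg_right ?_ hb0.le
        exact mul_le_mul_of_nonneg_left hs' (by positivity)
      have hR0 := h.R_nonneg
      have buu : |B u u| ≤ 6 * R ^ 2 := (abs_B_le u u).trans (by
        nlinarith only [mul_le_mul h.norm_u h.norm_u (norm_nonneg u) hR0])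
      have bvv : |B v v| ≤ 6 * R ^ 2 := (abs_B_le v v).trans (by
        nlinarith only [mul_le_mul h.norm_v h.norm_v (norm_nonneg v) hR0])
      have buv : |B u v| ≤ 6 * R ^ 2 := (abs_B_le u v).trans (by
        nlinarith only [mul_le_mul h.norm_u h.norm_v (norm_nonneg v) hR0])
      have hDX : -(24 * R ^ 2 * (6 * cN R / g * s * b)) ≤ Dl u v X := by
        rw [Dl, DB, hX.2.2.1]
        set p := B X u
        set q := B X v
        have d1 : B v v * (p * p) ≤ 6 * R ^ 2 * p ^ 2 := by
          rw [← pow_two]; exact mul_le_mul_of_nonneg_right (abs_le.mp bvv).2 (sq_nonneg _)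
        have d2 : B u u * (q * q) ≤ 6 * R ^ 2 * q ^ 2 := by
          rw [← pow_two]; exact mul_le_mul_of_nonneg_right (abs_le.mp buu).2 (sq_nonneg _)
        have d3 : -(6 * R ^ 2 * (p ^ 2 + q ^ 2)) ≤ B u v * (p * q + q * p) := by
          have e1 : |B u v * (p * q + q * p)| ≤ 6 * R ^ 2 * (p ^ 2 + q ^ 2) := by
            rw [abs_mul]
            refine mul_le_mul buv ?_ (abs_nonneg _) (by positivity)
            rw [abs_le]; constructor <;> nlinarith only [sq_nonneg (p + q), sq_nonneg (p - q)]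
          exact (abs_le.mp e1).1
        have d4 : R ^ 2 * p ^ 2 ≤ R ^ 2 * (6 * cN R / g * s * b) :=
          mul_le_mul_of_nonneg_left c1 (by positivity)
        have d5 : R ^ 2 * q ^ 2 ≤ R ^ 2 * (6 * cN R / g * s * b) :=
          mul_le_mul_of_nonneg_left c2 (by positivity)
        linarith
      have e2 : 2 * (cC g R * b * (k * s)) * g * k ≤ 2 * (cC g R * b * r) * gd u v * k := by
        refine mul_le_mul_of_nonneg_right ?_ hk
        refine mul_le_mul ?_ h.gd_ge hg.le (by (clear * - hC hb hr0; positivity))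
        have := mul_le_mul_of_nonneg_left hr (by (clear * - hC hb; positivity) : 0 ≤ cC g R * b)
        linarith only [this]
      have e3 : 2 * (cC g R * b * (k * s)) * g * k
          = k ^ 2 * (24 * R ^ 2 * (6 * cN R / g * s * b)) := by
        unfold cC; field_simp; ring
      have e4 := mul_le_mul_of_nonneg_left hDX (sq_nonneg k)
      linarith only [e2, e3, e4]

end

end Vale.Agent.P247
end
end

section

section

open Real Set

namespace Vale.Agent.P247

theorem continuous_sinm (m : Fin 4 → ℤ) : Continuous (sinm m) := by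
  unfold sinm; fun_prop

/-- `cos (2 π m · x)` as a continuous map. -/
noncomputable def cosC (m : Fin 4 → ℤ) : C(R4, ℝ) := ⟨cosm m, continuous_cosm m⟩

/-- `sin (2 π m · x)` as a continuous map. -/
noncomputable def sinC (m : Fin 4 → ℤ) : C(R4, ℝ) := ⟨sinm m, continuous_sinm m⟩

@[simp] theorem cosC_apply (m : Fin 4 → ℤ) (x : R4) : cosC m x = cosm m x := rfl
@[simp] theorem sinC_apply (m : Fin 4 → ℤ) (x : R4) : sinC m x = sinm m x := rfl

@[simp] theorem sinm_zero (x : R4) : sinm 0 x = 0 := by simp [sinm]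

/-- A function times a constant vector. -/
def tens (g : C(R4, ℝ)) (w : V6) : C(R4, V6) := ⟨fun x => g x • w, by fun_prop⟩

@[simp] theorem tens_apply (g : C(R4, ℝ)) (w : V6) (x : R4) : tens g w x = g x • w := rfl

theorem tens_add_right (g : C(R4, ℝ)) (w w' : V6) : tens g (w + w') = tens g w + tens g w' := by
  ext x i; simp [mul_add]

theorem tens_smul_right (a : ℝ) (g : C(R4, ℝ)) (w : V6) : tens g (a • w) = a • tens g w := by
  ext x i; simp only [tens_apply, Pi.smul_apply, smul_eq_mul, ContinuousMap.coe_smul]; ring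

/-- `tens` as a linear map in the vector. -/
def tensR (g : C(R4, ℝ)) : V6 →ₗ[ℝ] C(R4, V6) where
  toFun := tens g
  map_add' := tens_add_right g
  map_smul' a w := tens_smul_right a g w

/-- The `B`-dual vector of a functional paired with a function. -/
noncomputable def vec (L : C(R4, V6) →ₗ[ℝ] ℝ) (g : C(R4, ℝ)) : V6 :=
  ![L (tens g fun j => if 5 = j then 1 else 0), - L (tens g fun j => if 4 = j then 1 else 0),
    L (tens g fun j => if 3 = j then 1 else 0), L (tens g fun j => if 2 = j then 1 else 0),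
    - L (tens g fun j => if 1 = j then 1 else 0), L (tens g fun j => if 0 = j then 1 else 0)]

theorem B_vec (L : C(R4, V6) →ₗ[ℝ] ℝ) (g : C(R4, ℝ)) (w : V6) :
    B (vec L g) w = L (tens g w) := by
  have h := LinearMap.pi_apply_eq_sum_univ (L ∘ₗ tensR g) w
  simp only [LinearMap.comp_apply, Fin.sum_univ_six, smul_eq_mul] at h
  change L (tens g w) = _ at h
  rw [h]
  simp only [B, vec, Matrix.cons_val_zero, Matrix.cons_val_one, Matrix.cons_val, tensR, LinearMap.coe_mk, AddHom.coe_mk]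
  ring

/-- The wedge product of a covector with a covector. -/
def mw (μ β : Fin 4 → ℝ) : V6 :=
  ![μ 0 * β 1 - μ 1 * β 0, μ 0 * β 2 - μ 2 * β 0, μ 0 * β 3 - μ 3 * β 0,
    μ 1 * β 2 - μ 2 * β 1, μ 1 * β 3 - μ 3 * β 1, μ 2 * β 3 - μ 3 * β 2]

theorem B_self_zero_of_orth {X : V6} {μ : Fin 4 → ℝ} (hμ : μ ≠ 0)
    (h : ∀ β : Fin 4 → ℝ, B X (mw μ β) = 0) : B X X = 0 := by
  have E0 := h ![1, 0, 0, 0]
  have E1 := h ![0, 1, 0, 0]
  have E2 := h ![0, 0, 1, 0]
  have E3 := h ![0, 0, 0, 1]
  simp only [B, mw, Matrix.cons_val_zero, Matrix.cons_val_one, Matrix.cons_val] at E0 E1 E2 E3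
  have h0 : μ 0 * (X 0 * X 5 - X 1 * X 4 + X 2 * X 3) = 0 := by
    linear_combination X 0 * E1 + X 1 * E2 + X 2 * E3
  have h1 : μ 1 * (X 0 * X 5 - X 1 * X 4 + X 2 * X 3) = 0 := by
    linear_combination -X 0 * E0 + X 4 * E3 + X 3 * E2
  have h2 : μ 2 * (X 0 * X 5 - X 1 * X 4 + X 2 * X 3) = 0 := by
    linear_combination -X 1 * E0 - X 3 * E1 + X 5 * E3
  have h3 : μ 3 * (X 0 * X 5 - X 1 * X 4 + X 2 * X 3) = 0 := by
    linear_combination -X 2 * E0 - X 4 * E1 - X 5 * E2
  obtain ⟨j, hj⟩ : ∃ j, μ j ≠ 0 := by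
    by_contra hc
    push Not at hc
    exact hμ (funext hc)
  have hP : X 0 * X 5 - X 1 * X 4 + X 2 * X 3 = 0 := by
    fin_cases j
    · exact (mul_eq_zero.mp h0).resolve_left hj
    · exact (mul_eq_zero.mp h1).resolve_left hj
    · exact (mul_eq_zero.mp h2).resolve_left hj
    · exact (mul_eq_zero.mp h3).resolve_left hj
  simp only [B]
  linear_combination 2 * hP

/-- Translates of a trigonometric polynomial. -/
noncomputable def trC (c : (Fin 4 → ℤ) →₀ ℝ) (q : R4) : C(R4, ℝ) :=
  ∑ m ∈ c.support, c m • (cosm m q • cosC m + sinm m q • sinC m)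

theorem cosm_sub (m : Fin 4 → ℤ) (p q : R4) :
    cosm m (p - q) = cosm m q * cosm m p + sinm m q * sinm m p := by
  simp only [cosm, sinm]
  have : 2 * π * ∑ j, (m j : ℝ) * (p - q) j
      = 2 * π * (∑ j, (m j : ℝ) * p j) - 2 * π * ∑ j, (m j : ℝ) * q j := by
    rw [← mul_sub, ← Finset.sum_sub_distrib]
    congr 1
    refine Finset.sum_congr rfl fun j _ => ?_
    simp only [Pi.sub_apply]; ring
  rw [this, Real.cos_sub]; ring

theorem trC_apply (c : (Fin 4 → ℤ) →₀ ℝ) (q p : R4) : trC c q p = trig c (p - q) := by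
  simp only [trC, trig, Finsupp.sum, ContinuousMap.sum_apply, ContinuousMap.smul_apply,
    ContinuousMap.add_apply, cosC_apply, sinC_apply, smul_eq_mul, cosm_sub]

/-- The functional applied to translates of a trigonometric polynomial, as a function. -/
noncomputable def GC (L : C(R4, V6) →ₗ[ℝ] ℝ) (c : (Fin 4 → ℤ) →₀ ℝ) : C(R4, V6) :=
  ∑ m ∈ c.support, c m • (tens (cosC m) (vec L (cosC m)) + tens (sinC m) (vec L (sinC m)))

theorem L_tens_trC (L : C(R4, V6) →ₗ[ℝ] ℝ) (c : (Fin 4 → ℤ) →₀ ℝ) (q : R4) (w : V6) :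
    L (tens (trC c q) w) = ∑ m ∈ c.support, c m * (cosm m q * L (tens (cosC m) w)
      + sinm m q * L (tens (sinC m) w)) := by
  have h : tens (trC c q) w = ∑ m ∈ c.support, c m • (cosm m q • tens (cosC m) w
      + sinm m q • tens (sinC m) w) := by
    ext x i
    simp only [tens_apply, trC, ContinuousMap.sum_apply, ContinuousMap.smul_apply,
      ContinuousMap.add_apply, Finset.sum_apply, Pi.smul_apply, Pi.add_apply, smul_eq_mul,
      Finset.sum_mul]
    refine Finset.sum_congr rfl fun m _ => by ring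
  rw [h, map_sum]
  refine Finset.sum_congr rfl fun m _ => ?_
  rw [map_smul, map_add, map_smul, map_smul]
  rfl

theorem GC_apply (L : C(R4, V6) →ₗ[ℝ] ℝ) (c : (Fin 4 → ℤ) →₀ ℝ) (q : R4) (w : V6) :
    B (GC L c q) w = L (tens (trC c q) w) := by
  have hlin : ∀ (s : Finset (Fin 4 → ℤ)) (F : (Fin 4 → ℤ) → V6),
      B (∑ m ∈ s, F m) w = ∑ m ∈ s, B (F m) w := by
    intro s F
    classical
    induction s using Finset.induction_on with
    | empty => simp
    | insert a s ha ih => rw [Finset.sum_insert ha, Finset.sum_insert ha, B_add_left, ih]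
  rw [L_tens_trC]
  simp only [GC, ContinuousMap.sum_apply, ContinuousMap.smul_apply, ContinuousMap.add_apply,
    tens_apply]
  rw [hlin]
  refine Finset.sum_congr rfl fun m _ => ?_
  rw [B_smul_left, B_add_left, B_smul_left, B_smul_left, B_vec, B_vec]
  rfl

/-- The functional vanishes on exact trigonometric forms. -/
structure KillsTrig (L : C(R4, V6) →ₗ[ℝ] ℝ) : Prop where
  cos : ∀ (m : Fin 4 → ℤ) (β : Fin 4 → ℝ), L (tens (cosC m) (mw (fun i => m i) β)) = 0
  sin : ∀ (m : Fin 4 → ℤ) (β : Fin 4 → ℝ), L (tens (sinC m) (mw (fun i => m i) β)) = 0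

theorem cast_ne_zero {m : Fin 4 → ℤ} (hm : m ≠ 0) : (fun i => (m i : ℝ)) ≠ 0 := by
  intro h
  apply hm
  funext i
  have := congrFun h i
  simpa using this

theorem tens_sinC_zero (w : V6) : tens (sinC 0) w = 0 := by
  ext x i; simp

theorem L_GC {L : C(R4, V6) →ₗ[ℝ] ℝ} (hL : KillsTrig L) (c : (Fin 4 → ℤ) →₀ ℝ) :
    L (GC L c) = c 0 * B (vec L (cosC 0)) (vec L (cosC 0)) := by
  rw [GC, map_sum]
  have h : ∀ m ∈ c.support, L (c m • (tens (cosC m) (vec L (cosC m))
      + tens (sinC m) (vec L (sinC m))))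
      = if m = 0 then c 0 * B (vec L (cosC 0)) (vec L (cosC 0)) else 0 := by
    intro m _
    rw [map_smul, map_add, ← B_vec, ← B_vec, smul_eq_mul]
    split_ifs with hm
    · subst hm
      rw [B_vec L (sinC 0), tens_sinC_zero, map_zero L, add_zero]
    · have h1 : B (vec L (cosC m)) (vec L (cosC m)) = 0 := by
        apply B_self_zero_of_orth (cast_ne_zero hm)
        intro β; rw [B_vec]; exact hL.cos m β
      have h2 : B (vec L (sinC m)) (vec L (sinC m)) = 0 := by
        apply B_self_zero_of_orth (cast_ne_zero hm)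
        intro β; rw [B_vec]; exact hL.sin m β
      rw [h1, h2]; ring
  rw [Finset.sum_congr rfl h, Finset.sum_ite_eq']
  split_ifs with h0
  · rfl
  · rw [Finsupp.notMem_support_iff.mp h0]; ring

theorem exists_mw_eq_nu {m : Fin 4 → ℤ} (hm : m ≠ 0) (h2 : m 2 = 0) (h3 : m 3 = 0) :
    ∃ β : Fin 4 → ℝ, mw (fun i => m i) β = nu := by
  by_cases h0 : m 0 = 0
  · have h1 : m 1 ≠ 0 := by
      intro h1
      apply hm
      funext i
      fin_cases i <;> simp [h0, h1, h2, h3]
    refine ⟨![-(1 / (m 1 : ℝ)), 0, 0, 0], ?_⟩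
    funext i
    fin_cases i <;> simp [mw, nu, h0, h2, h3, h1]
  · refine ⟨![0, 1 / (m 0 : ℝ), 0, 0], ?_⟩
    funext i
    fin_cases i <;> simp [mw, nu, h0, h2, h3]

theorem L_trC_nu {L : C(R4, V6) →ₗ[ℝ] ℝ} (hL : KillsTrig L) {r : (Fin 4 → ℤ) →₀ ℝ}
    (hr : ∀ m ∈ r.support, m 2 = 0 ∧ m 3 = 0) (q : R4) :
    L (tens (trC r q) nu) = r 0 * L (tens (cosC 0) nu) := by
  rw [L_tens_trC]
  have h : ∀ m ∈ r.support, r m * (cosm m q * L (tens (cosC m) nu)
      + sinm m q * L (tens (sinC m) nu)) = if m = 0 then r 0 * L (tens (cosC 0) nu) else 0 := by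
    intro m hm
    split_ifs with h0
    · subst h0
      rw [cosm_zero, sinm_zero]; ring
    · obtain ⟨β, hβ⟩ := exists_mw_eq_nu h0 (hr m hm).1 (hr m hm).2
      have h1 := hL.cos m β
      have h2 := hL.sin m β
      rw [hβ] at h1 h2
      rw [h1, h2]; ring
  rw [Finset.sum_congr rfl h, Finset.sum_ite_eq']
  split_ifs with h0
  · rfl
  · rw [Finsupp.notMem_support_iff.mp h0]; ring

theorem cosC_zero_apply (x : R4) : cosC 0 x = 1 := by simp

theorem L_phi_nonneg {g R : ℝ} (hg : 0 < g) (hR : 1 ≤ R) {u v : R4 → V6}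
    (hUB : ∀ p ∈ Icc (0 : R4) 1, UB g R (u p) (v p)) {L : C(R4, V6) →ₗ[ℝ] ℝ}
    (hpos : ∀ f : C(R4, V6), (∀ p ∈ Icc (0 : R4) 1, f p ∈ Cone (u p) (v p)) → 0 ≤ L f) :
    0 ≤ L (tens (cosC 0) (phi0 g R)) := by
  refine hpos _ fun p hp => ?_
  rw [tens_apply, cosC_zero_apply, one_smul]
  exact (hUB p hp).phi0_mem hg hR

theorem L_nu_nonneg {g R : ℝ} (hg : 0 < g) (hR : 1 ≤ R) {u v : R4 → V6}
    (hUB : ∀ p ∈ Icc (0 : R4) 1, UB g R (u p) (v p)) {L : C(R4, V6) →ₗ[ℝ] ℝ}
    (hpos : ∀ f : C(R4, V6), (∀ p ∈ Icc (0 : R4) 1, f p ∈ Cone (u p) (v p)) → 0 ≤ L f)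
    {k : C(R4, ℝ)} (hk : ∀ x, 0 ≤ k x) : 0 ≤ L (tens k nu) := by
  set φ := phi0 g R with hφ
  set Lφ := L (tens (cosC 0) φ) with hLφ
  have hLφ0 : 0 ≤ Lφ := L_phi_nonneg hg hR hUB hpos
  have h1 : ∀ ε : ℝ, 0 < ε → 0 ≤ L (tens k nu) + ε * Lφ := by
    intro ε hε
    have h2 : 0 ≤ L (tens k nu + ε • tens (cosC 0) φ) := by
      refine hpos _ fun p hp => ?_
      rw [ContinuousMap.add_apply, ContinuousMap.smul_apply, tens_apply, tens_apply,
        cosC_zero_apply, one_smul, add_comm]
      exact add_nu_mem_cone (hUB p hp).u5 (hUB p hp).v5 (hUB p hp).pp (hk p)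
        (smul_mem_cone hε ((hUB p hp).phi0_mem hg hR))
    rwa [map_add, map_smul, smul_eq_mul] at h2
  by_contra hc
  push Not at hc
  have h3 := h1 (-(L (tens k nu)) / (2 * (Lφ + 1))) (by
    apply div_pos <;> linarith only [hLφ0, hc])
  have h4 : -(L (tens k nu)) / (2 * (Lφ + 1)) * Lφ ≤ -(L (tens k nu)) / 2 := by
    rw [div_mul_eq_mul_div, div_le_div_iff₀ (by linarith only [hLφ0]) (by norm_num)]
    nlinarith only [hc]
  linarith

/-- The positivity of the mean of a functional that is nonnegative on cone valued functions and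
vanishes on exact forms. -/
theorem B_mean_nonneg {g R : ℝ} (hg : 0 < g) (hR : 1 ≤ R) {u v : R4 → V6}
    (hUB : ∀ p ∈ Icc (0 : R4) 1, UB g R (u p) (v p)) {K : ℝ} (hK : 0 ≤ K)
    (hlu : ∀ x y, ‖u x - u y‖ ^ 2 ≤ K * dst (x - y))
    (hlv : ∀ x y, ‖v x - v y‖ ^ 2 ≤ K * dst (x - y))
    {L : C(R4, V6) →ₗ[ℝ] ℝ} (hL : KillsTrig L)
    (hpos : ∀ f : C(R4, V6), (∀ p ∈ Icc (0 : R4) 1, f p ∈ Cone (u p) (v p)) → 0 ≤ L f) :
    0 ≤ B (vec L (cosC 0)) (vec L (cosC 0)) := by
  set φ := phi0 g R with hφ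
  set Lφ := L (tens (cosC 0) φ) with hLφ
  set Lν := L (tens (cosC 0) nu) with hLν
  have hLφ0 : 0 ≤ Lφ := L_phi_nonneg hg hR hUB hpos
  -- positivity on nonnegative multiples of `ν`
  have hnu : ∀ k : C(R4, ℝ), (∀ x, 0 ≤ k x) → 0 ≤ L (tens k nu) :=
    fun k hk => L_nu_nonneg hg hR hUB hpos hk
  have hLν0 : 0 ≤ Lν := hnu _ fun x => by rw [cosC_zero_apply]; norm_num
  set a := cC g R * K with ha
  have ha0 : 0 ≤ a := mul_nonneg (cC_nonneg g hR) hK
  set bt := B (vec L (cosC 0)) (vec L (cosC 0)) with hbt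
  have key : ∀ ε : ℝ, 0 < ε → 0 ≤ bt + ε * ((a * Lν + Lφ + 1) * Lφ) := by
    intro ε hε
    obtain ⟨c, r, hc0, hr0, hrs, hcpos, hcr⟩ := exists_kernel hε
    have hk0 : ∀ q x, 0 ≤ trC c q x := fun q x => by rw [trC_apply]; exact hcpos _
    have hr0' : ∀ q x, 0 ≤ trC r q x := fun q x => by
      rw [trC_apply]
      exact (mul_nonneg (hcpos _) (dst_nonneg _)).trans (hcr _)
    have hrν : 0 ≤ r 0 * Lν := by
      have := hnu _ (hr0' 0)
      rwa [L_trC_nu hL hrs] at this
    set s := a * (r 0 * Lν) + ε * (Lφ + 1) with hs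
    have hs0 : 0 < s := by
      have h1 : 0 < ε * (Lφ + 1) := by (clear * - hε hLφ0; positivity)
      have h2 : 0 ≤ a * (r 0 * Lν) := mul_nonneg ha0 hrν
      linarith only [h1, h2]
    have hG : 0 ≤ L (GC L c + s • tens (cosC 0) φ) := by
      refine hpos _ fun p' hp' => ?_
      have hU := hUB p' hp'
      rw [ContinuousMap.add_apply, ContinuousMap.smul_apply, tens_apply, cosC_zero_apply,
        one_smul]
      refine mem_cone_of_B_pos hU.u5 hU.v5 hU.pp ?_ ?_
      · have h1 : (GC L c p' + s • φ) 5 = L (tens (trC c p') nu) + s := by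
          rw [Pi.add_apply, Pi.smul_apply, hφ, phi0_five, ← B_nu_right (GC L c p'), GC_apply]
          simp
        rw [h1]
        have := hnu _ (hk0 p')
        linarith only [hs0, this]
      · intro X hX
        have hb := hU.one_lt hg hR hX
        set b := B X φ with hbdef
        have h1 : 0 ≤ L (tens (trC c p') X + (cC g R * b * K) • tens (trC r p') nu
            + ε • tens (cosC 0) φ) := by
          refine hpos _ fun p hp => ?_
          have h2 := (hUB p hp).main hg hR hU hX (s := K * dst (p - p')) (k := trC c p' p)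
            (r := K * trC r p' p) (ε := ε) (hlu p p') (hlv p p') (hk0 p' p) (by
              rw [trC_apply, trC_apply]
              have := mul_le_mul_of_nonneg_left (hcr (p - p')) hK
              linarith only [this]) hε
          have h3 : (tens (trC c p') X + (cC g R * b * K) • tens (trC r p') nu
              + ε • tens (cosC 0) φ) p = trC c p' p • X
                + (cC g R * B X (phi0 g R) * (K * trC r p' p)) • nu + ε • phi0 g R := by
            simp only [ContinuousMap.add_apply, ContinuousMap.smul_apply, tens_apply,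
              cosC_zero_apply, one_smul, smul_smul]
            congr 3
            ring
          rw [h3]; exact h2
        rw [map_add, map_add, map_smul, map_smul, L_trC_nu hL hrs, smul_eq_mul, smul_eq_mul,
          ← GC_apply] at h1
        rw [B_add_right, B_smul_right, B_comm X]
        have h4 : 0 ≤ ε * (Lφ * (b - 1)) := by
          have : 0 ≤ b - 1 := by linarith only [hb]
          (clear * - hε hLφ0 hb; positivity)
        have h5 : 0 < ε * b := by
          have : 0 < b := by linarith only [hb]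
          (clear * - hε hb; positivity)
        have h6 : B (GC L c p') X + s * b
            = (B (GC L c p') X + cC g R * b * K * (r 0 * Lν) + ε * Lφ)
              + ε * (Lφ * (b - 1)) + ε * b := by
          rw [hs, ha]; ring
        rw [h6]
        linarith only [h1, h4, h5]
    rw [map_add, map_smul, smul_eq_mul, L_GC hL, hc0, one_mul] at hG
    have h7 : s ≤ ε * (a * Lν + Lφ + 1) := by
      have : a * (r 0 * Lν) ≤ a * (ε * Lν) :=
        mul_le_mul_of_nonneg_left (mul_le_mul_of_nonneg_right hr0 hLν0) ha0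
      rw [hs]; linarith only [this]
    have h8 := mul_le_mul_of_nonneg_right h7 hLφ0
    linarith only [hG, h8]
  by_contra hcon
  push Not at hcon
  set M := (a * Lν + Lφ + 1) * Lφ with hM
  have hM0 : 0 ≤ M := by (clear * - ha0 hLν0 hLφ0; positivity)
  have h1 := key (-bt / (2 * (M + 1))) (by apply div_pos <;> linarith only [hM0, hcon])
  have h2 : -bt / (2 * (M + 1)) * M ≤ -bt / 2 := by
    rw [div_mul_eq_mul_div, div_le_div_iff₀ (by linarith only [hM0]) (by norm_num)]
    nlinarith only [hcon]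
  linarith only [hcon, h1, h2]

end Vale.Agent.P247
end
end

section

section

open Real Set
open scoped ContDiff

namespace Vale.Agent.P247

/-- Coordinates of the exterior derivative of the one-form `∑ aᵢ dxᵢ`. -/
noncomputable def d1 (a : Fin 4 → R4 → ℝ) (x : R4) : V6 :=
  ![pd 0 (a 1) x - pd 1 (a 0) x, pd 0 (a 2) x - pd 2 (a 0) x, pd 0 (a 3) x - pd 3 (a 0) x,
    pd 1 (a 2) x - pd 2 (a 1) x, pd 1 (a 3) x - pd 3 (a 1) x, pd 2 (a 3) x - pd 3 (a 2) x]

/-- Smooth periodic functions. -/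
def SmP (f : R4 → ℝ) : Prop := ContDiff ℝ ∞ f ∧ Per f

theorem continuous_pd {f : R4 → ℝ} (hf : ContDiff ℝ ∞ f) (i : Fin 4) : Continuous (pd i f) := by
  have h := hf.continuous_fderiv (by simp)
  exact h.clm_apply continuous_const

theorem continuous_d1 {a : Fin 4 → R4 → ℝ} (ha : ∀ i, SmP (a i)) : Continuous (d1 a) := by
  have h := fun i j => continuous_pd (ha j).1 i
  refine continuous_pi fun k => ?_
  fin_cases k
  · exact (h 0 1).sub (h 1 0)
  · exact (h 0 2).sub (h 2 0)
  · exact (h 0 3).sub (h 3 0)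
  · exact (h 1 2).sub (h 2 1)
  · exact (h 1 3).sub (h 3 1)
  · exact (h 2 3).sub (h 3 2)

theorem pd_lin {f g : R4 → ℝ} (hf : ContDiff ℝ ∞ f) (hg : ContDiff ℝ ∞ g) (s t : ℝ) (i : Fin 4)
    (x : R4) : pd i (fun x => s * f x + t * g x) x = s * pd i f x + t * pd i g x := by
  have h1 := (hf.differentiable (by simp)) x
  have h2 := (hg.differentiable (by simp)) x
  have h3 : HasFDerivAt (fun x => s * f x + t * g x) (s • fderiv ℝ f x + t • fderiv ℝ g x) x :=
    (h1.hasFDerivAt.const_mul s).add (h2.hasFDerivAt.const_mul t)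
  rw [pd, h3.fderiv]
  simp only [add_apply, smul_apply, smul_eq_mul, pd]

theorem d1_lin {a b : Fin 4 → R4 → ℝ} (ha : ∀ i, SmP (a i)) (hb : ∀ i, SmP (b i)) (s t : ℝ)
    (x : R4) : d1 (fun i x => s * a i x + t * b i x) x = s • d1 a x + t • d1 b x := by
  have h := fun i j => pd_lin (ha j).1 (hb j).1 s t i x
  funext k
  fin_cases k <;> simp [d1, h] <;> ring

theorem SmP.lin {f g : R4 → ℝ} (hf : SmP f) (hg : SmP g) (s t : ℝ) :
    SmP fun x => s * f x + t * g x :=
  ⟨(contDiff_const.mul hf.1).add (contDiff_const.mul hg.1), fun n x => by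
    simp only [hf.2 n x, hg.2 n x]⟩

theorem SmP.zero : SmP fun _ => (0 : ℝ) := ⟨contDiff_const, fun _ _ => rfl⟩

theorem per_d1 {a : Fin 4 → R4 → ℝ} (ha : ∀ i, SmP (a i)) : Per (d1 a) := by
  intro n x
  have h : ∀ i j, pd i (a j) (fun k => x k + n k) = pd i (a j) x := by
    intro i j
    simp only [pd]
    rw [per_fderiv (ha j).2 n x]
  funext k
  fin_cases k <;> simp only [d1, Fin.isValue, h, Fin.reduceFinMk, Matrix.cons_val]

/-- The linear form `2 π m · x`. -/
noncomputable def lm (m : Fin 4 → ℤ) : R4 →L[ℝ] ℝ :=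
  ∑ i, (2 * π * m i) • ContinuousLinearMap.proj (R := ℝ) (φ := fun _ : Fin 4 => ℝ) i

theorem lm_apply (m : Fin 4 → ℤ) (x : R4) : lm m x = 2 * π * ∑ j, m j * x j := by
  simp only [lm, ContinuousLinearMap.sum_apply, ContinuousLinearMap.smul_apply,
    ContinuousLinearMap.proj_apply, smul_eq_mul, Finset.mul_sum]
  refine Finset.sum_congr rfl fun j _ => by ring

theorem lm_e (m : Fin 4 → ℤ) (j : Fin 4) : lm m (e j) = 2 * π * m j := by
  rw [lm_apply]
  congr 1
  rw [Finset.sum_eq_single j]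
  · simp [e]
  · intro i _ hi; simp [e, hi]
  · simp only [Finset.mem_univ, not_true_eq_false, mul_eq_zero, Int.cast_eq_zero, IsEmpty.forall_iff]

theorem sinm_eq (m : Fin 4 → ℤ) : sinm m = fun x => Real.sin (lm m x) := by
  funext x; rw [sinm, lm_apply]

theorem cosm_eq (m : Fin 4 → ℤ) : cosm m = fun x => Real.cos (lm m x) := by
  funext x; rw [cosm, lm_apply]

theorem pd_sinm (m : Fin 4 → ℤ) (b : ℝ) (j : Fin 4) (x : R4) :
    pd j (fun x => b * sinm m x) x = b * (2 * π * m j * cosm m x) := by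
  have h : HasFDerivAt (fun x => b * sinm m x) (b • (Real.cos (lm m x) • lm m)) x := by
    rw [sinm_eq]
    exact ((lm m).hasFDerivAt.sin).const_mul b
  rw [pd, h.fderiv, cosm_eq]
  simp only [ContinuousLinearMap.smul_apply, smul_eq_mul, lm_e]
  ring

theorem pd_cosm (m : Fin 4 → ℤ) (b : ℝ) (j : Fin 4) (x : R4) :
    pd j (fun x => b * cosm m x) x = -(b * (2 * π * m j * sinm m x)) := by
  have h : HasFDerivAt (fun x => b * cosm m x) (b • (-Real.sin (lm m x) • lm m)) x := by
    rw [cosm_eq]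
    exact ((lm m).hasFDerivAt.cos).const_mul b
  rw [pd, h.fderiv, sinm_eq]
  simp only [ContinuousLinearMap.smul_apply, smul_eq_mul, lm_e]
  ring

theorem lm_shift (m n : Fin 4 → ℤ) (x : R4) :
    lm m (fun i => x i + n i) = lm m x + (∑ j, m j * n j : ℤ) * (2 * π) := by
  rw [lm_apply, lm_apply]
  push_cast
  rw [Finset.mul_sum, Finset.mul_sum, Finset.sum_mul, ← Finset.sum_add_distrib]
  refine Finset.sum_congr rfl fun j _ => by ring

theorem SmP_sinm (m : Fin 4 → ℤ) (b : ℝ) : SmP fun x => b * sinm m x := by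
  rw [sinm_eq]
  refine ⟨contDiff_const.mul ((lm m).contDiff.sin), fun n x => ?_⟩
  simp only [lm_shift, Real.sin_add_int_mul_two_pi]

theorem SmP_cosm (m : Fin 4 → ℤ) (b : ℝ) : SmP fun x => b * cosm m x := by
  rw [cosm_eq]
  refine ⟨contDiff_const.mul ((lm m).contDiff.cos), fun n x => ?_⟩
  simp only [lm_shift, Real.cos_add_int_mul_two_pi]

/-- `d1 a` as a continuous map. -/
noncomputable def d1C (a : Fin 4 → R4 → ℝ) (ha : ∀ i, SmP (a i)) : C(R4, V6) :=
  ⟨d1 a, continuous_d1 ha⟩

@[simp] theorem d1C_apply (a : Fin 4 → R4 → ℝ) (ha : ∀ i, SmP (a i)) (x : R4) :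
    d1C a ha x = d1 a x := rfl

theorem killsTrig_of_exact {L : C(R4, V6) →ₗ[ℝ] ℝ}
    (hL : ∀ (a : Fin 4 → R4 → ℝ) (ha : ∀ i, SmP (a i)), L (d1C a ha) = 0) : KillsTrig L := by
  constructor
  · intro m β
    have h1 : d1C (fun i x => β i * sinm m x) (fun i => SmP_sinm m (β i))
        = (2 * π) • tens (cosC m) (mw (fun i => m i) β) := by
      ext x k
      have h := fun i j => pd_sinm m (β j) i x
      fin_cases k <;> simp [d1, h, mw] <;> ring
    have h2 := hL _ (fun i => SmP_sinm m (β i))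
    rw [h1, map_smul, smul_eq_mul] at h2
    exact (mul_eq_zero.mp h2).resolve_left (by positivity)
  · intro m β
    have h1 : d1C (fun i x => β i * cosm m x) (fun i => SmP_cosm m (β i))
        = (-(2 * π)) • tens (sinC m) (mw (fun i => m i) β) := by
      ext x k
      have h := fun i j => pd_cosm m (β j) i x
      fin_cases k <;> simp [d1, h, mw] <;> ring
    have h2 := hL _ (fun i => SmP_cosm m (β i))
    rw [h1, map_smul, smul_eq_mul] at h2
    exact (mul_eq_zero.mp h2).resolve_left (by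
      have := pi_pos; intro h; linarith only [this, h])

theorem continuous_B {X : Type*} [TopologicalSpace X] {f g : X → V6} (hf : Continuous f)
    (hg : Continuous g) : Continuous fun x => B (f x) (g x) := by
  unfold B
  have hf' := fun i => (continuous_apply (i : Fin 6)).comp hf
  have hg' := fun i => (continuous_apply (i : Fin 6)).comp hg
  simp only [Function.comp_def] at hf' hg'
  fun_prop

theorem continuous_gd {X : Type*} [TopologicalSpace X] {f g : X → V6} (hf : Continuous f)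
    (hg : Continuous g) : Continuous fun x => gd (f x) (g x) := by
  unfold gd
  have h1 := continuous_B hf hf
  have h2 := continuous_B hg hg
  have h3 := continuous_B hf hg
  (clear * - h1 h2 h3; fun_prop)

theorem continuous_Dl {X : Type*} [TopologicalSpace X] {f g h : X → V6} (hf : Continuous f)
    (hg : Continuous g) (hh : Continuous h) : Continuous fun x => Dl (f x) (g x) (h x) := by
  unfold Dl DB
  have h1 := continuous_B hh hh
  have h2 := continuous_gd hf hg
  have h3 := continuous_B hg hg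
  have h4 := continuous_B hh hf
  have h5 := continuous_B hh hg
  have h6 := continuous_B hf hg
  have h7 := continuous_B hf hf
  fun_prop

theorem exists_UB {u v : R4 → V6} (hu : Continuous u) (hv : Continuous v)
    (hu5 : ∀ x, u x 5 = 0) (hv5 : ∀ x, v x 5 = 0) (huv : ∀ x, PairPos (u x) (v x)) :
    ∃ g R : ℝ, 0 < g ∧ 1 ≤ R ∧ ∀ p ∈ Icc (0 : R4) 1, UB g R (u p) (v p) := by
  have hne : (Icc (0 : R4) 1).Nonempty := ⟨0, ⟨le_refl _, zero_le_one⟩⟩
  obtain ⟨p0, hp0, hmin⟩ := (isCompact_Icc (a := (0 : R4)) (b := 1)).exists_isMinOn hne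
    (continuous_gd hu hv).continuousOn
  obtain ⟨R1, hR1⟩ := (isCompact_Icc (a := (0 : R4)) (b := 1)).exists_bound_of_continuousOn
    hu.continuousOn
  obtain ⟨R2, hR2⟩ := (isCompact_Icc (a := (0 : R4)) (b := 1)).exists_bound_of_continuousOn
    hv.continuousOn
  refine ⟨gd (u p0) (v p0), max 1 (max R1 R2), (huv p0).det, le_max_left _ _, fun p hp => ?_⟩
  refine ⟨huv p, hu5 p, hv5 p, hmin hp, ?_, ?_⟩
  · exact (hR1 p hp).trans ((le_max_left _ _).trans (le_max_right _ _))
  · exact (hR2 p hp).trans ((le_max_right _ _).trans (le_max_right _ _))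

/-- Cone valued continuous maps on the cube. -/
def OSet (u v : R4 → V6) : Set C(Icc (0 : R4) 1, V6) :=
  {f | ∀ p : Icc (0 : R4) 1, f p ∈ Cone (u p) (v p)}

theorem isOpen_OSet {u v : R4 → V6} (hu : Continuous u) (hv : Continuous v) :
    IsOpen (OSet u v) := by
  have hc : ∀ f : C(Icc (0 : R4) 1, V6),
      Continuous fun p : Icc (0 : R4) 1 => (f p 5, Dl (u p) (v p) (f p)) := by
    intro f
    exact ((continuous_apply 5).comp f.continuous).prodMk
      (continuous_Dl (hu.comp continuous_subtype_val) (hv.comp continuous_subtype_val) f.continuous)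
  let F : C(Icc (0 : R4) 1, V6) → C(Icc (0 : R4) 1, ℝ × ℝ) := fun f =>
    ⟨fun p => (f p 5, Dl (u p) (v p) (f p)), hc f⟩
  have hF : Continuous F := by
    refine ContinuousMap.continuous_of_continuous_uncurry F ?_
    have hev : Continuous fun q : C(Icc (0 : R4) 1, V6) × Icc (0 : R4) 1 => q.1 q.2 :=
      ContinuousEval.continuous_eval
    exact ((continuous_apply 5).comp hev).prodMk
      (continuous_Dl (hu.comp (continuous_subtype_val.comp continuous_snd))
        (hv.comp (continuous_subtype_val.comp continuous_snd)) hev)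
  have h : OSet u v = F ⁻¹' {g | MapsTo g univ (Ioi 0 ×ˢ Ioi 0)} := by
    ext f
    constructor
    · intro hf p _
      exact ⟨(hf p).1, (hf p).2⟩
    · intro hf p
      exact ⟨(hf (mem_univ p)).1, (hf (mem_univ p)).2⟩
  rw [h]
  exact (ContinuousMap.isOpen_setOfPred_mapsTo isCompact_univ (isOpen_Ioi.prod isOpen_Ioi)).preimage
    hF

/-- Restriction to the cube. -/
def resL : C(R4, V6) →ₗ[ℝ] C(Icc (0 : R4) 1, V6) where
  toFun f := f.restrict (Icc 0 1)
  map_add' _ _ := rfl
  map_smul' _ _ := rfl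

@[simp] theorem resL_apply (f : C(R4, V6)) (p : Icc (0 : R4) 1) : resL f p = f p := rfl

/-- If `s * x` is bounded above for all `s` then `x = 0`. -/
theorem eq_zero_of_bdd {x c : ℝ} (h : ∀ s : ℝ, s * x ≤ c) : x = 0 := by
  by_contra hx
  have h1 := h ((c + 1) / x)
  rw [div_mul_cancel₀ _ hx] at h1
  linarith

/-- The taming lemma. -/
theorem taming {u v : R4 → V6} (hu : ContDiff ℝ 1 u) (hv : ContDiff ℝ 1 v) (hup : Per u)
    (hvp : Per v) (hu5 : ∀ x, u x 5 = 0) (hv5 : ∀ x, v x 5 = 0)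
    (huv : ∀ x, PairPos (u x) (v x)) {ub vb : V6} (hub5 : ub 5 = 0) (hvb5 : vb 5 = 0)
    {au av : Fin 4 → R4 → ℝ}
    (hau : ∀ i, ContDiff ℝ ∞ (au i) ∧ Per (au i)) (hav : ∀ i, ContDiff ℝ ∞ (av i) ∧ Per (av i))
    (hub : ∀ x, u x = ub + d1 au x) (hvb : ∀ x, v x = vb + d1 av x) (hbar : PairPos ub vb)
    {fb : V6} (hfb : fb ∈ Cone ub vb) :
    ∃ a : Fin 4 → R4 → ℝ, (∀ i, ContDiff ℝ ∞ (a i) ∧ Per (a i)) ∧
      ∀ x, fb + d1 a x ∈ Cone (u x) (v x) := by
  by_contra hcon
  push Not at hcon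
  change ∀ i, SmP (au i) at hau
  change ∀ i, SmP (av i) at hav
  obtain ⟨g, R, hg, hR, hUB⟩ := exists_UB hu.continuous hv.continuous hu5 hv5 huv
  obtain ⟨K1, hK1, hlu⟩ := lip_dst hu hup
  obtain ⟨K2, hK2, hlv⟩ := lip_dst hv hvp
  set K := max K1 K2 with hK
  have hK0 : 0 ≤ K := hK1.trans (le_max_left _ _)
  have hlu' : ∀ x y, ‖u x - u y‖ ^ 2 ≤ K * dst (x - y) := fun x y =>
    (hlu x y).trans (mul_le_mul_of_nonneg_right (le_max_left _ _) (dst_nonneg _))
  have hlv' : ∀ x y, ‖v x - v y‖ ^ 2 ≤ K * dst (x - y) := fun x y =>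
    (hlv x y).trans (mul_le_mul_of_nonneg_right (le_max_right _ _) (dst_nonneg _))
  -- the affine space of representatives
  let A : Set C(Icc (0 : R4) 1, V6) :=
    {f | ∃ (a : Fin 4 → R4 → ℝ) (ha : ∀ i, SmP (a i)), f = resL (tens (cosC 0) fb + d1C a ha)}
  have hAconv : Convex ℝ A := by
    rintro _ ⟨a, ha, rfl⟩ _ ⟨b, hb, rfl⟩ s t _ _ hst
    refine ⟨fun i x => s * a i x + t * b i x, fun i => (ha i).lin (hb i) s t, ?_⟩
    ext p k
    simp only [ContinuousMap.add_apply, ContinuousMap.smul_apply, resL_apply, tens_apply, cosC_zero_apply, one_smul, d1C_apply, Pi.add_apply, Pi.smul_apply, smul_eq_mul, d1_lin ha hb]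
    have : s = 1 - t := by linarith only [hst]
    subst this
    ring
  have hOconv : Convex ℝ (OSet u v) := by
    intro f hf k hk s t hs ht hst p
    exact convex_cone (hu5 p) (hv5 p) (huv p) (hf p) (hk p) hs ht hst
  have hdisj : Disjoint (OSet u v) A := by
    rw [Set.disjoint_left]
    rintro f hf ⟨a, ha, rfl⟩
    obtain ⟨x, hx⟩ := hcon a ha
    apply hx
    have hper : Per fun x => fb + d1 a x := by
      intro n x; simp only [per_d1 ha n x]
    have hper2 : Per fun x => (fb + d1 a x, u x, v x) := by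
      intro n x
      simp only [per_d1 ha n x, hup n x, hvp n x]
    obtain ⟨y, hy, hyx⟩ := hper2.exists_cube x
    have h1 : fb + d1 a y = fb + d1 a x := congrArg Prod.fst hyx
    have h2 : u y = u x := congrArg (fun q => q.2.1) hyx
    have h3 : v y = v x := congrArg (fun q => q.2.2) hyx
    have h4 := hf ⟨y, hy⟩
    simp only [resL_apply, ContinuousMap.add_apply, tens_apply, cosC_zero_apply, one_smul,
      d1C_apply] at h4
    rw [h1, h2, h3] at h4
    exact h4
  obtain ⟨T, c, hT1, hT2⟩ := geometric_hahn_banach_open hOconv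
    (isOpen_OSet hu.continuous hv.continuous) hAconv hdisj
  let L : C(R4, V6) →ₗ[ℝ] ℝ := -(T.toLinearMap ∘ₗ resL)
  have hLdef : ∀ f, L f = -(T (resL f)) := fun f => rfl
  have hO : ∀ f : C(R4, V6), (∀ p ∈ Icc (0 : R4) 1, f p ∈ Cone (u p) (v p)) → -c < L f := by
    intro f hf
    have := hT1 (resL f) (fun p => hf p p.2)
    rw [hLdef]; linarith
  have hA : ∀ (a : Fin 4 → R4 → ℝ) (ha : ∀ i, SmP (a i)),
      L (tens (cosC 0) fb) + L (d1C a ha) ≤ -c := by
    intro a ha
    have := hT2 _ ⟨a, ha, rfl⟩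
    rw [← map_add, hLdef]; linarith
  have hpos : ∀ f : C(R4, V6), (∀ p ∈ Icc (0 : R4) 1, f p ∈ Cone (u p) (v p)) → 0 ≤ L f := by
    intro f hf
    by_contra hneg
    push Not at hneg
    have h1 : ∀ s : ℝ, 0 < s → -c < s * L f := by
      intro s hs
      have := hO (s • f) (fun p hp => smul_mem_cone hs (hf p hp))
      rwa [map_smul, smul_eq_mul] at this
    have h2 := h1 ((|c| + 1) / (-L f)) (by apply div_pos <;> [(clear * -; positivity); linarith])
    have h3 : (|c| + 1) / (-L f) * L f = -(|c| + 1) := by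
      rw [div_neg, neg_mul, div_mul_cancel₀ _ (ne_of_lt hneg)]
    rw [h3] at h2
    have := le_abs_self c
    linarith only [h2, this]
  have hzero : L (tens (cosC 0) fb) ≤ -c := by
    have := hA (fun _ _ => 0) (fun _ => SmP.zero)
    have h0 : d1C (fun _ _ => 0) (fun _ => SmP.zero) = 0 := by
      ext x k
      have h : ∀ i, pd i (fun _ : R4 => (0 : ℝ)) x = 0 := fun i => by simp only [pd, fderiv_fun_const, Pi.zero_apply, zero_apply]
      fin_cases k <;> simp [d1, h]
    rw [h0, map_zero, add_zero] at this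
    exact this
  have hexact : ∀ (a : Fin 4 → R4 → ℝ) (ha : ∀ i, SmP (a i)), L (d1C a ha) = 0 := by
    intro a ha
    apply eq_zero_of_bdd (c := -c - L (tens (cosC 0) fb))
    intro s
    have h1 := hA (fun i x => s * a i x + 0 * a i x) (fun i => (ha i).lin (ha i) s 0)
    have h2 : d1C (fun i x => s * a i x + 0 * a i x) (fun i => (ha i).lin (ha i) s 0)
        = s • d1C a ha := by
      ext x k
      simp only [d1C_apply, d1_lin ha ha, ContinuousMap.smul_apply, zero_smul, add_zero]
    rw [h2, map_smul, smul_eq_mul] at h1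
    linarith only [h1]
  have hL := killsTrig_of_exact hexact
  have hBnn := B_mean_nonneg hg hR hUB hK0 hlu' hlv' hL hpos
  have hφnn := L_phi_nonneg hg hR hUB hpos
  have hνnn : 0 ≤ L (tens (cosC 0) nu) :=
    L_nu_nonneg hg hR hUB hpos (fun x => by rw [cosC_zero_apply]; norm_num)
  have hφmem : ∀ p ∈ Icc (0 : R4) 1, phi0 g R ∈ Cone (u p) (v p) :=
    fun p hp => (hUB p hp).phi0_mem hg hR
  -- strictness
  have hlt : ∀ s : ℝ, 0 < s → L (tens (cosC 0) fb) < s * L (tens (cosC 0) (phi0 g R)) := by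
    intro s hs
    have h1 := hO (s • tens (cosC 0) (phi0 g R)) (fun p hp => by
      rw [ContinuousMap.smul_apply, tens_apply, cosC_zero_apply, one_smul]
      exact smul_mem_cone hs (hφmem p hp))
    rw [map_smul, smul_eq_mul] at h1
    linarith
  have hfb0 : L (tens (cosC 0) fb) ≤ 0 := by
    by_contra h
    push Not at h
    have h1 := hlt (L (tens (cosC 0) fb) / (2 * (L (tens (cosC 0) (phi0 g R)) + 1)))
      (by apply div_pos h; linarith)
    rw [div_mul_eq_mul_div, lt_div_iff₀ (by linarith only [hφnn])] at h1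
    nlinarith only [h, h1, hφnn]
  -- the functional vanishes on `u` and `v`
  have hLu : B (vec L (cosC 0)) ub = 0 := by
    rw [B_vec]
    have h1 : L ⟨u, hu.continuous⟩ = 0 := by
      have h2 : ∀ s : ℝ, s * -(L ⟨u, hu.continuous⟩) ≤ L (tens (cosC 0) (phi0 g R)) := by
        intro s
        have h3 := hpos (tens (cosC 0) (phi0 g R) + s • ⟨u, hu.continuous⟩) (fun p hp => by
          have := add_pair_mem_cone (hu5 p) (hv5 p) (hφmem p hp) s 0
          rw [zero_smul, add_zero] at this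
          simpa only [ContinuousMap.add_apply, tens_apply, cosC_apply, cosm_zero, one_smul, ContinuousMap.coe_smul,     ContinuousMap.coe_mk, Pi.smul_apply] using this)
        rw [map_add, map_smul, smul_eq_mul] at h3
        linarith only [h3]
      have := eq_zero_of_bdd h2
      linarith only [this]
    have h4 : (⟨u, hu.continuous⟩ : C(R4, V6)) = tens (cosC 0) ub + d1C au hau := by
      ext x k
      simp only [ContinuousMap.coe_mk, ContinuousMap.add_apply, tens_apply, cosC_zero_apply,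
        one_smul, d1C_apply, hub x]
    rw [h4, map_add, hexact, add_zero] at h1
    exact h1
  have hLv : B (vec L (cosC 0)) vb = 0 := by
    rw [B_vec]
    have h1 : L ⟨v, hv.continuous⟩ = 0 := by
      have h2 : ∀ s : ℝ, s * -(L ⟨v, hv.continuous⟩) ≤ L (tens (cosC 0) (phi0 g R)) := by
        intro s
        have h3 := hpos (tens (cosC 0) (phi0 g R) + s • ⟨v, hv.continuous⟩) (fun p hp => by
          have := add_pair_mem_cone (hu5 p) (hv5 p) (hφmem p hp) 0 s
          rw [zero_smul, add_zero] at this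
          simpa only [ContinuousMap.add_apply, tens_apply, cosC_apply, cosm_zero, one_smul, ContinuousMap.coe_smul,     ContinuousMap.coe_mk, Pi.smul_apply] using this)
        rw [map_add, map_smul, smul_eq_mul] at h3
        linarith
      have := eq_zero_of_bdd h2
      linarith only [this]
    have h4 : (⟨v, hv.continuous⟩ : C(R4, V6)) = tens (cosC 0) vb + d1C av hav := by
      ext x k
      simp only [ContinuousMap.coe_mk, ContinuousMap.add_apply, tens_apply, cosC_zero_apply,
        one_smul, d1C_apply, hvb x]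
    rw [h4, map_add, hexact, add_zero] at h1
    exact h1
  rcases eq_or_lt_of_le hνnn with hν0 | hνpos
  · -- the functional vanishes on `ν^⊥`
    have hδ : ∀ δ : V6, δ 5 = 0 → L (tens (cosC 0) δ) = 0 := by
      intro δ hδ5
      have h2 : ∀ s : ℝ, s * -(L (tens (cosC 0) δ)) ≤ L (tens (cosC 0) (phi0 g R)) := by
        intro s
        have h3 := hpos (tens (cosC 0) (phi0 g R) + s • tens (cosC 0) δ
          + (3 * cN R / (2 * g) * (s ^ 2 * ‖δ‖ ^ 2)) • tens (cosC 0) nu) (fun p hp => by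
          have := (hUB p hp).perturb hg hR hδ5 s
          simpa only [ContinuousMap.add_apply, ContinuousMap.smul_apply, tens_apply,
            cosC_zero_apply, one_smul] using this)
        rw [map_add, map_add, map_smul, map_smul, ← hν0, smul_zero, add_zero, smul_eq_mul] at h3
        linarith only [h3]
      have := eq_zero_of_bdd h2
      linarith only [this]
    have h5 : tens (cosC 0) fb = (fb 5) • tens (cosC 0) (phi0 g R)
        + tens (cosC 0) (fb - (fb 5) • phi0 g R) := by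
      ext x k
      simp only [tens_apply, cosC_apply, cosm_zero, Pi.smul_apply, smul_eq_mul, one_mul, Fin.isValue, ContinuousMap.add_apply, ContinuousMap.coe_smul, one_smul, Pi.add_apply, Pi.sub_apply, add_sub_cancel]
    have h6 := hδ (fb - (fb 5) • phi0 g R) (by simp)
    have h7 := hlt (fb 5) hfb.1
    rw [h5, map_add, map_smul, h6, add_zero, smul_eq_mul] at h7
    exact lt_irrefl _ h7
  · have h5 : vec L (cosC 0) 5 = L (tens (cosC 0) nu) := by
      rw [← B_vec, B_nu_right]
    have h6 : 0 ≤ Dl ub vb (vec L (cosC 0)) := by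
      rw [Dl, DB, hLu, hLv]
      have := mul_nonneg hBnn hbar.det.le
      linarith only [this]
    have h7 := DB_pos hub5 hvb5 hbar (by rw [h5]; exact hνpos) h6 hfb
    rw [DB, hLu, hLv, B_vec] at h7
    have h8 := hbar.det
    nlinarith only [h7, hfb0, h8]

end Vale.Agent.P247
end
end

section

section

open MeasureTheory Set Filter Topology
open scoped ContDiff

namespace Vale.Agent.P247

theorem B_mean {u v : Form 2} (hu : SPC u) (hv : SPC v) :
    B (coord (mean u)) (coord (mean v)) = mean (fun x => B (coord (u x)) (coord (v x))) :=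
  (mean_wedge hu hv).symm

theorem pairPos_mean {u v : Form 2} (hu : SPC u) (hv : SPC v)
    (huv : ∀ x, PairPos (coord (u x)) (coord (v x))) :
    PairPos (coord (mean u)) (coord (mean v)) := by
  have h0 : 0 < B (coord (mean u)) (coord (mean u)) := by
    rw [B_mean hu hu]
    exact mean_pos (hu.1.wedge hu.1) fun x => (huv x).pos
  refine ⟨h0, ?_⟩
  set p := B (coord (mean u)) (coord (mean u)) with hp
  set q := B (coord (mean u)) (coord (mean v)) with hq
  set f : Form 2 := fun x => (-q) • u x + p • v x with hf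
  have sf : SPC f := (hu.smul (-q)).add (hv.smul p)
  have hm : mean f = (-q) • mean u + p • mean v := by
    rw [hf, mean_add (hu.smul (-q)).1 (hv.smul p).1, mean_smul _ hu.1, mean_smul _ hv.1]
  have h1 : 0 < B (coord (mean f)) (coord (mean f)) := by
    rw [B_mean sf sf]
    refine mean_pos (sf.1.wedge sf.1) fun x => ?_
    simp only [hf, coord_add, coord_smul]
    exact (huv x).comb_pos (Or.inr (ne_of_gt h0))
  have h2 : B (coord (mean f)) (coord (mean f)) = p * gd (coord (mean u)) (coord (mean v)) := by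
    rw [hm, coord_add, coord_smul, coord_smul]
    simp only [B_add_left, B_add_right, B_smul_left, B_smul_right, B_comm (coord (mean v))
      (coord (mean u)), gd, ← hp, ← hq]
    ring
  rw [h2] at h1
  exact (pos_iff_pos_of_mul_pos h1).mp h0

theorem exists_d1 {u : Form 2} (hu : SPC u) : ∃ a : Fin 4 → R4 → ℝ,
    (∀ i, ContDiff ℝ ∞ (a i) ∧ Per (a i)) ∧
      ∀ x, coord (u x) = coord (mean u) + d1 a x := by
  obtain ⟨η, hη, h⟩ := sub_mean_exact hu
  refine ⟨fun i x => η x ![e i], fun i => hη.eval _, fun x => ?_⟩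
  have h1 : u x = mean u + extDeriv η x := by rw [← h x]; exact (add_sub_cancel _ _).symm
  have h2 : coord (extDeriv η x) = d1 (fun i x => η x ![e i]) x := by
    conv_lhs => rw [form1_eq_mk1 η]
    exact coord_extDeriv_mk1 (fun i => hη.eval _) x
  rw [← h2, ← coord_add, ← h1]

theorem taming_holds : Taming := by
  intro u v hu hv hu5 hv5 huv κ hκ
  obtain ⟨au, hau, hu1⟩ := exists_d1 hu
  obtain ⟨av', hav, hv1⟩ := exists_d1 hv
  obtain ⟨a, ha, hax⟩ := taming (u := fun x => coord (u x)) (v := fun x => coord (v x))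
    hu.1.coord.contDiff_one hv.1.coord.contDiff_one hu.1.coord.2 hv.1.coord.2 hu5 hv5 huv
    (mean_coord5_zero hu.1 hu5) (mean_coord5_zero hv.1 hv5) hau hav hu1 hv1
    (pairPos_mean hu hv huv) hκ
  have sa : SP (mk1 a) := SP.mk1 ha
  have hex : Exact (fun x => extDeriv (mk1 a) x) := ⟨mk1 a, sa, fun x => rfl⟩
  have hcl := exact_closed hex
  refine ⟨fun x => κ + extDeriv (mk1 a) x, (SPC.const κ).add hcl, ?_, fun x => ?_⟩
  · rw [mean_add (SP.const κ) hcl.1, mean_exact hex, mean_const, add_zero]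
  · have h1 : coord (extDeriv (mk1 a) x) = d1 a x := coord_extDeriv_mk1 (fun i => ha i) x
    rw [coord_add, h1]
    exact hax x

end Vale.Agent.P247
end
end

section

section

open MeasureTheory Set Filter Topology
open scoped ContDiff

namespace Vale.Agent.P247

theorem iv_sum (n : Fin 4 → ℤ) : iv n = ∑ j, (n j : ℝ) • e j := by
  conv_lhs => rw [vec_eq_sum (iv n)]
  rfl

theorem periodic_iv {G : Type} [NormedAddCommGroup G] [NormedSpace ℝ G] {f : R4 → G}
    (h : ∀ j x, f (x + e j) = f x) (n : Fin 4 → ℤ) (x : R4) : f (x + iv n) = f x := by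
  have h1 : ∀ j, Function.Periodic f (e j) := fun j x => h j x
  have h2 : ∀ j (k : ℤ), Function.Periodic f ((k : ℝ) • e j) := by
    intro j k
    have := (h1 j).zsmul k
    rwa [← Int.cast_smul_eq_zsmul ℝ] at this
  have h3 : Function.Periodic f (iv n) := by
    rw [iv_sum, Fin.sum_univ_four]
    exact (((h2 0 _).add_period (h2 1 _)).add_period (h2 2 _)).add_period (h2 3 _)
  exact h3 x

/-- an equivariant smooth map has a linear part -/
theorem exists_tmap {F : R4 → R4} (hF : ContDiff ℝ ∞ F)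
    (h : ∀ n : Fin 4 → ℤ, ∃ m : Fin 4 → ℤ, ∀ x : R4,
      F (fun i => x i + n i) = fun i => F x i + m i) :
    ∃ M V, TMap F M V := by
  choose m hm using h
  have hm' : ∀ n x, F (x + iv n) = F x + iv (m n) := hm
  set M : R4 →L[ℝ] R4 := ∑ j, (ContinuousLinearMap.proj j : R4 →L[ℝ] ℝ).smulRight
    (iv (m (Pi.single j 1))) with hM
  have hMe : ∀ j, M (e j) = iv (m (Pi.single j 1)) := by
    intro j
    simp only [hM, sum_apply, ContinuousLinearMap.smulRight_apply,
      ContinuousLinearMap.proj_apply]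
    rw [Finset.sum_eq_single j]
    · simp [e]
    · intro k _ hk
      simp [e, hk]
    · simp only [Finset.mem_univ, not_true_eq_false, smul_eq_zero, IsEmpty.forall_iff]
  have hper : ∀ j x, F (x + e j) - M (x + e j) = F x - M x := by
    intro j x
    have h1 : F (x + e j) = F x + iv (m (Pi.single j 1)) := by
      rw [← hm', ← e_eq_iv]
    rw [h1, map_add, hMe]
    abel
  have hV : SP (fun x => F x - M x) :=
    ⟨hF.sub M.contDiff, fun n x => periodic_iv (f := fun x => F x - M x) hper n x⟩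
  refine ⟨M, fun x => F x - M x, hV, fun x => by abel, fun n => ?_⟩
  refine ⟨m n, ?_⟩
  have h1 := hV.per n 0
  have h2 := hm' n 0
  simp only [map_add, h2] at h1
  have h3 : F 0 + iv (m n) - (M 0 + M (iv n)) = F 0 - M 0 := h1
  have h4 : iv (m n) - M (iv n) = 0 := by
    have : F 0 + iv (m n) - (M 0 + M (iv n)) = (F 0 - M 0) + (iv (m n) - M (iv n)) := by abel
    rw [this] at h3
    exact add_eq_left.mp h3
  rw [sub_eq_zero] at h4
  exact h4.symm

theorem pbk_pbk {F G : R4 → R4} (hF : Differentiable ℝ F) (hG : Differentiable ℝ G)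
    (h : ∀ x, F (G x) = x) (w : Form 2) : pbk G (pbk F w) = w := by
  funext x
  have h1 : (fderiv ℝ F (G x)).comp (fderiv ℝ G x) = ContinuousLinearMap.id ℝ R4 := by
    rw [← fderiv_comp x (hF _) (hG _)]
    have : F ∘ G = id := funext h
    rw [this, fderiv_id]
  have h2 : pbk G (pbk F w) x = ((w (F (G x))).compContinuousLinearMap
    ((fderiv ℝ F (G x)).comp (fderiv ℝ G x))) := rfl
  rw [h2, h1, h, compCLM_id]

theorem joined_pbk {F : R4 → R4} {M : R4 →L[ℝ] R4} {V : R4 → R4} (hF : TMap F M V)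
    (hdet : ∀ x, 0 < (fderiv ℝ F x).det) {w w' : Fin 3 → Form 2} (h : Joined3 w w') :
    Joined3 (fun i => pbk F (w i)) (fun i => pbk F (w' i)) := by
  obtain ⟨γ, h1, h2, h3, h4, h5⟩ := h
  refine ⟨fun t i => pbk F (γ t i), fun i => ?_, fun t ht => by
    simp only [h2 t ht], fun t ht => by simp only [h3 t ht], fun t => ?_, fun t i => ?_⟩
  · have key : (fun p : ℝ × R4 => pbk F (γ p.1 i) p.2) = fun p : ℝ × R4 =>
        ofCoord (coord (pbk F (γ p.1 i) p.2)) := funext fun p => (ofCoord_coord _).symm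
    rw [key]
    refine ofCoord.contDiff.comp ?_
    have hc : ∀ a b, ContDiff ℝ ∞ fun p : ℝ × R4 => comp (γ p.1 i (F p.2)) a b := by
      intro a b
      have : (fun p : ℝ × R4 => comp (γ p.1 i (F p.2)) a b) =
        fun p : ℝ × R4 => (evalL ![e a, e b]) (γ p.1 i (F p.2)) := rfl
      rw [this]
      exact (evalL ![e a, e b]).contDiff.comp
        ((h1 i).comp (contDiff_fst.prodMk (hF.contDiff.comp contDiff_snd)))
    have hd : ∀ a b, ContDiff ℝ ∞ fun p : ℝ × R4 => (fderiv ℝ F p.2 (e a)) b := by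
      intro a b
      exact ((hF.sp_fderiv.clm ((ContinuousLinearMap.proj b : R4 →L[ℝ] ℝ).comp
        (ContinuousLinearMap.apply ℝ R4 (e a)))).1).comp contDiff_snd
    have hcc : ∀ a b, ContDiff ℝ ∞ fun p : ℝ × R4 => comp (pbk F (γ p.1 i) p.2) a b := by
      intro a b
      have : (fun p : ℝ × R4 => comp (pbk F (γ p.1 i) p.2) a b) = fun p : ℝ × R4 =>
          ∑ c, ∑ d, (fderiv ℝ F p.2 (e a)) c * (fderiv ℝ F p.2 (e b)) d
            * comp (γ p.1 i (F p.2)) c d := funext fun p => pullback_comp _ _ _ _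
      rw [this]
      exact ContDiff.sum fun c _ => ContDiff.sum fun d _ =>
        ((hd a c).mul (hd b d)).mul (hc c d)
    rw [contDiff_pi]
    intro k
    fin_cases k
    · exact hcc 0 1
    · exact hcc 0 2
    · exact hcc 0 3
    · exact hcc 1 2
    · exact hcc 1 3
    · exact hcc 2 3
  · rw [isHypersymplectic_iff]
    exact ⟨fun i => hF.spc_pbk ((h4 t).spc i), fun x => def3_pull ((h4 t).def3 (F x)) (hdet x)⟩
  · have := hF.exact_pbk ((cohomologous_iff _ _).1 (h5 t i))
    exact this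

theorem hypersymplectic_pbk {F : R4 → R4} {M : R4 →L[ℝ] R4} {V : R4 → R4} (hF : TMap F M V)
    (hdet : ∀ x, 0 < (fderiv ℝ F x).det) {w : Fin 3 → Form 2} (h : IsHypersymplectic w) :
    IsHypersymplectic (fun i => pbk F (w i)) := by
  rw [isHypersymplectic_iff]
  exact ⟨fun i => hF.spc_pbk (h.spc i), fun x => def3_pull (h.def3 (F x)) (hdet x)⟩

theorem det_comp_pos {P Q : R4 →L[ℝ] R4} (h : P.comp Q = ContinuousLinearMap.id ℝ R4)
    (hP : 0 < P.det) : 0 < Q.det := by
  have h1 : P.det * Q.det = 1 := by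
    have h2 : (P.comp Q).det = P.det * Q.det := LinearMap.det_comp _ _
    rw [← h2, h]
    exact LinearMap.det_id
  by_contra hcon
  push Not at hcon
  nlinarith only [h1, hP, hcon]

theorem det_comp_ne {P Q : R4 →L[ℝ] R4} (h : P.comp Q = ContinuousLinearMap.id ℝ R4) :
    P.det ≠ 0 := by
  have h1 : P.det * Q.det = 1 := by
    have h2 : (P.comp Q).det = P.det * Q.det := LinearMap.det_comp _ _
    rw [← h2, h]
    exact LinearMap.det_id
  intro h0
  rw [h0, zero_mul] at h1
  exact zero_ne_one h1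

/-- two independent vectors of `ℝ³` are the first rows of an invertible matrix -/
theorem exists_matrix {b c : Fin 3 → ℝ}
    (hbc : ∀ s t : ℝ, (∀ i, s * b i + t * c i = 0) → s = 0 ∧ t = 0) :
    ∃ A A' : Matrix (Fin 3) (Fin 3) ℝ, A' * A = 1 ∧ (∀ j, A 0 j = b j) ∧ ∀ j, A 1 j = c j := by
  set p := b 1 * c 2 - b 2 * c 1 with hp
  set q := b 2 * c 0 - b 0 * c 2 with hq
  set r := b 0 * c 1 - b 1 * c 0 with hr
  set A : Matrix (Fin 3) (Fin 3) ℝ := !![b 0, b 1, b 2; c 0, c 1, c 2; p, q, r] with hA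
  have hdet : A.det = p ^ 2 + q ^ 2 + r ^ 2 := by
    rw [hA, Matrix.det_fin_three]
    simp only [Fin.isValue, Matrix.of_apply, Matrix.cons_val', Matrix.cons_val_zero, Matrix.cons_val_fin_one, Matrix.cons_val_one, Matrix.cons_val]
    ring
  have hne : A.det ≠ 0 := by
    intro h0
    rw [hdet] at h0
    have hp0 : p = 0 := by nlinarith only [h0]
    have hq0 : q = 0 := by nlinarith only [h0]
    have hr0 : r = 0 := by nlinarith only [h0]
    have k : ∀ j, c j = 0 := by
      intro j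
      have := (hbc (c j) (-b j) (fun i => ?_)).1
      · exact this
      · fin_cases j <;> fin_cases i <;> simp only [Fin.zero_eta, Fin.mk_one, Fin.reduceFinMk] <;>
          nlinarith only [hp0, hq0, hr0]
    have := (hbc 0 1 (fun i => by rw [k i]; ring)).2
    exact one_ne_zero this
  refine ⟨A, A⁻¹, Matrix.nonsing_inv_mul A (isUnit_iff_ne_zero.2 hne), fun j => ?_, fun j => ?_⟩
  · fin_cases j <;> simp [hA]
  · fin_cases j <;> simp [hA]

theorem wedge_mean {w : Fin 3 → Form 2} (hw : IsHypersymplectic w) (hn : IsNormalized w)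
    (i j : Fin 3) : wedge (mean (w i)) (mean (w j)) = if i = j then 1 else 0 := by
  rw [← mean_wedge (hw.spc i) (hw.spc j), ← integral_eq_mean ((hw.spc i).1.wedge (hw.spc j).1)]
  exact hn i j

/-- oriented version of the main theorem -/
theorem main_oriented (hT : Taming) {w : Fin 3 → Form 2} (hw : IsHypersymplectic w)
    (hn : IsNormalized w) (Φ : TorusDiffeo) (hΦ : ∀ x, 0 < (fderiv ℝ Φ.invFun x).det)
    {b c : Fin 3 → ℝ} (hbc : ∀ s t : ℝ, (∀ i, s * b i + t * c i = 0) → s = 0 ∧ t = 0)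
    (hb : VanishesOnFibres Φ (fun x => ∑ i, b i • w i x))
    (hc : VanishesOnFibres Φ (fun x => ∑ i, c i • w i x)) :
    ∃ γ, IsCohomologousDeformation w γ ∧ IsHyperkahlerTriple (γ 1) := by
  obtain ⟨M, V, hΨ⟩ := exists_tmap Φ.smooth_invFun Φ.equivariant_inv
  obtain ⟨N, W, hΦ'⟩ := exists_tmap Φ.smooth_toFun Φ.equivariant
  obtain ⟨A, A', hA, hA0, hA1⟩ := exists_matrix hbc
  set Ψ := Φ.invFun with hΨdef
  have dΦ : Differentiable ℝ Φ.toFun := hΦ'.differentiable
  have dΨ : Differentiable ℝ Ψ := hΨ.differentiable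
  have hcomp1 : ∀ x, (fderiv ℝ Φ.toFun (Ψ x)).comp (fderiv ℝ Ψ x)
      = ContinuousLinearMap.id ℝ R4 := by
    intro x
    rw [← fderiv_comp x (dΦ _) (dΨ _)]
    have : Φ.toFun ∘ Ψ = id := funext Φ.right_inv
    rw [this, fderiv_id]
  have hcomp2 : ∀ x, (fderiv ℝ Ψ (Φ.toFun x)).comp (fderiv ℝ Φ.toFun x)
      = ContinuousLinearMap.id ℝ R4 := by
    intro x
    rw [← fderiv_comp x (dΨ _) (dΦ _)]
    have : Ψ ∘ Φ.toFun = id := funext Φ.left_inv
    rw [this, fderiv_id]
  have hdetΦ : ∀ x, 0 < (fderiv ℝ Φ.toFun x).det := fun x => det_comp_pos (hcomp2 x) (hΦ _)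
  set v : Fin 3 → Form 2 := fun i => pbk Ψ (w i) with hv
  have hvh : IsHypersymplectic v := hypersymplectic_pbk hΨ hΦ hw
  have hvA : IsHypersymplectic (act A v) := isHypersymplectic_act hA hvh
  have hvan : ∀ (d : Fin 3 → ℝ) (k : Fin 3), (∀ j, A k j = d j) →
      VanishesOnFibres Φ (fun x => ∑ i, d i • w i x) → ∀ x, coord (act A v k x) 5 = 0 := by
    intro d k hk hd x
    have e1 : coord (act A v k x) 5 = comp (act A v k x) 2 3 := rfl
    have e2 : act A v k x = (∑ j, d j • w j (Ψ x)).compContinuousLinearMap (fderiv ℝ Ψ x) := by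
      rw [compCLM_sum]
      simp only [act, hk]
      rfl
    rw [e1, e2, comp, pullback_apply]
    have h1 : fderiv ℝ Φ.toFun (Ψ x) (fderiv ℝ Ψ x (e 2)) = e 2 := by
      have := congrArg (fun L : R4 →L[ℝ] R4 => L (e 2)) (hcomp1 x)
      exact this
    have h2 : fderiv ℝ Φ.toFun (Ψ x) (fderiv ℝ Ψ x (e 3)) = e 3 := by
      have := congrArg (fun L : R4 →L[ℝ] R4 => L (e 3)) (hcomp1 x)
      exact this
    refine hd (Ψ x) _ _ ?_ ?_ ?_ ?_
    · rw [h1]; simp [e]
    · rw [h1]; simp [e]
    · rw [h2]; simp [e]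
    · rw [h2]; simp [e]
  obtain ⟨U, sU, hdetU, hJ⟩ := coord_version hT hvA (hvan b 0 hA0 hb) (hvan c 1 hA1 hc)
  have hJ2 := joined_of_act hA (fun i => (hvh.spc i).1) hJ
  have hJ3 := joined_pbk hΦ' hdetΦ hJ2
  have e3 : (fun i => pbk Φ.toFun (v i)) = w := by
    funext i
    exact pbk_pbk dΨ dΦ Φ.left_inv (w i)
  rw [e3] at hJ3
  have hend := hJ3.isHypersymplectic_right
  obtain ⟨γ, hγ, hγ1⟩ := hJ3.deformation
  refine ⟨γ, hγ, ?_⟩
  rw [hγ1]
  have hmean : ∀ i, mean (v i) = (mean (w i)).compContinuousLinearMap M := fun i =>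
    hΨ.mean_pbk (hw.spc i)
  have hM : 0 < M.det := by
    have h1 := (def3_mean hvh).wedge_pos 0
    simp only [hmean, wedge_pullback, wedge_mean hw hn] at h1
    simpa using h1
  refine ⟨hend.torus, hend.closed, fun x => (fderiv ℝ Φ.toFun x).det
    * ((jac U (Φ.toFun x)).det * M.det) / 2, fun x => ?_, fun x i j => ?_⟩
  · have := mul_pos (hdetΦ x) (mul_pos (hdetU (Φ.toFun x)) hM)
    linarith only [this]
  · have e4 : ∀ i, pbk Φ.toFun (modelTriple U (fun i => mean (v i)) i) x =
        ((mean (v i)).compContinuousLinearMap (jac U (Φ.toFun x))).compContinuousLinearMap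
          (fderiv ℝ Φ.toFun x) := fun i => rfl
    simp only [e4]
    rw [wedge_pullback, wedge_pullback, hmean, hmean, wedge_pullback, wedge_mean hw hn]
    split_ifs <;> ring

end Vale.Agent.P247
end
end

section

section

open MeasureTheory Set Filter Topology
open scoped ContDiff

namespace Vale.Agent.P247

/-- reflection in the last coordinate -/
noncomputable def refl3 : R4 →L[ℝ] R4 :=
  ContinuousLinearMap.id ℝ R4 - (2 : ℝ) • (ContinuousLinearMap.proj 3 : R4 →L[ℝ] ℝ).smulRight (e 3)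

theorem refl3_apply (x : R4) : refl3 x = x - (2 * x 3) • e 3 := by
  simp [refl3, mul_smul]

theorem refl3_refl3 (x : R4) : refl3 (refl3 x) = x := by
  rw [refl3_apply, refl3_apply]
  have h : (x - (2 * x 3) • e 3 : R4) 3 = - x 3 := by
    simp [e]; ring
  rw [h]
  module

theorem refl3_zero (x : R4) : refl3 x 0 = x 0 := by
  rw [refl3_apply]; simp [e]

theorem refl3_one (x : R4) : refl3 x 1 = x 1 := by
  rw [refl3_apply]; simp [e]

theorem refl3_iv (m : Fin 4 → ℤ) : refl3 (iv m) = iv ![m 0, m 1, m 2, -m 3] := by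
  rw [refl3_apply]
  funext i
  fin_cases i <;> simp [iv, e]
  ring

theorem refl3_det : refl3.det = -1 := by
  rw [det_eq_matrix]
  have : (Matrix.of fun a i => (refl3 (e i)) a : Matrix (Fin 4) (Fin 4) ℝ) =
      Matrix.diagonal ![1, 1, 1, -1] := by
    ext a i
    simp only [Matrix.of_apply, refl3_apply]
    fin_cases a <;> fin_cases i <;> simp [e, Matrix.diagonal]
    norm_num
  rw [this, Matrix.det_diagonal]
  simp [Fin.prod_univ_four]

/-- compose a diffeomorphism with the reflection -/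
noncomputable def TorusDiffeo.refl (Φ : TorusDiffeo) : TorusDiffeo where
  toFun := fun x => refl3 (Φ.toFun x)
  invFun := fun x => Φ.invFun (refl3 x)
  smooth_toFun := refl3.contDiff.comp Φ.smooth_toFun
  smooth_invFun := Φ.smooth_invFun.comp refl3.contDiff
  left_inv := fun x => by rw [refl3_refl3, Φ.left_inv]
  right_inv := fun x => by rw [Φ.right_inv, refl3_refl3]
  equivariant := fun n => by
    obtain ⟨m, hm⟩ := Φ.equivariant n
    refine ⟨![m 0, m 1, m 2, -m 3], fun x => ?_⟩
    rw [hm x]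
    have h1 : (fun i => Φ.toFun x i + m i : R4) = Φ.toFun x + iv m := rfl
    rw [h1, map_add, refl3_iv]
    rfl
  equivariant_inv := fun n => by
    obtain ⟨m, hm⟩ := Φ.equivariant_inv ![n 0, n 1, n 2, -n 3]
    refine ⟨m, fun x => ?_⟩
    have h1 : (fun i => x i + n i : R4) = x + iv n := rfl
    rw [h1, map_add, refl3_iv]
    exact hm (refl3 x)

theorem vanishes_refl {Φ : TorusDiffeo} {w : Form 2} (h : VanishesOnFibres Φ w) :
    VanishesOnFibres Φ.refl w := by
  have hd : ∀ x, fderiv ℝ Φ.refl.toFun x = refl3.comp (fderiv ℝ Φ.toFun x) := by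
    intro x
    have h1 : Differentiable ℝ Φ.toFun := Φ.smooth_toFun.differentiable (by simp)
    have h2 : Φ.refl.toFun = refl3 ∘ Φ.toFun := rfl
    rw [h2, fderiv_comp x refl3.differentiableAt (h1 x), refl3.fderiv]
  intro x u v h1 h2 h3 h4
  rw [hd] at h1 h2 h3 h4
  refine h x u v ?_ ?_ ?_ ?_
  · have := refl3_zero (fderiv ℝ Φ.toFun x u)
    rw [← this]; exact h1
  · have := refl3_one (fderiv ℝ Φ.toFun x u)
    rw [← this]; exact h2
  · have := refl3_zero (fderiv ℝ Φ.toFun x v)
    rw [← this]; exact h3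
  · have := refl3_one (fderiv ℝ Φ.toFun x v)
    rw [← this]; exact h4

theorem main_of_taming (hT : Taming) {w : Fin 3 → Form 2} (hw : IsHypersymplectic w)
    (hn : IsNormalized w) (Φ : TorusDiffeo)
    {b c : Fin 3 → ℝ} (hbc : ∀ s t : ℝ, (∀ i, s * b i + t * c i = 0) → s = 0 ∧ t = 0)
    (hb : VanishesOnFibres Φ (fun x => ∑ i, b i • w i x))
    (hc : VanishesOnFibres Φ (fun x => ∑ i, c i • w i x)) :
    ∃ γ, IsCohomologousDeformation w γ ∧ IsHyperkahlerTriple (γ 1) := by
  have dΦ : Differentiable ℝ Φ.toFun := Φ.smooth_toFun.differentiable (by simp)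
  have dΨ : Differentiable ℝ Φ.invFun := Φ.smooth_invFun.differentiable (by simp)
  have hcomp2 : ∀ x, (fderiv ℝ Φ.toFun (Φ.invFun x)).comp (fderiv ℝ Φ.invFun x)
      = ContinuousLinearMap.id ℝ R4 := by
    intro x
    rw [← fderiv_comp x (dΦ _) (dΨ _)]
    have : Φ.toFun ∘ Φ.invFun = id := funext Φ.right_inv
    rw [this, fderiv_id]
  have hcomp3 : ∀ x, (fderiv ℝ Φ.invFun (Φ.toFun x)).comp (fderiv ℝ Φ.toFun x)
      = ContinuousLinearMap.id ℝ R4 := by
    intro x
    rw [← fderiv_comp x (dΨ _) (dΦ _)]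
    have : Φ.invFun ∘ Φ.toFun = id := funext Φ.left_inv
    rw [this, fderiv_id]
  have hne : ∀ x, (fderiv ℝ Φ.invFun x).det ≠ 0 := by
    intro x
    have := hcomp3 (Φ.invFun x)
    rw [Φ.right_inv] at this
    exact det_comp_ne this
  have hcont : Continuous fun x => (fderiv ℝ Φ.invFun x).det :=
    ContinuousLinearMap.continuous_det.comp (Φ.smooth_invFun.continuous_fderiv (by simp))
  rcases sign_const hcont hne with h | h
  · exact main_oriented hT hw hn Φ h hbc hb hc
  · refine main_oriented hT hw hn Φ.refl (fun x => ?_) hbc (vanishes_refl hb) (vanishes_refl hc)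
    have h1 : Φ.refl.invFun = Φ.invFun ∘ refl3 := rfl
    have h2 : fderiv ℝ Φ.refl.invFun x = (fderiv ℝ Φ.invFun (refl3 x)).comp refl3 := by
      rw [h1, fderiv_comp x (dΨ _) refl3.differentiableAt, refl3.fderiv]
    rw [h2]
    have h3 : ((fderiv ℝ Φ.invFun (refl3 x)).comp refl3).det =
        (fderiv ℝ Φ.invFun (refl3 x)).det * refl3.det := LinearMap.det_comp _ _
    rw [h3, refl3_det]
    have := h (refl3 x)
    (clear * - this; linarith)

end Vale.Agent.P247
end
end
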